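import Vale.Agent.P205.MathlibUsed
attribute [-instance] ProperSMul.toContinuousSMul IsTopologicalTorsor.toContinuousSMul IdemSemiring.toCanonicallyOrderedAdd IdemSemiring.toMulLeftMono IdemSemiring.toMulRightMono AddQuantale.instAddLeftMono AddQuantale.instAddRightMono Quantale.instMulLeftMono Quantale.instMulRightMono FiniteDimensional.rclike_to_real IsScalarTower.complexToReal FiniteDimensional.complexToReal

set_option linter.all false

section

section

open scoped ContDiff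

namespace Vale.Agent.P205

/-- The symmetric bilinear form `E dx² + 2 F dx dy + G dy²` in the plane. -/
def form (a b c : ℝ) (v w : ℝ × ℝ) : ℝ :=
  a * (v.1 * w.1) + b * (v.1 * w.2 + v.2 * w.1) + c * (v.2 * w.2)

/-- `X` induces the metric `E dx² + 2 F dx dy + G dy²`, i.e. it is an isometric immersion of it. -/
def Induces (X : ℝ × ℝ → EuclideanSpace ℝ (Fin 4)) (E F G : ℝ × ℝ → ℝ) : Prop :=
  ∀ p v w, inner ℝ (fderiv ℝ X p v) (fderiv ℝ X p w) = form (E p) (F p) (G p) v w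

/-- `f` is invariant under the translations by `a` and by `b`. -/
def Periodic2 {α : Type*} (a b : ℝ × ℝ) (f : ℝ × ℝ → α) : Prop :=
  (∀ p, f (p + a) = f p) ∧ (∀ p, f (p + b) = f p)

/-- T-diag: diagonal metrics `A² dx² + B² dy²` on `(ℝ/2πℤ)²` with `B²/A²` a nonconstant
function of `x - y`. -/
def TDiag : Prop :=
  ∀ (A B : ℝ × ℝ → ℝ) (Q : ℝ → ℝ),
    ContDiff ℝ ∞ A → ContDiff ℝ ∞ B → ContDiff ℝ ∞ Q →
    Periodic2 (2 * Real.pi, 0) (0, 2 * Real.pi) A →
    Periodic2 (2 * Real.pi, 0) (0, 2 * Real.pi) B →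
    (∀ s, Q (s + 2 * Real.pi) = Q s) → (∀ s, 0 < Q s) → (∃ s t, Q s ≠ Q t) →
    (∀ p, 0 < A p) → (∀ p, 0 < B p) →
    (∀ p, (B p) ^ 2 = Q (p.1 - p.2) * (A p) ^ 2) →
    ∃ X : ℝ × ℝ → EuclideanSpace ℝ (Fin 4), ContDiff ℝ ∞ X ∧
      Periodic2 (2 * Real.pi, 0) (0, 2 * Real.pi) X ∧
      Induces X (fun p => (A p) ^ 2) (fun _ => 0) (fun p => (B p) ^ 2)

/-- T-conf: conformal metrics `L² (dx² + dy²)` on the plane modulo any lattice. -/
def TConf : Prop :=
  ∀ (a b : ℝ × ℝ) (L : ℝ × ℝ → ℝ), a.1 * b.2 - a.2 * b.1 ≠ 0 →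
    ContDiff ℝ ∞ L → Periodic2 a b L → (∀ p, 0 < L p) →
    ∃ X : ℝ × ℝ → EuclideanSpace ℝ (Fin 4), ContDiff ℝ ∞ X ∧ Periodic2 a b X ∧
      Induces X (fun p => (L p) ^ 2) (fun _ => 0) (fun p => (L p) ^ 2)

/-- T-gen: all smooth Riemannian metrics on `ℝ²/ℤ²`. -/
def TGen : Prop :=
  ∀ (E F G : ℝ × ℝ → ℝ),
    ContDiff ℝ ∞ E → ContDiff ℝ ∞ F → ContDiff ℝ ∞ G →
    Periodic2 (1, 0) (0, 1) E → Periodic2 (1, 0) (0, 1) F → Periodic2 (1, 0) (0, 1) G →
    (∀ p, 0 < E p) → (∀ p, 0 < E p * G p - (F p) ^ 2) →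
    ∃ X : ℝ × ℝ → EuclideanSpace ℝ (Fin 4), ContDiff ℝ ∞ X ∧ Periodic2 (1, 0) (0, 1) X ∧
      Induces X E F G

/-- T-unif: uniformisation of smooth Riemannian metrics on `ℝ²/ℤ²`. `f` is the uniformising
diffeomorphism of the plane with inverse `h`, `a b` the lattice, `L` the conformal factor. -/
def TUnif : Prop :=
  ∀ (E F G : ℝ × ℝ → ℝ),
    ContDiff ℝ ∞ E → ContDiff ℝ ∞ F → ContDiff ℝ ∞ G →
    Periodic2 (1, 0) (0, 1) E → Periodic2 (1, 0) (0, 1) F → Periodic2 (1, 0) (0, 1) G →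
    (∀ p, 0 < E p) → (∀ p, 0 < E p * G p - (F p) ^ 2) →
    ∃ (f h : ℝ × ℝ → ℝ × ℝ) (a b : ℝ × ℝ) (L : ℝ × ℝ → ℝ),
      ContDiff ℝ ∞ f ∧ ContDiff ℝ ∞ h ∧ ContDiff ℝ ∞ L ∧
      (∀ p, h (f p) = p) ∧ (∀ p, f (h p) = p) ∧
      (∀ p, f (p + (1, 0)) = f p + a) ∧ (∀ p, f (p + (0, 1)) = f p + b) ∧
      a.1 * b.2 - a.2 * b.1 ≠ 0 ∧ (∀ p, 0 < L p) ∧
      ∀ p v w, form (E p) (F p) (G p) v w =
        (L p) ^ 2 * form 1 0 1 (fderiv ℝ f p v) (fderiv ℝ f p w)

end Vale.Agent.P205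
end
end

section

section

open scoped ContDiff

namespace Vale.Agent.P205

/-- T-Bel: the Beltrami equation on the torus `ℝ²/ℤ²`, with nowhere vanishing `f_z`.
Here `2 f_z = f_x - i f_y` and `2 f_zbar = f_x + i f_y`. -/
def TBel : Prop :=
  ∀ (μ : ℝ × ℝ → ℂ) (k : ℝ), ContDiff ℝ ∞ μ → Periodic2 (1, 0) (0, 1) μ → k < 1 →
    (∀ p, ‖μ p‖ ≤ k) →
    ∃ (f : ℝ × ℝ → ℂ) (a b : ℂ), ContDiff ℝ ∞ f ∧
      (∀ p, f (p + (1, 0)) = f p + a) ∧ (∀ p, f (p + (0, 1)) = f p + b) ∧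
      (∀ p, fderiv ℝ f p (1, 0) - Complex.I * fderiv ℝ f p (0, 1) ≠ 0) ∧
      ∀ p, fderiv ℝ f p (1, 0) + Complex.I * fderiv ℝ f p (0, 1) =
        μ p * (fderiv ℝ f p (1, 0) - Complex.I * fderiv ℝ f p (0, 1))

end Vale.Agent.P205
end
end

section

section

open scoped ContDiff Topology
open Filter

noncomputable section

namespace Vale.Agent.P205

namespace GInv

lemma per_int {α : Type*} {g : ℝ × ℝ → α} (h : Periodic2 (1, 0) (0, 1) g) (m n : ℤ) (p : ℝ × ℝ) :
    g (p.1 - m, p.2 - n) = g p := by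
  have h1 : ∀ y, Function.Periodic (fun x => g (x, y)) 1 := fun y x => by
    have := h.1 (x, y); simpa using this
  have h2 : ∀ x, Function.Periodic (fun y => g (x, y)) 1 := fun x y => by
    have := h.2 (x, y); simpa using this
  have e1 := (h1 (p.2 - n)).sub_int_mul_eq (x := p.1) m
  have e2 := (h2 p.1).sub_int_mul_eq (x := p.2) n
  simp only [mul_one] at e1 e2
  rw [e1, e2]

lemma per_fract {α : Type*} {g : ℝ × ℝ → α} (h : Periodic2 (1, 0) (0, 1) g) (p : ℝ × ℝ) :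
    g p = g (Int.fract p.1, Int.fract p.2) := by
  have := per_int h ⌊p.1⌋ ⌊p.2⌋ p
  rw [← this]; rfl

lemma fract_mem (p : ℝ × ℝ) :
    ((Int.fract p.1, Int.fract p.2) : ℝ × ℝ) ∈ Set.Icc (0 : ℝ) 1 ×ˢ Set.Icc (0 : ℝ) 1 :=
  ⟨⟨Int.fract_nonneg _, (Int.fract_lt_one _).le⟩, ⟨Int.fract_nonneg _, (Int.fract_lt_one _).le⟩⟩

lemma exists_max {g : ℝ × ℝ → ℝ} (hc : Continuous g) (h : Periodic2 (1, 0) (0, 1) g) :
    ∃ p, ∀ q, g q ≤ g p := by
  obtain ⟨p, -, hp⟩ := (isCompact_Icc.prod isCompact_Icc).exists_isMaxOn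
    (⟨((0 : ℝ), (0 : ℝ)), by simp only [Set.Icc_prod_Icc, Set.mem_Icc, Std.le_refl, Prod.mk_le_mk, zero_le_one, and_self]⟩ : (Set.Icc (0 : ℝ) 1 ×ˢ Set.Icc (0 : ℝ) 1).Nonempty)
    hc.continuousOn
  exact ⟨p, fun q => by rw [per_fract h q]; exact hp (fract_mem q)⟩

lemma exists_bound {E : Type*} [NormedAddCommGroup E] {g : ℝ × ℝ → E} (hc : Continuous g)
    (h : Periodic2 (1, 0) (0, 1) g) : ∃ C, ∀ q, ‖g q‖ ≤ C := by
  obtain ⟨p, hp⟩ := exists_max (g := fun q => ‖g q‖) hc.norm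
    ⟨fun q => by simp only [h.1 q], fun q => by simp only [h.2 q]⟩
  exact ⟨‖g p‖, hp⟩

variable {f : ℝ × ℝ → ℝ × ℝ} {a b : ℝ × ℝ}

lemma det_ne (hf : ContDiff ℝ ∞ f) (h1 : ∀ p, f (p + (1, 0)) = f p + a)
    (h2 : ∀ p, f (p + (0, 1)) = f p + b) (hJ : ∀ p v, fderiv ℝ f p v = 0 → v = 0) :
    a.1 * b.2 - a.2 * b.1 ≠ 0 := by
  intro hdet
  -- a nonzero functional killing a and b
  obtain ⟨u, hu, hua, hub⟩ : ∃ u : ℝ × ℝ, u ≠ 0 ∧ u.1 * a.1 + u.2 * a.2 = 0 ∧
      u.1 * b.1 + u.2 * b.2 = 0 := by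
    by_cases ha : a = 0
    · by_cases hb : b = 0
      · exact ⟨(1, 0), by simp, by simp [ha], by simp [hb]⟩
      · refine ⟨(-b.2, b.1), fun h => hb ?_, by simp [ha], by simp only [neg_mul]; ring⟩
        have h3 : -b.2 = 0 ∧ b.1 = 0 := by simpa using h
        exact Prod.ext h3.2 (by simpa using h3.1)
    · refine ⟨(-a.2, a.1), fun h => ha ?_, by simp only [neg_mul]; ring, by simp; linarith only [hdet]⟩
      have h3 : -a.2 = 0 ∧ a.1 = 0 := by simpa using h
      exact Prod.ext h3.2 (by simpa using h3.1)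
  set g : ℝ × ℝ → ℝ := fun p => u.1 * (f p).1 + u.2 * (f p).2 with hg
  have hgc : Continuous g := (continuous_const.mul hf.continuous.fst).add
    (continuous_const.mul hf.continuous.snd)
  have hgp : Periodic2 (1, 0) (0, 1) g := by
    refine ⟨fun p => ?_, fun p => ?_⟩
    · simp only [hg, h1, Prod.fst_add, Prod.snd_add]; linarith only [hua]
    · simp only [hg, h2, Prod.fst_add, Prod.snd_add]; linarith only [hub]
  obtain ⟨p, hp⟩ := exists_max hgc hgp
  have hmax : IsLocalMax g p := Filter.Eventually.of_forall hp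
  have hfd : HasFDerivAt f (fderiv ℝ f p) p := (hf.differentiable (by simp) p).hasFDerivAt
  have hgd : HasFDerivAt g ((u.1 • ContinuousLinearMap.fst ℝ ℝ ℝ +
      u.2 • ContinuousLinearMap.snd ℝ ℝ ℝ).comp (fderiv ℝ f p)) p :=
    ((u.1 • ContinuousLinearMap.fst ℝ ℝ ℝ +
      u.2 • ContinuousLinearMap.snd ℝ ℝ ℝ).hasFDerivAt (x := f p)).comp p hfd
  have hz := hmax.hasFDerivAt_eq_zero hgd
  have hinj : Function.Injective (fderiv ℝ f p) := by
    rw [injective_iff_map_eq_zero]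
    exact fun v hv => hJ p v hv
  have hsurj : Function.Surjective (fderiv ℝ f p) :=
    LinearMap.injective_iff_surjective.mp hinj
  obtain ⟨v, hv⟩ := hsurj u
  have h5 := congrArg (fun L : ℝ × ℝ →L[ℝ] ℝ => L v) hz
  simp only [ContinuousLinearMap.comp_apply, hv, add_apply, smul_apply,
    ContinuousLinearMap.coe_fst', ContinuousLinearMap.coe_snd', smul_eq_mul, zero_apply] at h5
  apply hu
  have e1 : u.1 = 0 := by nlinarith only [h5]
  have e2 : u.2 = 0 := by nlinarith only [h5]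
  exact Prod.ext e1 e2

lemma tendsto_cocompact (hf : Continuous f) (h1 : ∀ p, f (p + (1, 0)) = f p + a)
    (h2 : ∀ p, f (p + (0, 1)) = f p + b) (hdet : a.1 * b.2 - a.2 * b.1 ≠ 0) :
    Tendsto f (cocompact (ℝ × ℝ)) (cocompact (ℝ × ℝ)) := by
  set g : ℝ × ℝ → ℝ × ℝ := fun p => f p - (p.1 • a + p.2 • b) with hg
  have hgc : Continuous g := by
    refine hf.sub ?_
    fun_prop
  have hgp : Periodic2 (1, 0) (0, 1) g := by
    refine ⟨fun p => ?_, fun p => ?_⟩
    · simp only [hg, h1, Prod.fst_add, Prod.snd_add, add_zero, add_smul, one_smul]; abel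
    · simp only [hg, h2, Prod.fst_add, Prod.snd_add, add_zero, add_smul, one_smul]; abel
  obtain ⟨C, hC⟩ := exists_bound hgc hgp
  set d : ℝ := a.1 * b.2 - a.2 * b.1 with hd
  -- norm bound
  set M : ℝ := (‖a‖ + ‖b‖) * 2 / |d| with hM
  have hd0 : 0 < |d| := abs_pos.mpr hdet
  have hlin : ∀ p : ℝ × ℝ, ‖p‖ ≤ M * ‖p.1 • a + p.2 • b‖ := by
    intro p
    set q := p.1 • a + p.2 • b with hq
    have e1 : d * p.1 = q.1 * b.2 - q.2 * b.1 := by
      simp only [hq, hd, Prod.fst_add, Prod.snd_add, Prod.smul_fst, Prod.smul_snd, smul_eq_mul]; ring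
    have e2 : d * p.2 = a.1 * q.2 - a.2 * q.1 := by
      simp only [hq, hd, Prod.fst_add, Prod.snd_add, Prod.smul_fst, Prod.smul_snd, smul_eq_mul]; ring
    have n1 : ∀ z : ℝ × ℝ, |z.1| ≤ ‖z‖ := fun z => norm_fst_le z
    have n2 : ∀ z : ℝ × ℝ, |z.2| ≤ ‖z‖ := fun z => norm_snd_le z
    have a1 := n1 a
    have a2 := n2 a
    have b1 := n1 b
    have b2 := n2 b
    have q1 := n1 q
    have q2 := n2 q
    have hq0 := norm_nonneg q
    have f1 : |d| * |p.1| ≤ (‖a‖ + ‖b‖) * 2 * ‖q‖ := by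
      rw [← abs_mul, e1]
      calc |q.1 * b.2 - q.2 * b.1| ≤ |q.1 * b.2| + |q.2 * b.1| := abs_sub _ _
        _ = |q.1| * |b.2| + |q.2| * |b.1| := by rw [abs_mul, abs_mul]
        _ ≤ ‖q‖ * ‖b‖ + ‖q‖ * ‖b‖ := by (clear * - q1 b2 q2 b1; gcongr)
        _ ≤ _ := by linarith only [mul_nonneg (norm_nonneg a) hq0]
    have f2 : |d| * |p.2| ≤ (‖a‖ + ‖b‖) * 2 * ‖q‖ := by
      rw [← abs_mul, e2]
      calc |a.1 * q.2 - a.2 * q.1| ≤ |a.1 * q.2| + |a.2 * q.1| := abs_sub _ _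
        _ = |a.1| * |q.2| + |a.2| * |q.1| := by rw [abs_mul, abs_mul]
        _ ≤ ‖a‖ * ‖q‖ + ‖a‖ * ‖q‖ := by (clear * - a1 q2 a2 q1; gcongr)
        _ ≤ _ := by linarith only [mul_nonneg (norm_nonneg b) hq0]
    have hnorm : ‖p‖ = max |p.1| |p.2| := rfl
    rw [hnorm, hM, div_mul_eq_mul_div, le_div_iff₀ hd0]
    rcases max_cases |p.1| |p.2| with ⟨h, -⟩ | ⟨h, -⟩ <;> rw [h] <;> linarith only [f1, f2]
  have hM0 : 0 ≤ M := by (clear * - hdet; positivity)
  rw [← Metric.cobounded_eq_cocompact, ← tendsto_norm_atTop_iff_cobounded]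
  have h3 : ∀ p : ℝ × ℝ, ‖p‖ ≤ (M + 1) * (‖f p‖ + |C|) := by
    intro p
    have h4 : ‖p.1 • a + p.2 • b‖ ≤ ‖f p‖ + |C| := by
      have e : p.1 • a + p.2 • b = f p - g p := by simp only [hg]; abel
      rw [e]
      exact (norm_sub_le _ _).trans (add_le_add le_rfl ((hC p).trans (le_abs_self C)))
    have h5 : 0 ≤ ‖f p‖ + |C| := by (clear * -; positivity)
    calc ‖p‖ ≤ M * ‖p.1 • a + p.2 • b‖ := hlin p
      _ ≤ M * (‖f p‖ + |C|) := mul_le_mul_of_nonneg_left h4 hM0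
      _ ≤ _ := by linarith only [h5]
  have h6 : Tendsto (fun p : ℝ × ℝ => (M + 1)⁻¹ * ‖p‖ - |C|) (Bornology.cobounded (ℝ × ℝ))
      atTop := by
    apply tendsto_atTop_add_const_right
    exact (tendsto_norm_cobounded_atTop).const_mul_atTop (by (clear * - hdet; positivity))
  refine tendsto_atTop_mono (fun p => ?_) h6
  have := h3 p
  have h7 : 0 < M + 1 := by (clear * - hdet; positivity)
  rw [sub_le_iff_le_add, inv_mul_le_iff₀ h7]
  exact this

lemma exists_equiv (p : ℝ × ℝ) (hJ : ∀ v, fderiv ℝ f p v = 0 → v = 0) :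
    ∃ e : (ℝ × ℝ) ≃L[ℝ] (ℝ × ℝ), (e : ℝ × ℝ →L[ℝ] ℝ × ℝ) = fderiv ℝ f p := by
  have hinj : Function.Injective (fderiv ℝ f p) := by
    rw [injective_iff_map_eq_zero]
    exact fun v hv => hJ v hv
  have hsurj : Function.Surjective (fderiv ℝ f p) :=
    LinearMap.injective_iff_surjective.mp hinj
  refine ⟨ContinuousLinearEquiv.ofBijective (fderiv ℝ f p)
    (LinearMap.ker_eq_bot.mpr hinj) (LinearMap.range_eq_top.mpr hsurj), ?_⟩
  ext <;> rfl

theorem global_inverse (hf : ContDiff ℝ ∞ f) (h1 : ∀ p, f (p + (1, 0)) = f p + a)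
    (h2 : ∀ p, f (p + (0, 1)) = f p + b) (hJ : ∀ p v, fderiv ℝ f p v = 0 → v = 0) :
    a.1 * b.2 - a.2 * b.1 ≠ 0 ∧
      ∃ h : ℝ × ℝ → ℝ × ℝ, ContDiff ℝ ∞ h ∧ (∀ p, h (f p) = p) ∧ (∀ p, f (h p) = p) := by
  have hdet := det_ne hf h1 h2 hJ
  refine ⟨hdet, ?_⟩
  have hprop : IsProperMap f :=
    isProperMap_iff_tendsto_cocompact.mpr ⟨hf.continuous, tendsto_cocompact hf.continuous h1 h2 hdet⟩
  have hloc : IsLocalHomeomorph f := by
    refine IsLocalHomeomorph.mk f fun p => ?_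
    obtain ⟨e, he⟩ := exists_equiv p (hJ p)
    have hd : HasFDerivAt f (e : ℝ × ℝ →L[ℝ] ℝ × ℝ) p := by
      rw [he]; exact (hf.differentiable (by simp) p).hasFDerivAt
    refine ⟨hf.contDiffAt.toOpenPartialHomeomorph f hd (by simp), ?_, ?_⟩
    · exact hf.contDiffAt.mem_toOpenPartialHomeomorph_source hd (by simp)
    · intro q _
      rfl
  have hfin : ∀ y ∈ Set.univ, (f ⁻¹' {y}).Finite := by
    intro y _
    have hcomp : IsCompact (f ⁻¹' {y}) := hprop.isCompact_preimage isCompact_singleton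
    refine hcomp.finite (IsDiscrete.of_openPartialHomeomorph f (x := y) subset_rfl fun x _ => ?_)
    obtain ⟨e, hxe, he⟩ := hloc x
    exact ⟨e, hxe, he.symm⟩
  have hcov : IsCoveringMap f := by
    rw [isCoveringMap_iff_isCoveringMapOn_univ]
    exact hprop.isClosedMap.isCoveringMapOn_of_isLocalHomeomorphOn hfin
      hloc.isLocalHomeomorphOn
  obtain ⟨h, ⟨h0, hh⟩, -⟩ := hcov.existsUnique_continuousMap_lifts
    (ContinuousMap.id (ℝ × ℝ)) (f 0) 0 rfl
  have hfh : ∀ p, f (h p) = p := fun p => congrFun hh p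
  have hhf : ∀ p, h (f p) = p := by
    have : (fun p => h (f p)) = id := by
      refine hcov.eq_of_comp_eq (h.continuous.comp hf.continuous) continuous_id ?_ 0 h0
      funext p
      exact hfh (f p)
    exact fun p => congrFun this p
  refine ⟨h, ?_, hhf, hfh⟩
  set H : (ℝ × ℝ) ≃ₜ (ℝ × ℝ) :=
    { toFun := f, invFun := h, left_inv := hhf, right_inv := hfh,
      continuous_toFun := hf.continuous, continuous_invFun := h.continuous } with hH
  rw [contDiff_iff_contDiffAt]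
  intro y
  obtain ⟨e, he⟩ := exists_equiv (h y) (hJ (h y))
  exact H.toOpenPartialHomeomorph.contDiffAt_symm (f₀' := e) (Set.mem_univ _)
    (by rw [he]; exact (hf.differentiable (by simp) (h y)).hasFDerivAt) hf.contDiffAt

end GInv

end Vale.Agent.P205
end
end
end

section

section

open scoped ContDiff ComplexConjugate

noncomputable section

namespace Vale.Agent.P205

namespace Unif

/-- Euclidean product of two vectors of the form `v₁ (1+μ) P + v₂ i (1-μ) P`. -/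
lemma re_alg (m P : ℂ) (v w : ℝ × ℝ) :
    (((v.1 : ℂ) * ((1 + m) * P) + v.2 * (Complex.I * (1 - m) * P)).re *
      ((w.1 : ℂ) * ((1 + m) * P) + w.2 * (Complex.I * (1 - m) * P)).re +
    ((v.1 : ℂ) * ((1 + m) * P) + v.2 * (Complex.I * (1 - m) * P)).im *
      ((w.1 : ℂ) * ((1 + m) * P) + w.2 * (Complex.I * (1 - m) * P)).im) =
    (P.re ^ 2 + P.im ^ 2) * (((1 + m.re) ^ 2 + m.im ^ 2) * (v.1 * w.1) +
      2 * m.im * (v.1 * w.2 + v.2 * w.1) + ((1 - m.re) ^ 2 + m.im ^ 2) * (v.2 * w.2)) := by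
  simp only [Complex.add_re, Complex.add_im, Complex.mul_re, Complex.mul_im, Complex.ofReal_re,
    Complex.ofReal_im, Complex.one_re, Complex.one_im, Complex.sub_re, Complex.sub_im,
    Complex.I_re, Complex.I_im]
  ring

theorem tunif_of_tbel (hB : TBel) : TUnif := by
  intro E F G hE hF hG pE pF pG hE0 hdet
  set W : ℝ × ℝ → ℝ := fun p => Real.sqrt (E p * G p - (F p) ^ 2) with hW
  have hWs : ContDiff ℝ ∞ W := ((hE.mul hG).sub (hF.pow 2)).sqrt (fun p => (hdet p).ne')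
  have hW0 : ∀ p, 0 < W p := fun p => Real.sqrt_pos.mpr (hdet p)
  have hWsq : ∀ p, (W p) ^ 2 = E p * G p - (F p) ^ 2 := fun p => Real.sq_sqrt (hdet p).le
  have hG0 : ∀ p, 0 < G p := by
    intro p
    have h1 := hdet p
    have h2 := hE0 p
    by_contra hc
    push Not at hc
    linarith only [mul_nonneg (le_of_lt (sub_pos.2 h2)) (sub_nonneg.2 hc), h1, sq_nonneg (F p : ℝ)]
  set N : ℝ × ℝ → ℝ := fun p => E p + G p + 2 * W p with hN
  have hNs : ContDiff ℝ ∞ N := (hE.add hG).add (contDiff_const.mul hWs)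
  have hN0 : ∀ p, 0 < N p := fun p => by
    have := hE0 p; have := hG0 p; have := hW0 p; simp only [hN]; (clear hB hE hF hG pE pF pG hW hWs hWsq N hN hNs; linarith)
  set mr : ℝ × ℝ → ℝ := fun p => (E p - G p) / N p with hmr
  set mi : ℝ × ℝ → ℝ := fun p => (2 * F p) / N p with hmi
  have hmrs : ContDiff ℝ ∞ mr := (hE.sub hG).div hNs (fun p => (hN0 p).ne')
  have hmis : ContDiff ℝ ∞ mi := (contDiff_const.mul hF).div hNs (fun p => (hN0 p).ne')
  set μ : ℝ × ℝ → ℂ := fun p => (mr p : ℂ) + (mi p : ℂ) * Complex.I with hμ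
  have hμs : ContDiff ℝ ∞ μ := (Complex.ofRealCLM.contDiff.comp hmrs).add
    ((Complex.ofRealCLM.contDiff.comp hmis).mul contDiff_const)
  have hμre : ∀ p, (μ p).re = mr p := fun p => by simp [hμ]
  have hμim : ∀ p, (μ p).im = mi p := fun p => by simp [hμ]
  have hμper : Periodic2 (1, 0) (0, 1) μ := by
    refine ⟨fun p => ?_, fun p => ?_⟩
    · simp only [hμ, hmr, hmi, hN, hW]; rw [pE.1, pF.1, pG.1]
    · simp only [hμ, hmr, hmi, hN, hW]; rw [pE.2, pF.2, pG.2]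
  -- key algebraic identities
  have k1 : ∀ p, N p / 4 * ((1 + mr p) ^ 2 + mi p ^ 2) = E p := by
    intro p
    have h1 := (hN0 p).ne'
    have h2 := hWsq p
    have h3 : (N p / 4 * ((1 + mr p) ^ 2 + mi p ^ 2)) =
        ((N p + (E p - G p)) ^ 2 + (2 * F p) ^ 2) / (4 * N p) := by
      simp only [hmr, hmi]; (clear * - h1; field_simp)
    rw [h3, div_eq_iff (by (clear * - h1; positivity))]
    simp only [hN]
    linear_combination 4 * h2
  have k3 : ∀ p, N p / 4 * ((1 - mr p) ^ 2 + mi p ^ 2) = G p := by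
    intro p
    have h1 := (hN0 p).ne'
    have h2 := hWsq p
    have h3 : (N p / 4 * ((1 - mr p) ^ 2 + mi p ^ 2)) =
        ((N p - (E p - G p)) ^ 2 + (2 * F p) ^ 2) / (4 * N p) := by
      simp only [hmr, hmi]; (clear * - h1; field_simp)
    rw [h3, div_eq_iff (by (clear * - h1; positivity))]
    simp only [hN]
    linear_combination 4 * h2
  have k2 : ∀ p, N p / 4 * (2 * mi p) = F p := by
    intro p
    have h1 := (hN0 p).ne'
    simp only [hmi]; field_simp; ring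
  have hlt : ∀ p, mr p ^ 2 + mi p ^ 2 < 1 := by
    intro p
    have h0 := hN0 p
    have h1 : mr p ^ 2 + mi p ^ 2 = ((E p - G p) ^ 2 + (2 * F p) ^ 2) / (N p) ^ 2 := by
      simp only [hmr, hmi]; (clear * - h0; field_simp)
    rw [h1, div_lt_one (by (clear * - h0; positivity))]
    have h2 := hWsq p
    have h3 := hW0 p
    have h4 := hE0 p
    have h5 := hG0 p
    simp only [hN]
    linarith only [mul_pos (sub_pos.2 h3) (sub_pos.2 h5), mul_pos (sub_pos.2 h3) (sub_pos.2 h4), mul_pos (sub_pos.2 h3) (sub_pos.2 h3), h2]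
  have hnormsq : ∀ p, ‖μ p‖ ^ 2 = mr p ^ 2 + mi p ^ 2 := by
    intro p
    rw [← Complex.normSq_eq_norm_sq, Complex.normSq_apply, hμre, hμim]; ring
  obtain ⟨p0, hp0⟩ := GInv.exists_max (g := fun p => ‖μ p‖) hμs.continuous.norm
    ⟨fun q => by simp only [hμper.1 q], fun q => by simp only [hμper.2 q]⟩
  have hk : ‖μ p0‖ < 1 := by
    have h1 := hlt p0
    rw [← hnormsq] at h1
    nlinarith only [h1]
  obtain ⟨fc, ac, bc, hfs, hf1, hf2, hfz, hfe⟩ := hB μ ‖μ p0‖ hμs hμper hk hp0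
  set P : ℝ × ℝ → ℂ := fun p =>
    (1 / 2 : ℂ) * (fderiv ℝ fc p (1, 0) - Complex.I * fderiv ℝ fc p (0, 1)) with hP
  have hP0 : ∀ p, P p ≠ 0 := fun p => mul_ne_zero (by norm_num) (hfz p)
  have hfx : ∀ p, fderiv ℝ fc p (1, 0) = (1 + μ p) * P p := by
    intro p
    simp only [hP]
    linear_combination (1 / 2 : ℂ) * hfe p
  have hfy : ∀ p, fderiv ℝ fc p (0, 1) = Complex.I * (1 - μ p) * P p := by
    intro p
    have h2 : Complex.I * Complex.I = -1 := Complex.I_mul_I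
    simp only [hP]
    linear_combination (-(1 / 2 : ℂ) * Complex.I) * hfe p +
      (fderiv ℝ fc p (0, 1)) * h2
  have hfv : ∀ p (v : ℝ × ℝ), fderiv ℝ fc p v =
      (v.1 : ℂ) * ((1 + μ p) * P p) + v.2 * (Complex.I * (1 - μ p) * P p) := by
    intro p v
    have : v = v.1 • ((1 : ℝ), (0 : ℝ)) + v.2 • ((0 : ℝ), (1 : ℝ)) := by
      ext <;> simp
    conv_lhs => rw [this]
    rw [map_add, map_smul, map_smul, hfx, hfy, Complex.real_smul, Complex.real_smul]
  set f : ℝ × ℝ → ℝ × ℝ := fun p => ((fc p).re, (fc p).im) with hf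
  have hfsm : ContDiff ℝ ∞ f := (Complex.reCLM.contDiff.comp hfs).prodMk
    (Complex.imCLM.contDiff.comp hfs)
  have hfd : ∀ p v, fderiv ℝ f p v = ((fderiv ℝ fc p v).re, (fderiv ℝ fc p v).im) := by
    intro p v
    have h1 : HasFDerivAt fc (fderiv ℝ fc p) p := (hfs.differentiable (by simp) p).hasFDerivAt
    have h2 : HasFDerivAt f ((Complex.reCLM.comp (fderiv ℝ fc p)).prod
        (Complex.imCLM.comp (fderiv ℝ fc p))) p :=
      (Complex.reCLM.hasFDerivAt.comp p h1).prodMk (Complex.imCLM.hasFDerivAt.comp p h1)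
    rw [h2.fderiv]; simp
  set Λ : ℝ × ℝ → ℝ := fun p => (P p).re ^ 2 + (P p).im ^ 2 with hΛ
  have hΛ0 : ∀ p, 0 < Λ p := by
    intro p
    have h1 : Λ p = Complex.normSq (P p) := by
      simp only [hΛ, Complex.normSq_apply]; ring
    rw [h1]; exact Complex.normSq_pos.mpr (hP0 p)
  have hPs : ContDiff ℝ ∞ P := by
    have g1 : ContDiff ℝ ∞ fun p => fderiv ℝ fc p (1, 0) :=
      (hfs.fderiv_right (m := ∞) (by simp)).clm_apply contDiff_const
    have g2 : ContDiff ℝ ∞ fun p => fderiv ℝ fc p (0, 1) :=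
      (hfs.fderiv_right (m := ∞) (by simp)).clm_apply contDiff_const
    exact contDiff_const.mul (g1.sub (contDiff_const.mul g2))
  have hΛs : ContDiff ℝ ∞ Λ := ((Complex.reCLM.contDiff.comp hPs).pow 2).add
    ((Complex.imCLM.contDiff.comp hPs).pow 2)
  set L : ℝ × ℝ → ℝ := fun p => Real.sqrt (N p / 4 / Λ p) with hL
  have hLsq : ∀ p, L p ^ 2 = N p / 4 / Λ p := fun p =>
    Real.sq_sqrt (by have := hN0 p; have := hΛ0 p; (clear hB hE hF hG pE pF pG hW hWs hWsq hNs mr hmr mi hmi hmrs hmis μ hμ hμs hμre hμim hμper k1 k3 k2 hlt hnormsq p0 hp0 hk ac bc hfs hf1 hf2 hfe hP hfx hfy hfv f hf hfsm hfd hPs hΛs L hL; positivity))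
  have hmetric : ∀ p v w, form (E p) (F p) (G p) v w =
      (L p) ^ 2 * form 1 0 1 (fderiv ℝ f p v) (fderiv ℝ f p w) := by
    intro p v w
    rw [hfd, hfd, hfv, hfv, hLsq]
    have h1 := re_alg (μ p) (P p) v w
    have h2 := (hΛ0 p).ne'
    unfold form
    simp only
    rw [one_mul, zero_mul, add_zero, one_mul, h1, hμre, hμim]
    have h3 : (P p).re ^ 2 + (P p).im ^ 2 = Λ p := rfl
    rw [h3, ← k1 p, ← k2 p, ← k3 p]
    have h4 := k1 p
    have h5 := k2 p
    have h6 := k3 p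
    (clear * - h2; field_simp)
  have hJ : ∀ p v, fderiv ℝ f p v = 0 → v = 0 := by
    intro p v hv
    have h1 := hmetric p v v
    rw [hv] at h1
    have h2 : form (E p) (F p) (G p) v v = 0 := by rw [h1]; simp only [form, Prod.fst_zero, mul_zero, Prod.snd_zero, add_zero]
    have h3 : E p * form (E p) (F p) (G p) v v =
        (E p * v.1 + F p * v.2) ^ 2 + (E p * G p - (F p) ^ 2) * v.2 ^ 2 := by
      unfold form; ring
    rw [h2, mul_zero] at h3
    have h4 := hdet p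
    have h5 : v.2 ^ 2 = 0 := by
      by_contra hc
      have : 0 < v.2 ^ 2 := lt_of_le_of_ne (sq_nonneg _) (Ne.symm hc)
      linarith only [mul_pos (sub_pos.2 h4) (sub_pos.2 this), h3, sq_nonneg (E p * v.1 + F p * v.2 : ℝ)]
    have h6 : v.2 = 0 := by simpa using h5
    rw [h6] at h3
    have h7 : (E p * v.1) ^ 2 = 0 := by nlinarith only [h3]
    have h8 : E p * v.1 = 0 := by simpa using h7
    have h9 : v.1 = 0 := by
      rcases mul_eq_zero.mp h8 with h | h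
      · exact absurd h (hE0 p).ne'
      · exact h
    exact Prod.ext h9 h6
  obtain ⟨hab, h, hhs, hhf, hfh⟩ := GInv.global_inverse (f := f) (a := (ac.re, ac.im))
    (b := (bc.re, bc.im)) hfsm (fun p => by simp only [hf, hf1]; simp)
    (fun p => by simp only [hf, hf2]; simp) hJ
  refine ⟨f, h, (ac.re, ac.im), (bc.re, bc.im), L, hfsm, hhs, ?_, hhf, hfh,
    (fun p => by simp only [hf, hf1]; simp), (fun p => by simp only [hf, hf2]; simp), hab,
    fun p => ?_, hmetric⟩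
  · exact ((hNs.div_const 4).div hΛs (fun p => (hΛ0 p).ne')).sqrt
      (fun p => (div_pos (div_pos (hN0 p) (by norm_num)) (hΛ0 p)).ne')
  · have := hN0 p; have := hΛ0 p
    exact Real.sqrt_pos.mpr (by (clear hB hE hF hG pE pF pG hW hWs hWsq hNs mr hmr mi hmi hmrs hmis μ hμ hμs hμre hμim hμper k1 k3 k2 hlt hnormsq p0 hp0 hk ac bc hfs hf1 hf2 hfe hP hfx hfy hfv f hf hfsm hfd hPs hΛs L hL hLsq hmetric hJ hab h hhs hhf hfh; positivity))

theorem tgen_of (h1 : TConf) (h2 : TUnif) : TGen := by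
  intro E F G hE hF hG pE pF pG hE0 hdet
  obtain ⟨f, h, a, b, L, hf, hh, hL, hhf, hfh, hfa, hfb, hab, hL0, hm⟩ :=
    h2 E F G hE hF hG pE pF pG hE0 hdet
  have hha : ∀ q, h (q + a) = h q + (1, 0) := by
    intro q
    have e := hfa (h q)
    rw [hfh] at e
    rw [← e, hhf]
  have hhb : ∀ q, h (q + b) = h q + (0, 1) := by
    intro q
    have e := hfb (h q)
    rw [hfh] at e
    rw [← e, hhf]
  -- L is periodic
  have hfda : ∀ p, fderiv ℝ f (p + (1, 0)) = fderiv ℝ f p := by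
    intro p
    have e1 : (fun q => f (q + (1, 0))) = fun q => f q + a := funext hfa
    have e2 := fderiv_comp_add_right (𝕜 := ℝ) (f := f) (x := p) ((1, 0) : ℝ × ℝ)
    rw [e1, fderiv_add_const] at e2
    exact e2.symm
  have hfdb : ∀ p, fderiv ℝ f (p + (0, 1)) = fderiv ℝ f p := by
    intro p
    have e1 : (fun q => f (q + (0, 1))) = fun q => f q + b := funext hfb
    have e2 := fderiv_comp_add_right (𝕜 := ℝ) (f := f) (x := p) ((0, 1) : ℝ × ℝ)
    rw [e1, fderiv_add_const] at e2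
    exact e2.symm
  have hLp : ∀ p p', fderiv ℝ f p = fderiv ℝ f p' → E p = E p' → F p = F p' → G p = G p' →
      L p = L p' := by
    intro p p' e1 e2 e3 e4
    have m1 := hm p (1, 0) (1, 0)
    have m2 := hm p' (1, 0) (1, 0)
    rw [← e1, ← e2, ← e3, ← e4, m1] at m2
    have hne : form 1 0 1 (fderiv ℝ f p (1, 0)) (fderiv ℝ f p (1, 0)) ≠ 0 := by
      intro h0
      rw [h0, mul_zero] at m1
      have := hE0 p
      simp [form] at m1
      linarith only [this, m1]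
    have h3 : L p ^ 2 = L p' ^ 2 := mul_right_cancel₀ hne m2
    have h4 := hL0 p
    have h5 := hL0 p'
    nlinarith only [h3, h4, h5]
  obtain ⟨X, hX, hXp, hXi⟩ := h1 a b (fun q => L (h q)) hab (hL.comp hh)
    ⟨fun q => by
      simp only [hha]
      exact hLp _ _ (hfda _) (pE.1 _) (pF.1 _) (pG.1 _),
     fun q => by
      simp only [hhb]
      exact hLp _ _ (hfdb _) (pE.2 _) (pF.2 _) (pG.2 _)⟩ (fun q => hL0 _)
  refine ⟨fun p => X (f p), hX.comp hf, ⟨fun p => ?_, fun p => ?_⟩, fun p v w => ?_⟩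
  · simp only [hfa, hXp.1]
  · simp only [hfb, hXp.2]
  · have e0 : fderiv ℝ (fun p => X (f p)) p = (fderiv ℝ X (f p)).comp (fderiv ℝ f p) :=
      fderiv_comp p (hX.differentiable (by simp) _) (hf.differentiable (by simp) _)
    rw [e0]
    simp only [ContinuousLinearMap.comp_apply]
    rw [hXi]
    simp only [hhf]
    rw [hm]
    unfold form; ring

end Unif

end Vale.Agent.P205
end
end
end

section

section

open scoped ContDiff
open MeasureTheory

noncomputable section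

namespace Vale.Agent.P205

namespace Net

/-- `∫₀¹ exp (κ cos 2πs) ds` -/
def II (κ : ℝ) : ℝ := ∫ s in (0 : ℝ)..1, Real.exp (κ * Real.cos (2 * Real.pi * s))

lemma II_cont : Continuous II := by
  unfold II
  refine intervalIntegral.continuous_parametric_intervalIntegral_of_continuous' ?_ _ _
  fun_prop

lemma II_zero : II 0 = 1 := by simp [II]

lemma II_ge {κ : ℝ} (hκ : 0 ≤ κ) : Real.exp (κ / 2) / 6 ≤ II κ := by
  unfold II
  have hc : Continuous fun s : ℝ => Real.exp (κ * Real.cos (2 * Real.pi * s)) := by fun_prop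
  have h1 : ∫ s in (0 : ℝ)..(1 / 6), Real.exp (κ / 2) ≤
      ∫ s in (0 : ℝ)..(1 / 6), Real.exp (κ * Real.cos (2 * Real.pi * s)) := by
    refine intervalIntegral.integral_mono_on (by norm_num) (by simp) (hc.intervalIntegrable _ _) ?_
    intro s hs
    apply Real.exp_le_exp.mpr
    have hpi := Real.pi_pos
    have h2 : Real.cos (Real.pi / 3) ≤ Real.cos (2 * Real.pi * s) := by
      apply Real.cos_le_cos_of_nonneg_of_le_pi
      · have := hs.1; positivity
      · linarith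
      · have := hs.2; linarith only [mul_nonneg (le_of_lt (sub_pos.2 hpi)) (sub_nonneg.2 this)]
    rw [Real.cos_pi_div_three] at h2
    linarith only [mul_nonneg (sub_nonneg.2 hκ) (sub_nonneg.2 h2)]
  have h3 : ∫ s in (0 : ℝ)..(1 / 6), Real.exp (κ * Real.cos (2 * Real.pi * s)) ≤
      ∫ s in (0 : ℝ)..1, Real.exp (κ * Real.cos (2 * Real.pi * s)) := by
    refine intervalIntegral.integral_mono_interval le_rfl (by norm_num) (by norm_num) ?_
      (hc.intervalIntegrable _ _)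
    exact Filter.Eventually.of_forall fun s => (Real.exp_pos _).le
  have h4 : ∫ s in (0 : ℝ)..(1 / 6), Real.exp (κ / 2) = Real.exp (κ / 2) / 6 := by
    rw [intervalIntegral.integral_const]; simp only [one_div, sub_zero, smul_eq_mul]; ring
  linarith

lemma exists_II {T : ℝ} (hT : 1 < T) : ∃ κ : ℝ, 0 < κ ∧ II κ = T := by
  have hT0 : 0 < T := by linarith
  set K : ℝ := 2 * Real.log (6 * T) with hK
  have hlog : 0 < Real.log (6 * T) := Real.log_pos (by linarith only [hT])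
  have hK0 : 0 ≤ K := by positivity
  have h1 : T ≤ II K := by
    refine le_trans (le_of_eq ?_) (II_ge hK0)
    have : K / 2 = Real.log (6 * T) := by rw [hK]; ring
    rw [this, Real.exp_log (by linarith only [hT])]; ring
  have h2 := intermediate_value_Icc hK0 II_cont.continuousOn
  obtain ⟨κ, hκ, hκ2⟩ := h2 (show T ∈ Set.Icc (II 0) (II K) from ⟨by rw [II_zero]; exact hT.le, h1⟩)
  refine ⟨κ, ?_, hκ2⟩
  rcases hκ.1.eq_or_lt with h | h
  · exfalso
    rw [← h, II_zero] at hκ2; linarith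
  · exact h

lemma II_neg (κ : ℝ) : II (-κ) = II κ := by
  unfold II
  set g : ℝ → ℝ := fun s => Real.exp (κ * Real.cos (2 * Real.pi * s)) with hg
  have hper : Function.Periodic g 1 := by
    intro s
    simp only [hg]
    have : 2 * Real.pi * (s + 1) = 2 * Real.pi * s + 2 * Real.pi := by ring
    rw [this, Real.cos_add_two_pi]
  have h1 : ∀ s : ℝ, Real.exp (-κ * Real.cos (2 * Real.pi * s)) = g (s + 1 / 2) := by
    intro s
    simp only [hg]
    have : 2 * Real.pi * (s + 1 / 2) = 2 * Real.pi * s + Real.pi := by ring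
    rw [this, Real.cos_add_pi]
    congr 1; ring
  simp_rw [h1]
  rw [intervalIntegral.integral_comp_add_right g (1 / 2)]
  have h2 := hper.intervalIntegral_add_eq (0 + 1 / 2) 0
  rw [zero_add] at h2
  have e1 : (1 : ℝ) / 2 + 1 = 1 + 1 / 2 := by ring
  rw [zero_add, ← e1, h2, zero_add]

lemma integral_exp_scaled (κ δ : ℝ) (hδ : 0 < δ) :
    ∫ s in (0 : ℝ)..δ, Real.exp (κ * Real.cos (2 * Real.pi * s / δ)) = δ * II κ := by
  have h := intervalIntegral.integral_comp_div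
    (fun s => Real.exp (κ * Real.cos (2 * Real.pi * s))) (a := 0) (b := δ) hδ.ne'
  rw [zero_div, div_self hδ.ne'] at h
  unfold II
  rw [smul_eq_mul] at h
  rw [← h]
  refine intervalIntegral.integral_congr fun s _ => ?_
  simp only [mul_div_assoc]

/-- primitive of a smooth function -/
lemma exists_primitive {F : ℝ → ℝ} (hF : ContDiff ℝ ∞ F) :
    ∃ f : ℝ → ℝ, ContDiff ℝ ∞ f ∧ (∀ u, HasDerivAt f (F u) u) ∧
      (∀ u v, f v - f u = ∫ s in u..v, F s) := by
  have hd : ∀ u, HasDerivAt (fun u => ∫ s in (0 : ℝ)..u, F s) (F u) u := fun u =>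
    intervalIntegral.integral_hasDerivAt_right (hF.continuous.intervalIntegrable _ _)
      (hF.continuous.stronglyMeasurableAtFilter _ _) hF.continuous.continuousAt
  refine ⟨fun u => ∫ s in (0 : ℝ)..u, F s, ?_, hd, fun u v => ?_⟩
  · rw [contDiff_infty_iff_deriv]
    refine ⟨fun u => (hd u).differentiableAt, ?_⟩
    have : deriv (fun u => ∫ s in (0 : ℝ)..u, F s) = F := funext fun u => (hd u).deriv
    rw [this]; exact hF
  · exact intervalIntegral.integral_interval_sub_left (hF.continuous.intervalIntegrable _ _)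
      (hF.continuous.intervalIntegrable _ _)

/-- smooth inverse of a function with derivative bounded below -/
lemma exists_inverse {f g : ℝ → ℝ} (hf : ContDiff ℝ ∞ f) (hd : ∀ u, HasDerivAt f (g u) u)
    {m : ℝ} (hm : 0 < m) (hg : ∀ u, m ≤ g u) :
    ∃ ψ : ℝ → ℝ, ContDiff ℝ ∞ ψ ∧ (∀ u, ψ (f u) = u) ∧ (∀ s, f (ψ s) = s) := by
  have hgr : ∀ u v, u ≤ v → m * (v - u) ≤ f v - f u := by
    intro u v huv
    have h1 : Monotone fun t => f t - m * t := by
      apply monotone_of_deriv_nonneg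
      · intro t; exact ((hd t).sub ((hasDerivAt_id t).const_mul m)).differentiableAt
      · intro t
        have h2 : HasDerivAt (fun t => f t - m * t) (g t - m * 1) t :=
          (hd t).sub ((hasDerivAt_id t).const_mul m)
        rw [h2.deriv]
        have := hg t; linarith
    have := h1 huv
    simp only at this
    linarith
  have hmono : StrictMono f := by
    intro u v huv
    have := hgr u v huv.le
    linarith only [mul_pos (sub_pos.2 hm) (sub_pos.2 huv), this]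
  have hsurj : Function.Surjective f := by
    apply hf.continuous.surjective
    · have h1 : Filter.Tendsto (fun u => f 0 + m * u) Filter.atTop Filter.atTop :=
        Filter.tendsto_atTop_add_const_left _ _ (Filter.tendsto_id.const_mul_atTop hm)
      refine Filter.tendsto_atTop_mono' _ ?_ h1
      filter_upwards [Filter.eventually_ge_atTop 0] with u hu
      have := hgr 0 u hu; linarith
    · have h1 : Filter.Tendsto (fun u => f 0 + m * u) Filter.atBot Filter.atBot :=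
        Filter.tendsto_atBot_add_const_left _ _ (Filter.tendsto_id.const_mul_atBot hm)
      refine Filter.tendsto_atBot_mono' _ ?_ h1
      filter_upwards [Filter.eventually_le_atBot 0] with u hu
      have := hgr u 0 hu; linarith
  set e : ℝ ≃o ℝ := hmono.orderIsoOfSurjective f hsurj with he
  set φ : OpenPartialHomeomorph ℝ ℝ := e.toHomeomorph.toOpenPartialHomeomorph with hφ
  have hφf : ∀ u, φ u = f u := fun u => rfl
  refine ⟨φ.symm, ?_, fun u => ?_, fun s => ?_⟩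
  · rw [contDiff_iff_contDiffAt]
    intro s
    refine φ.contDiffAt_symm_deriv (f₀' := g (φ.symm s)) ?_ (Set.mem_univ _) ?_ ?_
    · have := hg (φ.symm s); linarith only [hm, this]
    · exact hd _
    · exact hf.contDiffAt
  · exact e.symm_apply_apply u
  · exact e.apply_symm_apply s

/-! ### the net -/

/-- Euclidean inner product -/
def dot (v w : ℝ × ℝ) : ℝ := v.1 * w.1 + v.2 * w.2
/-- rotation by a right angle -/
def rot (v : ℝ × ℝ) : ℝ × ℝ := (-v.2, v.1)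

lemma form_one (v w : ℝ × ℝ) (c : ℝ) : form c 0 c v w = c * dot v w := by
  unfold form dot; ring

lemma alg_id {w v v' : ℝ × ℝ} {β φ ℓ : ℝ} (hβ : 0 < β) (hφ : 0 < φ) (hD : 0 < dot w w) :
    form (ℓ ^ 2 / (dot w w * (β ^ 2 + φ ^ 2))) 0
      ((φ / β) ^ 2 * (ℓ ^ 2 / (dot w w * (β ^ 2 + φ ^ 2))))
      (β * (w.1 * v.1 + w.2 * v.2) + φ * ((rot w).1 * v.1 + (rot w).2 * v.2),
        β * (w.1 * v.1 + w.2 * v.2) + -(β ^ 2 / φ) * ((rot w).1 * v.1 + (rot w).2 * v.2))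
      (β * (w.1 * v'.1 + w.2 * v'.2) + φ * ((rot w).1 * v'.1 + (rot w).2 * v'.2),
        β * (w.1 * v'.1 + w.2 * v'.2) + -(β ^ 2 / φ) * ((rot w).1 * v'.1 + (rot w).2 * v'.2)) =
      ℓ ^ 2 * dot v v' := by
  obtain ⟨x, y⟩ := w
  obtain ⟨v1, v2⟩ := v
  obtain ⟨u1, u2⟩ := v'
  simp only [form, dot, rot] at hD ⊢
  have h1 := hD.ne'
  have h2 : β ^ 2 + φ ^ 2 ≠ 0 := by positivity
  have h3 : x ^ 2 + y ^ 2 ≠ 0 := by rw [sq, sq]; exact h1
  field_simp
  ring

/-- the case of a lattice basis with positive inner product and positive orientation -/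
theorem conf_of_diag_pos (hT : TDiag) (a b : ℝ × ℝ) (L : ℝ × ℝ → ℝ) (hdot : 0 < dot a b)
    (hδ : 0 < dot a (rot b)) (hL : ContDiff ℝ ∞ L) (hp : Periodic2 a b L) (hpos : ∀ p, 0 < L p) :
    ∃ X : ℝ × ℝ → EuclideanSpace ℝ (Fin 4), ContDiff ℝ ∞ X ∧ Periodic2 a b X ∧
      Induces X (fun p => (L p) ^ 2) (fun _ => 0) (fun p => (L p) ^ 2) := by
  set w : ℝ × ℝ := a + b with hw
  set D : ℝ := dot w w with hD
  set m2 : ℝ := dot a w with hm2
  set m3 : ℝ := dot b w with hm3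
  set δ : ℝ := dot a (rot b) with hδd
  have haa : 0 < dot a a := by
    have h1 : 0 ≤ dot a a := by unfold dot; nlinarith only []
    rcases h1.eq_or_lt with h | h
    · exfalso
      have e1 : a.1 = 0 := by unfold dot at h; nlinarith only [h]
      have e2 : a.2 = 0 := by unfold dot at h; nlinarith only [h]
      unfold dot at hdot; rw [e1, e2] at hdot; simp at hdot
    · exact h
  have hbb : 0 < dot b b := by
    have h1 : 0 ≤ dot b b := by unfold dot; nlinarith only []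
    rcases h1.eq_or_lt with h | h
    · exfalso
      have e1 : b.1 = 0 := by unfold dot at h; nlinarith only [h]
      have e2 : b.2 = 0 := by unfold dot at h; nlinarith only [h]
      unfold dot at hdot; rw [e1, e2] at hdot; simp at hdot
    · exact h
  have hm2e : m2 = dot a a + dot a b := by simp only [hm2, dot, hw, Prod.fst_add, Prod.snd_add]; ring
  have hm3e : m3 = dot b b + dot a b := by simp only [hm3, dot, hw, Prod.fst_add, Prod.snd_add]; ring
  have hDe : D = m2 + m3 := by simp only [hD, dot, hw, Prod.fst_add, Prod.snd_add, hm2, hm3]; ring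
  have hm2p : 0 < m2 := by rw [hm2e]; linarith only [hdot, haa]
  have hm3p : 0 < m3 := by rw [hm3e]; linarith only [hdot, hbb]
  have hDp : 0 < D := by rw [hDe]; linarith only [hdot, haa, hbb, hm2e, hm3e]
  have hδ2 : δ ^ 2 = dot a a * dot b b - (dot a b) ^ 2 := by simp only [hδd, dot, rot, mul_neg]; ring
  have hgt : δ ^ 2 < m2 * m3 := by
    rw [hδ2, hm2e, hm3e]; linarith only [mul_pos (sub_pos.2 hdot) (sub_pos.2 hbb), mul_pos (sub_pos.2 hdot) (sub_pos.2 haa), mul_pos (sub_pos.2 hdot) (sub_pos.2 hdot)]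
  -- the parameter κ
  set T : ℝ := Real.sqrt (m2 * m3) / δ with hTd
  have hT1 : 1 < T := by
    rw [hTd, one_lt_div hδ]
    exact (Real.lt_sqrt hδ.le).mpr hgt
  obtain ⟨κ, hκ, hκI⟩ := exists_II hT1
  have hT0 : 0 < T := by linarith only [hT1]
  have hTsq : T ^ 2 * δ ^ 2 = m2 * m3 := by
    rw [hTd, div_pow, Real.sq_sqrt (by (clear * - hm2p hm3p; positivity))]; (clear * - hδ hm3p hm2p; field_simp)
  have hpi := Real.pi_pos
  set β : ℝ := 2 * Real.pi / D with hβ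
  have hβ0 : 0 < β := by (clear * - hDp; positivity)
  have hβD : β * D = 2 * Real.pi := by rw [hβ]; (clear * - hDp; field_simp)
  set c : ℝ := β * m3 / (δ * T) with hc
  have hc0 : 0 < c := by (clear * - hDp hm3p hδ hm2p; positivity)
  set F : ℝ → ℝ := fun s => c * Real.exp (κ * Real.cos (2 * Real.pi * s / δ)) with hF
  have hF0 : ∀ s, 0 < F s := fun s => mul_pos hc0 (Real.exp_pos _)
  have hFs : ContDiff ℝ ∞ F := by
    simp only [hF]
    refine contDiff_const.mul (Real.contDiff_exp.comp (contDiff_const.mul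
      (Real.contDiff_cos.comp ?_)))
    exact (contDiff_const.mul contDiff_id).div_const _
  have hFper : ∀ s, F (s + δ) = F s := by
    intro s
    simp only [hF]
    have : 2 * Real.pi * (s + δ) / δ = 2 * Real.pi * s / δ + 2 * Real.pi := by
      (clear * - hδ; field_simp)
    rw [this, Real.cos_add_two_pi]
  set G : ℝ → ℝ := fun s => -(β ^ 2 / F s) with hG
  have hGs : ContDiff ℝ ∞ G := (contDiff_const.div hFs (fun s => (hF0 s).ne')).neg
  have hGper : ∀ s, G (s + δ) = G s := by intro s; simp only [hG, hFper]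
  obtain ⟨f, hfs, hfd, hfi⟩ := exists_primitive hFs
  obtain ⟨h, hhs, hhd, hhi⟩ := exists_primitive hGs
  have hIF : ∫ s in (0 : ℝ)..δ, F s = β * m3 := by
    simp only [hF]
    rw [intervalIntegral.integral_const_mul, integral_exp_scaled κ δ hδ, hκI, hc]
    (clear * - hδ hT1 hm3p hβ0; field_simp)
  have hIG : ∫ s in (0 : ℝ)..δ, G s = -(β * m2) := by
    have e : ∀ s, G s = -(β ^ 2 / c) * Real.exp (-κ * Real.cos (2 * Real.pi * s / δ)) := by
      intro s
      simp only [hG, hF]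
      rw [show -κ * Real.cos (2 * Real.pi * s / δ) = -(κ * Real.cos (2 * Real.pi * s / δ)) by ring,
        Real.exp_neg]
      have := Real.exp_pos (κ * Real.cos (2 * Real.pi * s / δ))
      (clear * - hc0 hβ0; field_simp)
    simp_rw [e]
    rw [intervalIntegral.integral_const_mul, integral_exp_scaled (-κ) δ hδ, II_neg, hκI, hc]
    have : T * δ * (T * δ) = m2 * m3 := by linarith only [hTsq]
    field_simp
    linear_combination -this
  have hfper : ∀ s, f (s + δ) = f s + β * m3 := by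
    intro s
    have h1 := hfi s (s + δ)
    have h2 : Function.Periodic F δ := hFper
    rw [h2.intervalIntegral_add_eq s 0, zero_add, hIF] at h1
    linarith only [h1]
  have hhper : ∀ s, h (s + δ) = h s - β * m2 := by
    intro s
    have h1 := hhi s (s + δ)
    have h2 : Function.Periodic G δ := hGper
    rw [h2.intervalIntegral_add_eq s 0, zero_add, hIG] at h1
    linarith only [h1]
  -- the inverse of f - h
  obtain ⟨ψ, hψs, hψ1, hψ2⟩ := exists_inverse (f := fun u => f u - h u) (g := fun u => F u - G u)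
    (hfs.sub hhs) (fun u => (hfd u).sub (hhd u)) (m := 2 * β) (by (clear * - hDp; positivity)) (fun u => by
      simp only [hG]
      have := hF0 u
      rw [sub_neg_eq_add]
      have h1 : F u + β ^ 2 / F u - 2 * β = (F u - β) ^ 2 / F u := by field_simp; ring
      have h2 : 0 ≤ (F u - β) ^ 2 / F u := by (clear * - hDp hm3p hδ hm2p; positivity)
      linarith only [h2, h1])
  -- the coordinate map
  set Φ : ℝ × ℝ → ℝ × ℝ := fun z =>
    (β * dot z w + f (dot z (rot w)), β * dot z w + h (dot z (rot w))) with hΦ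
  set Ψ : ℝ × ℝ → ℝ × ℝ := fun q =>
    (1 / D) • (((q.1 - f (ψ (q.1 - q.2))) / β) • w + (ψ (q.1 - q.2)) • rot w) with hΨ
  have hrec : ∀ z : ℝ × ℝ, (1 / D) • ((dot z w) • w + (dot z (rot w)) • rot w) = z := by
    intro z
    have h1 : w.1 * w.1 + w.2 * w.2 = D := rfl
    ext
    · simp only [Prod.smul_fst, Prod.fst_add, smul_eq_mul, dot, rot]
      rw [one_div, inv_mul_eq_iff_eq_mul₀ hDp.ne', ← h1]; ring
    · simp only [Prod.smul_snd, Prod.snd_add, smul_eq_mul, dot, rot]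
      rw [one_div, inv_mul_eq_iff_eq_mul₀ hDp.ne', ← h1]; ring
  have hΨΦ : ∀ z, Ψ (Φ z) = z := by
    intro z
    have e1 : (Φ z).1 - (Φ z).2 = f (dot z (rot w)) - h (dot z (rot w)) := by
      simp only [hΦ]; ring
    have e2 : ψ ((Φ z).1 - (Φ z).2) = dot z (rot w) := by rw [e1]; exact hψ1 _
    simp only [hΨ]
    rw [e2]
    have e3 : ((Φ z).1 - f (dot z (rot w))) / β = dot z w := by
      simp only [hΦ]; field_simp; ring
    rw [e3]
    exact hrec z
  have hdw : ∀ x y : ℝ, dot ((1 / D) • (x • w + y • rot w)) w = x := by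
    intro x y
    have h1 : w.1 * w.1 + w.2 * w.2 = D := rfl
    simp only [dot, rot, Prod.smul_fst, Prod.smul_snd, Prod.fst_add, Prod.snd_add, smul_eq_mul]
    have : (1 / D * (x * w.1 + y * -w.2) * w.1 + 1 / D * (x * w.2 + y * w.1) * w.2) =
        x * (w.1 * w.1 + w.2 * w.2) / D := by ring
    rw [this, h1]; (clear * - hDp; field_simp)
  have hdr : ∀ x y : ℝ, dot ((1 / D) • (x • w + y • rot w)) (rot w) = y := by
    intro x y
    have h1 : w.1 * w.1 + w.2 * w.2 = D := rfl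
    simp only [dot, rot, Prod.smul_fst, Prod.smul_snd, Prod.fst_add, Prod.snd_add, smul_eq_mul]
    have : (1 / D * (x * w.1 + y * -w.2) * -w.2 + 1 / D * (x * w.2 + y * w.1) * w.1) =
        y * (w.1 * w.1 + w.2 * w.2) / D := by ring
    rw [this, h1]; (clear * - hDp; field_simp)
  have hΦΨ : ∀ q, Φ (Ψ q) = q := by
    intro q
    simp only [hΦ, hΨ]
    rw [hdw, hdr]
    have e := hψ2 (q.1 - q.2)
    ext
    · simp only; field_simp; ring
    · simp only; field_simp; linarith only [e]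
  have hΦa : ∀ z, Φ (z + a) = Φ z + (2 * Real.pi, 0) := by
    intro z
    have e1 : dot (z + a) w = dot z w + m2 := by simp only [dot, Prod.fst_add, Prod.snd_add, hm2]; ring
    have e2 : dot (z + a) (rot w) = dot z (rot w) + δ := by simp only [dot, Prod.fst_add, rot, hw, Prod.snd_add, neg_add_rev, hδd, mul_neg]; ring
    simp only [hΦ]
    rw [e1, e2, hfper, hhper]
    ext
    · simp only [Prod.fst_add]; rw [← hβD, hDe]; ring
    · simp only [Prod.snd_add]; ring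
  have hΦb : ∀ z, Φ (z + b) = Φ z + (0, 2 * Real.pi) := by
    intro z
    have e1 : dot (z + b) w = dot z w + m3 := by simp only [dot, Prod.fst_add, Prod.snd_add, hm3]; ring
    have e2 : dot z (rot w) = dot (z + b) (rot w) + δ := by simp only [dot, rot, hw, Prod.snd_add, neg_add_rev, Prod.fst_add, hδd, mul_neg]; ring
    have e3 := hfper (dot (z + b) (rot w))
    have e4 := hhper (dot (z + b) (rot w))
    rw [← e2] at e3 e4
    simp only [hΦ]
    rw [e1]
    ext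
    · simp only [Prod.fst_add]; rw [e3]; ring
    · simp only [Prod.snd_add]; rw [e4, ← hβD, hDe]; ring
  have hΨ1 : ∀ q, Ψ (q + (2 * Real.pi, 0)) = Ψ q + a := by
    intro q
    have := hΦa (Ψ q)
    rw [hΦΨ] at this
    rw [← this, hΨΦ]
  have hΨ2 : ∀ q, Ψ (q + (0, 2 * Real.pi)) = Ψ q + b := by
    intro q
    have := hΦb (Ψ q)
    rw [hΦΨ] at this
    rw [← this, hΨΦ]
  have hΨs : ContDiff ℝ ∞ Ψ := by
    have h1 : ContDiff ℝ ∞ fun q : ℝ × ℝ => q.1 - q.2 := contDiff_fst.sub contDiff_snd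
    have h2 : ContDiff ℝ ∞ fun q : ℝ × ℝ => ψ (q.1 - q.2) := hψs.comp h1
    have h3 : ContDiff ℝ ∞ fun q : ℝ × ℝ => (q.1 - f (ψ (q.1 - q.2))) / β :=
      (contDiff_fst.sub (hfs.comp h2)).div_const β
    have h4 : ContDiff ℝ ∞ fun q : ℝ × ℝ => ((q.1 - f (ψ (q.1 - q.2))) / β) • w :=
      h3.smul contDiff_const
    have h5 : ContDiff ℝ ∞ fun q : ℝ × ℝ => (ψ (q.1 - q.2)) • rot w := h2.smul contDiff_const
    exact (h4.add h5).const_smul (1 / D)
  -- the diagonal coefficients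
  set S : ℝ → ℝ := fun s => F (ψ s) with hS
  have hSs : ContDiff ℝ ∞ S := hFs.comp hψs
  have hS0 : ∀ s, 0 < S s := fun s => hF0 _
  have hψper : ∀ s, ψ (s + 2 * Real.pi) = ψ s + δ := by
    intro s
    have e1 : f (ψ s + δ) - h (ψ s + δ) = s + 2 * Real.pi := by
      rw [hfper, hhper]
      have := hψ2 s
      rw [← hβD, hDe]; linarith only [this]
    rw [← e1]
    exact hψ1 (ψ s + δ)
  have hSper : ∀ s, S (s + 2 * Real.pi) = S s := by
    intro s; simp only [hS]; rw [hψper, hFper]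
  set Ad : ℝ × ℝ → ℝ := fun q => L (Ψ q) / Real.sqrt (D * (β ^ 2 + S (q.1 - q.2) ^ 2)) with hAd
  set Bd : ℝ × ℝ → ℝ := fun q => (S (q.1 - q.2) / β) * Ad q with hBd
  have hrad : ∀ q : ℝ × ℝ, 0 < D * (β ^ 2 + S (q.1 - q.2) ^ 2) := fun q => by (clear * - hDp hm3p hδ hm2p; positivity)
  have hSq : ContDiff ℝ ∞ fun q : ℝ × ℝ => S (q.1 - q.2) :=
    hSs.comp (contDiff_fst.sub contDiff_snd)
  have hAds : ContDiff ℝ ∞ Ad := by
    refine (hL.comp hΨs).div ?_ (fun q => (Real.sqrt_pos.mpr (hrad q)).ne')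
    exact (contDiff_const.mul (contDiff_const.add (hSq.pow 2))).sqrt (fun q => (hrad q).ne')
  have hBds : ContDiff ℝ ∞ Bd := (hSq.div_const β).mul hAds
  have hAd0 : ∀ q, 0 < Ad q := fun q => div_pos (hpos _) (Real.sqrt_pos.mpr (hrad q))
  have hBd0 : ∀ q, 0 < Bd q := fun q => mul_pos (div_pos (hS0 _) hβ0) (hAd0 q)
  have hAdp : Periodic2 (2 * Real.pi, 0) (0, 2 * Real.pi) Ad := by
    refine ⟨fun q => ?_, fun q => ?_⟩
    · simp only [hAd]
      rw [hΨ1, hp.1]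
      have : (q + (2 * Real.pi, 0)).1 - (q + (2 * Real.pi, 0)).2 = (q.1 - q.2) + 2 * Real.pi := by
        simp only [Prod.fst_add, Prod.snd_add, add_zero]; ring
      rw [this, hSper]
    · simp only [hAd]
      rw [hΨ2, hp.2]
      have : q.1 - q.2 = ((q + (0, 2 * Real.pi)).1 - (q + (0, 2 * Real.pi)).2) + 2 * Real.pi := by
        simp only [Prod.fst_add, Prod.snd_add]; ring
      rw [this, hSper]
  have hBdp : Periodic2 (2 * Real.pi, 0) (0, 2 * Real.pi) Bd := by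
    refine ⟨fun q => ?_, fun q => ?_⟩
    · simp only [hBd]
      rw [hAdp.1]
      have : (q + (2 * Real.pi, 0)).1 - (q + (2 * Real.pi, 0)).2 = (q.1 - q.2) + 2 * Real.pi := by
        simp; ring
      rw [this, hSper]
    · simp only [hBd]
      rw [hAdp.2]
      have : q.1 - q.2 = ((q + (0, 2 * Real.pi)).1 - (q + (0, 2 * Real.pi)).2) + 2 * Real.pi := by
        simp only [Prod.fst_add, Prod.snd_add]; ring
      rw [this, hSper]
  have hQ : ContDiff ℝ ∞ fun s => S s ^ 2 / β ^ 2 := (hSs.pow 2).div_const _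
  obtain ⟨X, hXs, hXp, hXi⟩ := hT Ad Bd (fun s => S s ^ 2 / β ^ 2) hAds hBds hQ hAdp hBdp
    (fun s => by simp only [hSper]) (fun s => by have := hS0 s; (clear * - hDp hm3p hδ hm2p; positivity))
    (by
      refine ⟨(fun u => f u - h u) 0, (fun u => f u - h u) (δ / 2), ?_⟩
      have e1 : S ((fun u => f u - h u) 0) = c * Real.exp κ := by
        simp only [hS]
        rw [show ψ (f 0 - h 0) = 0 from hψ1 0]
        simp [hF]
      have e2 : S ((fun u => f u - h u) (δ / 2)) = c * Real.exp (-κ) := by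
        simp only [hS]
        rw [show ψ (f (δ / 2) - h (δ / 2)) = δ / 2 from hψ1 (δ / 2)]
        simp only [hF]
        have : 2 * Real.pi * (δ / 2) / δ = Real.pi := by (clear * - hδ; field_simp)
        rw [this, Real.cos_pi]; congr 2; ring
      rw [e1, e2]
      have h3 : Real.exp (-κ) < Real.exp κ := Real.exp_lt_exp.mpr (by linarith only [hκ])
      have h4 : 0 < Real.exp (-κ) := Real.exp_pos _
      have h5 : c * Real.exp (-κ) < c * Real.exp κ := mul_lt_mul_of_pos_left h3 hc0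
      have h6 : (c * Real.exp (-κ)) ^ 2 < (c * Real.exp κ) ^ 2 :=
        pow_lt_pow_left₀ h5 (by (clear * - hDp hm3p hδ hm2p; positivity)) two_ne_zero
      exact (div_lt_div_of_pos_right h6 (by (clear * - hDp; positivity))).ne')
    hAd0 hBd0 (fun q => by simp only [hBd]; ring)
  -- composition
  have hΦd : ∀ z, HasFDerivAt Φ
      ((β • (w.1 • ContinuousLinearMap.fst ℝ ℝ ℝ + w.2 • ContinuousLinearMap.snd ℝ ℝ ℝ) +
        F (dot z (rot w)) • ((rot w).1 • ContinuousLinearMap.fst ℝ ℝ ℝ +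
          (rot w).2 • ContinuousLinearMap.snd ℝ ℝ ℝ)).prod
      (β • (w.1 • ContinuousLinearMap.fst ℝ ℝ ℝ + w.2 • ContinuousLinearMap.snd ℝ ℝ ℝ) +
        G (dot z (rot w)) • ((rot w).1 • ContinuousLinearMap.fst ℝ ℝ ℝ +
          (rot w).2 • ContinuousLinearMap.snd ℝ ℝ ℝ))) z := by
    intro z
    have g1 : ∀ u : ℝ × ℝ, HasFDerivAt (fun z => dot z u)
        (u.1 • ContinuousLinearMap.fst ℝ ℝ ℝ + u.2 • ContinuousLinearMap.snd ℝ ℝ ℝ) z := by
      intro u
      exact ((ContinuousLinearMap.fst ℝ ℝ ℝ).hasFDerivAt.mul_const u.1).add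
        ((ContinuousLinearMap.snd ℝ ℝ ℝ).hasFDerivAt.mul_const u.2)
    have g2 := (g1 w).const_mul β
    have g3 := (hfd (dot z (rot w))).comp_hasFDerivAt z (g1 (rot w))
    have g4 := (hhd (dot z (rot w))).comp_hasFDerivAt z (g1 (rot w))
    exact (g2.add g3).prodMk (g2.add g4)
  refine ⟨fun z => X (Φ z), ?_, ⟨fun z => ?_, fun z => ?_⟩, fun z v v' => ?_⟩
  · refine hXs.comp ?_
    have h1 : ∀ u : ℝ × ℝ, ContDiff ℝ ∞ fun z : ℝ × ℝ => dot z u := fun u =>
      (contDiff_fst.mul contDiff_const).add (contDiff_snd.mul contDiff_const)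
    exact ((contDiff_const.mul (h1 w)).add (hfs.comp (h1 (rot w)))).prodMk
      ((contDiff_const.mul (h1 w)).add (hhs.comp (h1 (rot w))))
  · simp only; rw [hΦa, hXp.1]
  · simp only; rw [hΦb, hXp.2]
  · have hX1 := (hXs.differentiable (by simp) (Φ z)).hasFDerivAt.comp z (hΦd z)
    have e0 : fderiv ℝ (fun z => X (Φ z)) z = _ := hX1.fderiv
    rw [e0]
    simp only [ContinuousLinearMap.comp_apply]
    rw [hXi]
    simp only [ContinuousLinearMap.prod_apply, add_apply, smul_apply,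
      ContinuousLinearMap.coe_fst', ContinuousLinearMap.coe_snd', smul_eq_mul]
    have e1 : S ((Φ z).1 - (Φ z).2) = F (dot z (rot w)) := by
      simp only [hS]
      have : (Φ z).1 - (Φ z).2 = f (dot z (rot w)) - h (dot z (rot w)) := by
        simp only [hΦ]; ring
      rw [this]
      congr 1
      exact hψ1 _
    have e2 : Ad (Φ z) ^ 2 = L z ^ 2 / (D * (β ^ 2 + F (dot z (rot w)) ^ 2)) := by
      simp only [hAd]
      rw [e1, hΨΦ, div_pow, Real.sq_sqrt]
      have := hF0 (dot z (rot w))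
      (clear * - hDp hm3p hδ hm2p; positivity)
    have e3 : Bd (Φ z) ^ 2 = (F (dot z (rot w)) / β) ^ 2 * Ad (Φ z) ^ 2 := by
      simp only [hBd]
      rw [e1]; ring
    rw [e3, e2, form_one]
    simp only [hG]
    have hFz := hF0 (dot z (rot w))
    exact alg_id hβ0 hFz hDp

lemma periodic_nat {α : Type*} {f : ℝ × ℝ → α} {a : ℝ × ℝ} (h : ∀ p, f (p + a) = f p) (n : ℕ) :
    ∀ p, f (p + n • a) = f p := by
  induction n with
  | zero => intro p; simp
  | succ n ih =>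
    intro p
    rw [succ_nsmul, ← add_assoc, h, ih]

/-- the case of a lattice basis of positive orientation -/
theorem conf_of_diag_or (hT : TDiag) (a b : ℝ × ℝ) (L : ℝ × ℝ → ℝ)
    (hδ : 0 < dot a (rot b)) (hL : ContDiff ℝ ∞ L) (hp : Periodic2 a b L) (hpos : ∀ p, 0 < L p) :
    ∃ X : ℝ × ℝ → EuclideanSpace ℝ (Fin 4), ContDiff ℝ ∞ X ∧ Periodic2 a b X ∧
      Induces X (fun p => (L p) ^ 2) (fun _ => 0) (fun p => (L p) ^ 2) := by
  have haa : 0 < dot a a := by
    have h1 : 0 ≤ dot a a := by unfold dot; nlinarith only []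
    rcases h1.eq_or_lt with h | h
    · exfalso
      have e1 : a.1 = 0 := by unfold dot at h; nlinarith only [h]
      have e2 : a.2 = 0 := by unfold dot at h; nlinarith only [h]
      unfold dot at hδ; rw [e1, e2] at hδ; simp at hδ
    · exact h
  obtain ⟨n, hn⟩ := exists_nat_gt (-(dot a b) / dot a a)
  rw [div_lt_iff₀ haa] at hn
  have hab : dot a (b + n • a) = dot a b + n * dot a a := by
    simp only [dot, nsmul_eq_mul, Prod.fst_add, Prod.fst_mul, Prod.fst_natCast, Prod.snd_add, Prod.snd_mul, Prod.snd_natCast]; ring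
  have har : dot a (rot (b + n • a)) = dot a (rot b) := by
    simp only [dot, rot, nsmul_eq_mul, Prod.snd_add, Prod.snd_mul, Prod.snd_natCast, neg_add_rev, Prod.fst_add, Prod.fst_mul, Prod.fst_natCast, mul_neg]; ring
  obtain ⟨X, hX1, hX2, hX3⟩ := conf_of_diag_pos hT a (b + n • a) L (by rw [hab]; linarith only [hn])
    (by rw [har]; exact hδ) hL
    ⟨hp.1, fun p => by rw [← add_assoc, periodic_nat hp.1 n, hp.2]⟩ hpos
  refine ⟨X, hX1, ⟨hX2.1, fun p => ?_⟩, hX3⟩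
  have h1 := hX2.2 p
  rw [← add_assoc, periodic_nat hX2.1 n] at h1
  exact h1

theorem tconf_of_tdiag (hT : TDiag) : TConf := by
  intro a b L hdet hL hp hpos
  have hd : dot a (rot b) = -(a.1 * b.2 - a.2 * b.1) := by simp only [dot, rot, mul_neg, neg_sub]; ring
  rcases lt_or_gt_of_ne hdet with h | h
  · exact conf_of_diag_or hT a b L (by rw [hd]; linarith only [h]) hL hp hpos
  · have hd2 : dot b (rot a) = a.1 * b.2 - a.2 * b.1 := by simp [dot, rot]; ring
    obtain ⟨X, hX1, hX2, hX3⟩ := conf_of_diag_or hT b a L (by rw [hd2]; exact h) hL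
      ⟨hp.2, hp.1⟩ hpos
    exact ⟨X, hX1, ⟨hX2.2, hX2.1⟩, hX3⟩

end Net

end Vale.Agent.P205
end
end
end

section

section

open scoped ComplexConjugate

noncomputable section

namespace Vale.Agent.P205

/-- size of a frequency `k = (k₁,k₂)`: `1 + |k₁| + |k₂|` -/
def fsz (k : ℤ × ℤ) : ℝ := 1 + |(k.1 : ℝ)| + |(k.2 : ℝ)|

lemma one_le_fsz (k : ℤ × ℤ) : 1 ≤ fsz k := by
  unfold fsz; have := abs_nonneg (k.1 : ℝ); have := abs_nonneg (k.2 : ℝ); linarith

lemma fsz_pos (k : ℤ × ℤ) : 0 < fsz k := lt_of_lt_of_le one_pos (one_le_fsz k)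

lemma fsz_neg (k : ℤ × ℤ) : fsz (-k) = fsz k := by
  simp [fsz]

lemma fsz_add (k l : ℤ × ℤ) : fsz (k + l) ≤ fsz k * fsz l := by
  unfold fsz
  have h1 : |((k + l).1 : ℝ)| ≤ |(k.1 : ℝ)| + |(l.1 : ℝ)| := by
    simpa only [Prod.fst_add, Int.cast_add] using abs_add_le (k.1 : ℝ) (l.1 : ℝ)
  have h2 : |((k + l).2 : ℝ)| ≤ |(k.2 : ℝ)| + |(l.2 : ℝ)| := by
    simpa only [Prod.snd_add, Int.cast_add] using abs_add_le (k.2 : ℝ) (l.2 : ℝ)
  have a1 := abs_nonneg (k.1 : ℝ)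
  have a2 := abs_nonneg (k.2 : ℝ)
  have a3 := abs_nonneg (l.1 : ℝ)
  have a4 := abs_nonneg (l.2 : ℝ)
  linarith only [mul_nonneg (sub_nonneg.2 a4) (sub_nonneg.2 a2), mul_nonneg (sub_nonneg.2 a3) (sub_nonneg.2 a2), mul_nonneg (sub_nonneg.2 a1) (sub_nonneg.2 a4), mul_nonneg (sub_nonneg.2 a1) (sub_nonneg.2 a3), h2, h1]

lemma abs_fst_le_fsz (k : ℤ × ℤ) : |(k.1 : ℝ)| ≤ fsz k := by
  unfold fsz; have := abs_nonneg (k.2 : ℝ); linarith

lemma abs_snd_le_fsz (k : ℤ × ℤ) : |(k.2 : ℝ)| ≤ fsz k := by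
  unfold fsz; have := abs_nonneg (k.1 : ℝ); linarith

/-- admissible weights on `ℤ × ℤ` -/
structure Wt where
  w : ℤ × ℤ → ℝ
  one_le : ∀ k, 1 ≤ w k
  neg : ∀ k, w (-k) = w k
  add_le : ∀ k l, w (k + l) ≤ w k * w l

namespace Wt

lemma pos (W : Wt) (k : ℤ × ℤ) : 0 < W.w k := lt_of_lt_of_le one_pos (W.one_le k)

lemma ne (W : Wt) (k : ℤ × ℤ) : W.w k ≠ 0 := (W.pos k).ne'

/-- the weight multiplied by `fsz ^ s` -/
def up (W : Wt) (s : ℕ) : Wt where
  w k := W.w k * fsz k ^ s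
  one_le k := one_le_mul_of_one_le_of_one_le (W.one_le k) (one_le_pow₀ (one_le_fsz k))
  neg k := by rw [W.neg, fsz_neg]
  add_le k l := by
    calc W.w (k + l) * fsz (k + l) ^ s ≤ (W.w k * W.w l) * (fsz k * fsz l) ^ s := by
          apply mul_le_mul (W.add_le k l) _ (by have := fsz_pos (k + l); positivity)
            (mul_nonneg (W.pos k).le (W.pos l).le)
          exact pow_le_pow_left₀ (fsz_pos _).le (fsz_add k l) s
      _ = W.w k * fsz k ^ s * (W.w l * fsz l ^ s) := by ring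

lemma up_w (W : Wt) (s : ℕ) (k : ℤ × ℤ) : (W.up s).w k = W.w k * fsz k ^ s := rfl

/-- the weight dominates all polynomials -/
def Sup (W : Wt) : Prop := ∀ s : ℕ, ∃ C : ℝ, ∀ k, fsz k ^ s ≤ C * W.w k

lemma Sup.up {W : Wt} (h : W.Sup) (s : ℕ) : (W.up s).Sup := by
  intro r
  obtain ⟨C, hC⟩ := h r
  refine ⟨|C|, fun k => (hC k).trans ?_⟩
  have h1 : 1 ≤ fsz k ^ s := one_le_pow₀ (one_le_fsz k)
  have h2 := W.pos k
  have : W.w k ≤ W.w k * fsz k ^ s := le_mul_of_one_le_right h2.le h1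
  calc C * W.w k ≤ |C| * W.w k := mul_le_mul_of_nonneg_right (le_abs_self C) h2.le
    _ ≤ |C| * (W.up s).w k := mul_le_mul_of_nonneg_left this (abs_nonneg C)

end Wt

/-- conjugation-symmetric elements of `ℓ¹(ℤ × ℤ)` -/
def RS : Submodule ℝ (lp (fun _ : ℤ × ℤ => ℂ) 1) where
  carrier := {g | ∀ k, g (-k) = conj (g k)}
  add_mem' := by
    intro a b ha hb k
    simp only [lp.coeFn_add, Pi.add_apply, map_add]
    rw [ha k, hb k]
  zero_mem' := by intro k; simp
  smul_mem' := by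
    intro c x hx k
    simp only [lp.coeFn_smul, Pi.smul_apply, Complex.real_smul, map_mul, Complex.conj_ofReal]
    rw [hx k]

lemma RS_isClosed : IsClosed (RS : Set (lp (fun _ : ℤ × ℤ => ℂ) 1)) := by
  have : (RS : Set (lp (fun _ : ℤ × ℤ => ℂ) 1)) =
      ⋂ k : ℤ × ℤ, {g | g (-k) = conj (g k)} := by
    ext g; simp only [RS, Prod.forall, Prod.neg_mk, Submodule.coe_set_mk, AddSubmonoid.coe_set_mk, AddSubsemigroup.coe_set_mk, Set.mem_ofPred_eq, Set.mem_iInter]
  rw [this]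
  refine isClosed_iInter fun k => ?_
  have h1 : ∀ j : ℤ × ℤ, Continuous fun g : lp (fun _ : ℤ × ℤ => ℂ) 1 => g j := fun j =>
    (lp.lipschitzWith_one_eval 1 j).continuous
  exact isClosed_eq (h1 (-k)) (Complex.continuous_conj.comp (h1 k))

/-- real functions on the torus with `w`-summable Fourier coefficients -/
def RW (_W : Wt) : Type := RS

variable {W W' W'' : Wt}

instance : NormedAddCommGroup (RW W) := inferInstanceAs (NormedAddCommGroup RS)
instance : NormedSpace ℝ (RW W) := inferInstanceAs (NormedSpace ℝ RS)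
instance : CompleteSpace (RW W) :=
  (completeSpace_coe_iff_isComplete.mpr RS_isClosed.isComplete : CompleteSpace RS)

namespace RW

/-- the underlying element of `ℓ¹` -/
def val (f : RW W) : lp (fun _ : ℤ × ℤ => ℂ) 1 := (show RS from f).1

/-- Fourier coefficients -/
def co (f : RW W) (k : ℤ × ℤ) : ℂ := f.val k / (W.w k : ℂ)

lemma val_eq (f : RW W) (k : ℤ × ℤ) : f.val k = (W.w k : ℂ) * f.co k := by
  unfold co
  have : (W.w k : ℂ) ≠ 0 := by exact_mod_cast W.ne k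
  field_simp

lemma co_neg (f : RW W) (k : ℤ × ℤ) : f.co (-k) = conj (f.co k) := by
  have h : f.val (-k) = conj (f.val k) := (show RS from f).2 k
  simp only [co, h, W.neg, map_div₀, Complex.conj_ofReal]

lemma summable (f : RW W) : Summable fun k => W.w k * ‖f.co k‖ := by
  have := (lp.memℓp f.val).summable (by simp only [ENNReal.toReal_one, zero_lt_one])
  simp only [ENNReal.toReal_one, Real.rpow_one] at this
  refine this.congr fun k => ?_
  rw [val_eq, norm_mul, Complex.norm_real, Real.norm_of_nonneg (W.pos k).le]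

lemma norm_eq (f : RW W) : ‖f‖ = ∑' k, W.w k * ‖f.co k‖ := by
  have h : ‖f‖ = ‖f.val‖ := rfl
  rw [h, lp.norm_eq_tsum_rpow (by simp only [ENNReal.toReal_one, zero_lt_one])]
  simp only [ENNReal.toReal_one, Real.rpow_one, div_one]
  refine tsum_congr fun k => ?_
  rw [val_eq, norm_mul, Complex.norm_real, Real.norm_of_nonneg (W.pos k).le]

@[ext] lemma ext' {f g : RW W} (h : ∀ k, f.co k = g.co k) : f = g := by
  apply Subtype.ext
  apply lp.ext
  funext k
  have := congrArg (fun z => (W.w k : ℂ) * z) (h k)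
  simp only [← val_eq] at this
  exact this

/-- constructor from Fourier coefficients -/
def mk (c : ℤ × ℤ → ℂ) (hc : Summable fun k => W.w k * ‖c k‖)
    (hr : ∀ k, c (-k) = conj (c k)) : RW W :=
  (⟨⟨fun k => (W.w k : ℂ) * c k, by
      apply memℓp_gen
      simp only [ENNReal.toReal_one, Real.rpow_one]
      refine hc.congr fun k => ?_
      rw [norm_mul, Complex.norm_real, Real.norm_of_nonneg (W.pos k).le]⟩,
    fun k => by
      show (W.w (-k) : ℂ) * c (-k) = conj ((W.w k : ℂ) * c k)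
      rw [hr, W.neg, map_mul, Complex.conj_ofReal]⟩ : RS)

@[simp] lemma co_mk (c : ℤ × ℤ → ℂ) (hc : Summable fun k => W.w k * ‖c k‖)
    (hr : ∀ k, c (-k) = conj (c k)) (k : ℤ × ℤ) : (mk c hc hr : RW W).co k = c k := by
  show ((W.w k : ℂ) * c k) / (W.w k : ℂ) = c k
  have : (W.w k : ℂ) ≠ 0 := by exact_mod_cast W.ne k
  (clear * - this; field_simp)

@[simp] lemma co_add (f g : RW W) (k : ℤ × ℤ) : (f + g).co k = f.co k + g.co k := by
  show ((f.val + g.val : lp (fun _ : ℤ × ℤ => ℂ) 1) k) / (W.w k : ℂ) = _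
  simp only [lp.coeFn_add, Pi.add_apply, co, add_div]

@[simp] lemma co_zero (k : ℤ × ℤ) : (0 : RW W).co k = 0 := by
  show ((0 : lp (fun _ : ℤ × ℤ => ℂ) 1) k) / (W.w k : ℂ) = _
  simp only [ZeroMemClass.coe_zero, PreLp.zero_apply, zero_div]

@[simp] lemma co_smul (c : ℝ) (f : RW W) (k : ℤ × ℤ) : (c • f).co k = c * f.co k := by
  show ((c • f.val : lp (fun _ : ℤ × ℤ => ℂ) 1) k) / (W.w k : ℂ) = _
  simp only [lp.coeFn_smul, Pi.smul_apply, co, Complex.real_smul, mul_div_assoc]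

@[simp] lemma co_neg' (f : RW W) (k : ℤ × ℤ) : (-f).co k = - f.co k := by
  have := co_smul (-1) f k
  simpa only [neg_smul, one_smul, Complex.ofReal_neg, Complex.ofReal_one, neg_mul, one_mul] using this

@[simp] lemma co_sub (f g : RW W) (k : ℤ × ℤ) : (f - g).co k = f.co k - g.co k := by
  rw [sub_eq_add_neg, co_add, co_neg', sub_eq_add_neg]

/-- Fourier multipliers, as functions -/
def multFun (m : ℤ × ℤ → ℂ) (C : ℝ) (hm : ∀ k, ‖m k‖ * W'.w k ≤ C * W.w k)
    (hr : ∀ k, m (-k) = conj (m k)) (f : RW W) : RW W' :=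
  mk (fun k => m k * f.co k)
    (by
      refine Summable.of_nonneg_of_le (fun k => mul_nonneg (W'.pos k).le (norm_nonneg _))
        (fun k => ?_) (f.summable.mul_left C)
      calc W'.w k * ‖m k * f.co k‖ = (‖m k‖ * W'.w k) * ‖f.co k‖ := by rw [norm_mul]; ring
        _ ≤ (C * W.w k) * ‖f.co k‖ := mul_le_mul_of_nonneg_right (hm k) (norm_nonneg _)
        _ = C * (W.w k * ‖f.co k‖) := by ring)
    (fun k => by rw [hr, co_neg, map_mul])

@[simp] lemma co_multFun (m : ℤ × ℤ → ℂ) (C : ℝ) (hm : ∀ k, ‖m k‖ * W'.w k ≤ C * W.w k)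
    (hr : ∀ k, m (-k) = conj (m k)) (f : RW W) (k : ℤ × ℤ) :
    (multFun m C hm hr f : RW W').co k = m k * f.co k := by
  unfold multFun; rw [co_mk]

/-- bounded Fourier multipliers -/
def mult (m : ℤ × ℤ → ℂ) (C : ℝ) (hm : ∀ k, ‖m k‖ * W'.w k ≤ C * W.w k)
    (hr : ∀ k, m (-k) = conj (m k)) : RW W →L[ℝ] RW W' :=
  LinearMap.mkContinuous
    { toFun := multFun m C hm hr
      map_add' := by intro f g; ext k; simp [mul_add]
      map_smul' := by intro c f; ext k; simp; ring }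
    C
    (by
      intro f
      rw [norm_eq, norm_eq, ← tsum_mul_left]
      have hs : Summable fun k => C * (W.w k * ‖f.co k‖) := f.summable.mul_left C
      refine Summable.tsum_le_tsum (fun k => ?_) (RW.summable _) hs
      simp only [LinearMap.coe_mk, AddHom.coe_mk, co_multFun]
      calc W'.w k * ‖m k * f.co k‖ = (‖m k‖ * W'.w k) * ‖f.co k‖ := by rw [norm_mul]; ring
        _ ≤ (C * W.w k) * ‖f.co k‖ := mul_le_mul_of_nonneg_right (hm k) (norm_nonneg _)
        _ = C * (W.w k * ‖f.co k‖) := by ring)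

@[simp] lemma co_mult (m : ℤ × ℤ → ℂ) (C : ℝ) (hm : ∀ k, ‖m k‖ * W'.w k ≤ C * W.w k)
    (hr : ∀ k, m (-k) = conj (m k)) (f : RW W) (k : ℤ × ℤ) :
    (mult m C hm hr f : RW W').co k = m k * f.co k :=
  co_multFun m C hm hr f k

/-- convolution of sequences -/
def conv (c d : ℤ × ℤ → ℂ) (k : ℤ × ℤ) : ℂ := ∑' j, c j * d (k - j)

/-- the shear `(k, j) ↦ (j, k - j)` -/
def shear : (ℤ × ℤ) × (ℤ × ℤ) ≃ (ℤ × ℤ) × (ℤ × ℤ) where
  toFun p := (p.2, p.1 - p.2)
  invFun q := (q.1 + q.2, q.1)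
  left_inv p := by simp
  right_inv q := by simp

lemma summable_pair (f g : RW W) :
    Summable fun p : (ℤ × ℤ) × (ℤ × ℤ) =>
      (W.w p.2 * ‖f.co p.2‖) * (W.w (p.1 - p.2) * ‖g.co (p.1 - p.2)‖) := by
  have h := f.summable.mul_of_nonneg g.summable
    (fun k => mul_nonneg (W.pos k).le (norm_nonneg _))
    (fun k => mul_nonneg (W.pos k).le (norm_nonneg _))
  exact (shear.summable_iff.mpr h)

lemma tsum_pair (f g : RW W) :
    ∑' k, ∑' j, (W.w j * ‖f.co j‖) * (W.w (k - j) * ‖g.co (k - j)‖) = ‖f‖ * ‖g‖ := by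
  have h := f.summable.mul_of_nonneg g.summable
    (fun k => mul_nonneg (W.pos k).le (norm_nonneg _))
    (fun k => mul_nonneg (W.pos k).le (norm_nonneg _))
  rw [norm_eq, norm_eq, f.summable.tsum_mul_tsum g.summable h, ← shear.tsum_eq]
  exact (summable_pair f g).tsum_prod.symm

lemma conv_term_le (f g : RW W) (k j : ℤ × ℤ) :
    W.w k * ‖f.co j * g.co (k - j)‖ ≤
      (W.w j * ‖f.co j‖) * (W.w (k - j) * ‖g.co (k - j)‖) := by
  have h := W.add_le j (k - j)
  rw [add_sub_cancel] at h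
  rw [norm_mul]
  calc W.w k * (‖f.co j‖ * ‖g.co (k - j)‖) ≤
      (W.w j * W.w (k - j)) * (‖f.co j‖ * ‖g.co (k - j)‖) :=
        mul_le_mul_of_nonneg_right h (by positivity)
    _ = _ := by ring

lemma summable_conv_term (f g : RW W) (k : ℤ × ℤ) :
    Summable fun j => ‖f.co j * g.co (k - j)‖ := by
  refine Summable.of_nonneg_of_le (fun j => norm_nonneg _) (fun j => ?_)
    ((summable_pair f g).prod_factor k)
  refine le_trans ?_ (conv_term_le f g k j)
  exact le_mul_of_one_le_left (norm_nonneg _) (W.one_le k)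

lemma norm_conv_le (f g : RW W) (k : ℤ × ℤ) :
    W.w k * ‖conv f.co g.co k‖ ≤
      ∑' j, (W.w j * ‖f.co j‖) * (W.w (k - j) * ‖g.co (k - j)‖) := by
  calc W.w k * ‖conv f.co g.co k‖ ≤ W.w k * ∑' j, ‖f.co j * g.co (k - j)‖ :=
        mul_le_mul_of_nonneg_left (norm_tsum_le_tsum_norm (summable_conv_term f g k)) (W.pos k).le
    _ = ∑' j, W.w k * ‖f.co j * g.co (k - j)‖ := by rw [tsum_mul_left]
    _ ≤ _ := Summable.tsum_le_tsum (fun j => conv_term_le f g k j)
        ((summable_conv_term f g k).mul_left _) ((summable_pair f g).prod_factor k)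

lemma summable_conv (f g : RW W) : Summable fun k => W.w k * ‖conv f.co g.co k‖ :=
  Summable.of_nonneg_of_le (fun k => mul_nonneg (W.pos k).le (norm_nonneg _))
    (norm_conv_le f g) (summable_pair f g).prod

lemma conv_neg (f g : RW W) (k : ℤ × ℤ) :
    conv f.co g.co (-k) = conj (conv f.co g.co k) := by
  unfold conv
  rw [Complex.conj_tsum, ← (Equiv.neg (ℤ × ℤ)).tsum_eq]
  refine tsum_congr fun j => ?_
  rw [Equiv.neg_apply, map_mul, co_neg, ← co_neg g]
  congr 2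
  abel

/-- the product (pointwise product of functions, convolution of coefficients) -/
def mul' (f g : RW W) : RW W := mk (conv f.co g.co) (summable_conv f g) (conv_neg f g)

@[simp] lemma co_mul' (f g : RW W) (k : ℤ × ℤ) : (mul' f g).co k = conv f.co g.co k := by
  unfold mul'; rw [co_mk]

lemma norm_mul'_le (f g : RW W) : ‖mul' f g‖ ≤ ‖f‖ * ‖g‖ := by
  rw [← tsum_pair, norm_eq]
  refine Summable.tsum_le_tsum (fun k => ?_) (RW.summable _) (summable_pair f g).prod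
  rw [co_mul']
  exact norm_conv_le f g k

/-- the product as a continuous bilinear map -/
def mulL (W : Wt) : RW W →L[ℝ] RW W →L[ℝ] RW W :=
  LinearMap.mkContinuous₂
    (LinearMap.mk₂ ℝ mul'
      (by
        intro f f' g; ext k
        simp only [co_mul', co_add, conv]
        rw [← (summable_conv_term f g k).of_norm.tsum_add (summable_conv_term f' g k).of_norm]
        exact tsum_congr fun j => by ring)
      (by
        intro c f g; ext k
        simp only [co_mul', co_smul, conv]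
        rw [← tsum_mul_left]
        exact tsum_congr fun j => by ring)
      (by
        intro f g g'; ext k
        simp only [co_mul', co_add, conv]
        rw [← (summable_conv_term f g k).of_norm.tsum_add (summable_conv_term f g' k).of_norm]
        exact tsum_congr fun j => by ring)
      (by
        intro c f g; ext k
        simp only [co_mul', co_smul, conv]
        rw [← tsum_mul_left]
        exact tsum_congr fun j => by ring))
    1 (by intro f g; simpa using norm_mul'_le f g)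

@[simp] lemma mulL_apply (f g : RW W) : mulL W f g = mul' f g := rfl

end RW

end Vale.Agent.P205
end
end
end

section

section

open scoped ComplexConjugate ContDiff

noncomputable section

namespace Vale.Agent.P205

/-- the exponential `e^{i(k₁x+k₂y)}` -/
def ex (k : ℤ × ℤ) (p : ℝ × ℝ) : ℂ :=
  Complex.exp ((((k.1 : ℝ) * p.1 + (k.2 : ℝ) * p.2 : ℝ) : ℂ) * Complex.I)

lemma norm_ex (k : ℤ × ℤ) (p : ℝ × ℝ) : ‖ex k p‖ = 1 := Complex.norm_exp_ofReal_mul_I _

lemma ex_add (k l : ℤ × ℤ) (p : ℝ × ℝ) : ex (k + l) p = ex k p * ex l p := by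
  unfold ex
  rw [← Complex.exp_add]
  congr 1
  push_cast [Prod.fst_add, Prod.snd_add]
  ring

lemma ex_zero (p : ℝ × ℝ) : ex 0 p = 1 := by simp [ex]

lemma ex_neg (k : ℤ × ℤ) (p : ℝ × ℝ) : ex (-k) p = conj (ex k p) := by
  unfold ex
  rw [← Complex.exp_conj]
  congr 1
  simp only [map_mul, Complex.conj_ofReal, Complex.conj_I]
  push_cast [Prod.fst_neg, Prod.snd_neg]
  ring

lemma hasFDerivAt_ex (k : ℤ × ℤ) (p : ℝ × ℝ) :
    HasFDerivAt (ex k)
      ((ContinuousLinearMap.fst ℝ ℝ ℝ).smulRight (Complex.I * k.1 * ex k p) +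
        (ContinuousLinearMap.snd ℝ ℝ ℝ).smulRight (Complex.I * k.2 * ex k p)) p := by
  have h1 : HasFDerivAt (fun p : ℝ × ℝ => ((k.1 : ℝ) * p.1 + (k.2 : ℝ) * p.2 : ℝ))
      ((k.1 : ℝ) • ContinuousLinearMap.fst ℝ ℝ ℝ + (k.2 : ℝ) • ContinuousLinearMap.snd ℝ ℝ ℝ) p :=
    ((ContinuousLinearMap.fst ℝ ℝ ℝ).hasFDerivAt.const_mul (k.1 : ℝ)).add
      ((ContinuousLinearMap.snd ℝ ℝ ℝ).hasFDerivAt.const_mul (k.2 : ℝ))
  have h2 : HasDerivAt (fun t : ℝ => Complex.exp ((t : ℂ) * Complex.I))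
      (Complex.exp ((((k.1 : ℝ) * p.1 + (k.2 : ℝ) * p.2 : ℝ) : ℂ) * Complex.I) * Complex.I)
      ((k.1 : ℝ) * p.1 + (k.2 : ℝ) * p.2 : ℝ) := by
    have := ((Complex.ofRealCLM.hasDerivAt (x := ((k.1 : ℝ) * p.1 + (k.2 : ℝ) * p.2 : ℝ))).mul_const
      Complex.I).cexp
    simpa only [Complex.ofReal_add, Complex.ofReal_mul, Complex.ofReal_intCast, Complex.ofRealCLM_apply,     Complex.ofReal_one, one_mul] using this
  have h3 := h2.hasFDerivAt.comp p h1
  refine h3.congr_fderiv ?_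
  ext <;> simp [ex] <;> ring

/-- Fourier series with coefficients `c` -/
def evS (c : ℤ × ℤ → ℂ) (p : ℝ × ℝ) : ℂ := ∑' k, c k * ex k p

/-- rapidly decreasing sequences -/
def Rapid (c : ℤ × ℤ → ℂ) : Prop := ∀ s : ℕ, Summable fun k => fsz k ^ s * ‖c k‖

lemma Rapid.summable_norm {c : ℤ × ℤ → ℂ} (h : Rapid c) : Summable fun k => ‖c k‖ := by
  simpa only [pow_zero, one_mul] using h 0

lemma Rapid.of_le {c d : ℤ × ℤ → ℂ} (h : Rapid c) (hd : ∀ k, ‖d k‖ ≤ fsz k * ‖c k‖) : Rapid d := by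
  intro s
  refine Summable.of_nonneg_of_le (fun k => by have := fsz_pos k; positivity) (fun k => ?_)
    (h (s + 1))
  calc fsz k ^ s * ‖d k‖ ≤ fsz k ^ s * (fsz k * ‖c k‖) :=
        mul_le_mul_of_nonneg_left (hd k) (by have := fsz_pos k; positivity)
    _ = fsz k ^ (s + 1) * ‖c k‖ := by ring

/-- coefficients of the `x`-derivative -/
def sD1 (c : ℤ × ℤ → ℂ) (k : ℤ × ℤ) : ℂ := Complex.I * k.1 * c k
/-- coefficients of the `y`-derivative -/
def sD2 (c : ℤ × ℤ → ℂ) (k : ℤ × ℤ) : ℂ := Complex.I * k.2 * c k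

lemma norm_sD1_le (c : ℤ × ℤ → ℂ) (k : ℤ × ℤ) : ‖sD1 c k‖ ≤ fsz k * ‖c k‖ := by
  unfold sD1
  rw [norm_mul, norm_mul, Complex.norm_I, one_mul]
  refine mul_le_mul_of_nonneg_right ?_ (norm_nonneg _)
  simpa only [Complex.norm_intCast] using abs_fst_le_fsz k

lemma norm_sD2_le (c : ℤ × ℤ → ℂ) (k : ℤ × ℤ) : ‖sD2 c k‖ ≤ fsz k * ‖c k‖ := by
  unfold sD2
  rw [norm_mul, norm_mul, Complex.norm_I, one_mul]
  refine mul_le_mul_of_nonneg_right ?_ (norm_nonneg _)
  simpa only [Complex.norm_intCast] using abs_snd_le_fsz k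

lemma Rapid.sD1 {c : ℤ × ℤ → ℂ} (h : Rapid c) : Rapid (sD1 c) := h.of_le (norm_sD1_le c)
lemma Rapid.sD2 {c : ℤ × ℤ → ℂ} (h : Rapid c) : Rapid (sD2 c) := h.of_le (norm_sD2_le c)

lemma summable_evS {c : ℤ × ℤ → ℂ} (h : Summable fun k => ‖c k‖) (p : ℝ × ℝ) :
    Summable fun k => ‖c k * ex k p‖ := by
  simpa [norm_mul, norm_ex] using h

lemma hasFDerivAt_evS {c : ℤ × ℤ → ℂ} (h : Rapid c) (p : ℝ × ℝ) :
    HasFDerivAt (evS c)
      ((ContinuousLinearMap.fst ℝ ℝ ℝ).smulRight (evS (sD1 c) p) +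
        (ContinuousLinearMap.snd ℝ ℝ ℝ).smulRight (evS (sD2 c) p)) p := by
  have hd : ∀ k (q : ℝ × ℝ), HasFDerivAt (fun q => c k * ex k q)
      ((ContinuousLinearMap.fst ℝ ℝ ℝ).smulRight (sD1 c k * ex k q) +
        (ContinuousLinearMap.snd ℝ ℝ ℝ).smulRight (sD2 c k * ex k q)) q := by
    intro k q
    refine ((hasFDerivAt_ex k q).const_mul (c k)).congr_fderiv ?_
    ext <;> simp [sD1, sD2] <;> ring
  have hb : ∀ k (q : ℝ × ℝ), ‖(ContinuousLinearMap.fst ℝ ℝ ℝ).smulRight (sD1 c k * ex k q) +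
        (ContinuousLinearMap.snd ℝ ℝ ℝ).smulRight (sD2 c k * ex k q)‖ ≤ ‖sD1 c k‖ + ‖sD2 c k‖ := by
    intro k q
    refine (norm_add_le _ _).trans (add_le_add ?_ ?_)
    · rw [ContinuousLinearMap.norm_smulRight_apply, norm_mul, norm_ex, mul_one]
      exact mul_le_of_le_one_left (norm_nonneg _) (ContinuousLinearMap.norm_fst_le ℝ ℝ ℝ)
    · rw [ContinuousLinearMap.norm_smulRight_apply, norm_mul, norm_ex, mul_one]
      exact mul_le_of_le_one_left (norm_nonneg _) (ContinuousLinearMap.norm_snd_le ℝ ℝ ℝ)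
  have hs1 := h.sD1.summable_norm
  have hs2 := h.sD2.summable_norm
  have key := hasFDerivAt_tsum (hs1.add hs2) hd hb
    (summable_evS h.summable_norm p).of_norm p
  refine key.congr_fderiv ?_
  have e1 := (summable_evS hs1 p).of_norm
  have e2 := (summable_evS hs2 p).of_norm
  have f1 : Summable fun k => (ContinuousLinearMap.fst ℝ ℝ ℝ).smulRight (sD1 c k * ex k p) +
        (ContinuousLinearMap.snd ℝ ℝ ℝ).smulRight (sD2 c k * ex k p) :=
    Summable.of_norm_bounded (hs1.add hs2) (fun k => hb k p)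
  ext
  · simp only [ContinuousLinearMap.coe_comp, Function.comp_apply, ContinuousLinearMap.inl_apply]
    rw [← ContinuousLinearMap.apply_apply (1, 0) (∑' n, _), ContinuousLinearMap.map_tsum _ f1]
    simp only [ContinuousLinearMap.apply_apply, add_apply, ContinuousLinearMap.smulRight_apply, ContinuousLinearMap.coe_fst', one_smul, ContinuousLinearMap.coe_snd', zero_smul, add_zero, evS]
  · simp only [ContinuousLinearMap.coe_comp, Function.comp_apply, ContinuousLinearMap.inr_apply]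
    rw [← ContinuousLinearMap.apply_apply (0, 1) (∑' n, _), ContinuousLinearMap.map_tsum _ f1]
    simp only [ContinuousLinearMap.apply_apply, add_apply, ContinuousLinearMap.smulRight_apply, ContinuousLinearMap.coe_fst', zero_smul, ContinuousLinearMap.coe_snd', one_smul, zero_add, evS]

lemma contDiff_evS_nat (n : ℕ) : ∀ {c : ℤ × ℤ → ℂ}, Rapid c → ContDiff ℝ n (evS c) := by
  induction n with
  | zero =>
    intro c h
    exact contDiff_zero.mpr (continuous_iff_continuousAt.mpr fun p =>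
      (hasFDerivAt_evS h p).continuousAt)
  | succ n ih =>
    intro c h
    have := (contDiff_succ_iff_hasFDerivAt (𝕜 := ℝ) (n := n) (f := evS c)).mpr
      ⟨fun p => (ContinuousLinearMap.fst ℝ ℝ ℝ).smulRight (evS (sD1 c) p) +
        (ContinuousLinearMap.snd ℝ ℝ ℝ).smulRight (evS (sD2 c) p), ?_,
        fun p => hasFDerivAt_evS h p⟩
    · exact_mod_cast this
    · have h1 := ih h.sD1
      have h2 := ih h.sD2
      exact (contDiff_const.smulRight h1).add (contDiff_const.smulRight h2)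

lemma contDiff_evS {c : ℤ × ℤ → ℂ} (h : Rapid c) : ContDiff ℝ ∞ (evS c) :=
  contDiff_infty.mpr fun n => contDiff_evS_nat n h

variable {W W' : Wt}

namespace RW

lemma rapid (hW : W.Sup) (f : RW W) : Rapid f.co := by
  intro s
  obtain ⟨C, hC⟩ := hW s
  refine Summable.of_nonneg_of_le (fun k => by have := fsz_pos k; positivity) (fun k => ?_)
    (f.summable.mul_left C)
  calc fsz k ^ s * ‖f.co k‖ ≤ (C * W.w k) * ‖f.co k‖ :=
        mul_le_mul_of_nonneg_right (hC k) (norm_nonneg _)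
    _ = C * (W.w k * ‖f.co k‖) := by ring

lemma summable_co (f : RW W) : Summable fun k => ‖f.co k‖ :=
  Summable.of_nonneg_of_le (fun _ => norm_nonneg _)
    (fun k => le_mul_of_one_le_left (norm_nonneg _) (W.one_le k)) f.summable

/-- the real function on the torus (as a `2π`-periodic function on `ℝ × ℝ`) -/
def ev (f : RW W) (p : ℝ × ℝ) : ℝ := (evS f.co p).re

lemma evS_co (f : RW W) (p : ℝ × ℝ) : evS f.co p = (ev f p : ℂ) := by
  unfold ev
  symm
  rw [← Complex.conj_eq_iff_re]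
  unfold evS
  rw [Complex.conj_tsum, ← (Equiv.neg (ℤ × ℤ)).tsum_eq]
  refine tsum_congr fun k => ?_
  rw [Equiv.neg_apply, map_mul, co_neg, ex_neg, Complex.conj_conj, Complex.conj_conj]

lemma ev_add (f g : RW W) (p : ℝ × ℝ) : ev (f + g) p = ev f p + ev g p := by
  unfold ev
  rw [← Complex.add_re]
  congr 1
  unfold evS
  rw [← (summable_evS f.summable_co p).of_norm.tsum_add (summable_evS g.summable_co p).of_norm]
  exact tsum_congr fun k => by rw [co_add]; ring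

lemma ev_smul (c : ℝ) (f : RW W) (p : ℝ × ℝ) : ev (c • f) p = c * ev f p := by
  unfold ev
  rw [← Complex.re_ofReal_mul]
  congr 1
  unfold evS
  rw [← tsum_mul_left]
  exact tsum_congr fun k => by rw [co_smul]; ring

lemma evS_mul (f g : RW W) (p : ℝ × ℝ) :
    evS (mul' f g).co p = evS f.co p * evS g.co p := by
  set F : ℤ × ℤ → ℂ := fun k => f.co k * ex k p with hF
  set G : ℤ × ℤ → ℂ := fun k => g.co k * ex k p with hG
  have hf : Summable fun k => ‖F k‖ := summable_evS f.summable_co p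
  have hg : Summable fun k => ‖G k‖ := summable_evS g.summable_co p
  have e1 : evS f.co p = ∑' k, F k := rfl
  have e2 : evS g.co p = ∑' k, G k := rfl
  rw [e1, e2, tsum_mul_tsum_of_summable_norm hf hg]
  have hs : Summable fun q : (ℤ × ℤ) × (ℤ × ℤ) => F q.1 * G q.2 :=
    summable_mul_of_summable_norm hf hg
  have hs' : Summable fun q : (ℤ × ℤ) × (ℤ × ℤ) => F q.2 * G (q.1 - q.2) :=
    shear.summable_iff.mpr hs
  have e3 : ∑' q : (ℤ × ℤ) × (ℤ × ℤ), F q.1 * G q.2 =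
      ∑' q : (ℤ × ℤ) × (ℤ × ℤ), F q.2 * G (q.1 - q.2) :=
    (shear.tsum_eq (fun q : (ℤ × ℤ) × (ℤ × ℤ) => F q.1 * G q.2)).symm
  rw [e3, hs'.tsum_prod]
  unfold evS
  refine tsum_congr fun k => ?_
  rw [co_mul', conv, ← tsum_mul_right]
  refine tsum_congr fun j => ?_
  have : ex k p = ex j p * ex (k - j) p := by rw [← ex_add]; congr 1; abel
  rw [this, hF, hG]; ring

lemma ev_mul (f g : RW W) (p : ℝ × ℝ) : ev (mul' f g) p = ev f p * ev g p := by
  have h2 := congrArg Complex.re (evS_mul f g p)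
  rw [evS_co f, evS_co g, ← Complex.ofReal_mul, Complex.ofReal_re] at h2
  exact h2

end RW

end Vale.Agent.P205
end
end
end

section

section

open scoped ComplexConjugate ContDiff

noncomputable section

namespace Vale.Agent.P205

namespace RW

variable {W : Wt} {s : ℕ}

/-- inclusion lowering the weight by one power of the frequency -/
def inc : RW (W.up (s + 1)) →L[ℝ] RW (W.up s) :=
  mult (fun _ => 1) 1
    (fun k => by
      rw [norm_one, one_mul, one_mul, Wt.up_w, Wt.up_w]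
      exact mul_le_mul_of_nonneg_left (pow_le_pow_right₀ (one_le_fsz k) (Nat.le_succ s))
        (W.pos k).le)
    (fun k => by simp)

@[simp] lemma co_inc (f : RW (W.up (s + 1))) (k : ℤ × ℤ) : (inc f).co k = f.co k := by
  simp [inc]

/-- the `x`-derivative -/
def D1 : RW (W.up (s + 1)) →L[ℝ] RW (W.up s) :=
  mult (fun k => Complex.I * k.1) 1
    (fun k => by
      rw [norm_mul, Complex.norm_I, one_mul, one_mul, Wt.up_w, Wt.up_w, pow_succ]
      have h1 : ‖((k.1 : ℤ) : ℂ)‖ ≤ fsz k := by simpa using abs_fst_le_fsz k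
      have h2 : 0 ≤ W.w k * fsz k ^ s := mul_nonneg (W.pos k).le (by have := fsz_pos k; positivity)
      calc ‖((k.1 : ℤ) : ℂ)‖ * (W.w k * fsz k ^ s) ≤ fsz k * (W.w k * fsz k ^ s) :=
            mul_le_mul_of_nonneg_right h1 h2
        _ = _ := by ring)
    (fun k => by simp)

@[simp] lemma co_D1 (f : RW (W.up (s + 1))) (k : ℤ × ℤ) :
    (D1 f).co k = Complex.I * k.1 * f.co k := by
  simp [D1]

/-- the `y`-derivative -/
def D2 : RW (W.up (s + 1)) →L[ℝ] RW (W.up s) :=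
  mult (fun k => Complex.I * k.2) 1
    (fun k => by
      rw [norm_mul, Complex.norm_I, one_mul, one_mul, Wt.up_w, Wt.up_w, pow_succ]
      have h1 : ‖((k.2 : ℤ) : ℂ)‖ ≤ fsz k := by simpa using abs_snd_le_fsz k
      have h2 : 0 ≤ W.w k * fsz k ^ s := mul_nonneg (W.pos k).le (by have := fsz_pos k; positivity)
      calc ‖((k.2 : ℤ) : ℂ)‖ * (W.w k * fsz k ^ s) ≤ fsz k * (W.w k * fsz k ^ s) :=
            mul_le_mul_of_nonneg_right h1 h2
        _ = _ := by ring)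
    (fun k => by simp)

@[simp] lemma co_D2 (f : RW (W.up (s + 1))) (k : ℤ × ℤ) :
    (D2 f).co k = Complex.I * k.2 * f.co k := by
  simp [D2]

/-- `1 + k₁² + k₂²` -/
def ell (k : ℤ × ℤ) : ℝ := 1 + (k.1 : ℝ) ^ 2 + (k.2 : ℝ) ^ 2

lemma ell_pos (k : ℤ × ℤ) : 0 < ell k := by unfold ell; positivity

lemma fsz_sq_le (k : ℤ × ℤ) : fsz k ^ 2 ≤ 3 * ell k := by
  unfold fsz ell
  have h1 := sq_abs (k.1 : ℝ)
  have h2 := sq_abs (k.2 : ℝ)
  linarith only [sq_nonneg (|(k.2 : ℝ)| - 1), sq_nonneg (|(k.1 : ℝ)| - 1), sq_nonneg (|(k.1 : ℝ)| - |(k.2 : ℝ)|), h2, h1]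

/-- `J = (1 - Δ)⁻¹` -/
def J : RW (W.up s) →L[ℝ] RW (W.up (s + 2)) :=
  mult (fun k => ((1 / ell k : ℝ) : ℂ)) 3
    (fun k => by
      have h := ell_pos k
      rw [Complex.norm_real, Real.norm_of_nonneg (by positivity), Wt.up_w, Wt.up_w, pow_add]
      have h2 : 0 ≤ W.w k * fsz k ^ s := mul_nonneg (W.pos k).le (by have := fsz_pos k; positivity)
      have h3 : 1 / ell k * fsz k ^ 2 ≤ 3 := by
        rw [one_div, inv_mul_le_iff₀ h]; linarith [fsz_sq_le k]
      calc 1 / ell k * (W.w k * (fsz k ^ s * fsz k ^ 2)) =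
            (1 / ell k * fsz k ^ 2) * (W.w k * fsz k ^ s) := by ring
        _ ≤ 3 * (W.w k * fsz k ^ s) := mul_le_mul_of_nonneg_right h3 h2)
    (fun k => by
      have : ell (-k) = ell k := by simp [ell]
      rw [this, Complex.conj_ofReal])

@[simp] lemma co_J (f : RW (W.up s)) (k : ℤ × ℤ) :
    (J f).co k = ((1 / ell k : ℝ) : ℂ) * f.co k := by
  simp only [J, one_div, Complex.ofReal_inv, co_mult]

lemma J_spec (f : RW (W.up s)) :
    inc (inc (J f)) - D1 (D1 (J f)) - D2 (D2 (J f)) = f := by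
  ext k
  simp only [co_sub, co_inc, co_D1, co_D2, co_J]
  have h : (ell k : ℂ) ≠ 0 := by exact_mod_cast (ell_pos k).ne'
  have h2 : (ell k : ℂ) = 1 + (k.1 : ℂ) ^ 2 + (k.2 : ℂ) ^ 2 := by
    unfold ell; push_cast; ring
  have h3 : Complex.I * k.1 * (Complex.I * k.1 * (((1 / ell k : ℝ) : ℂ) * f.co k)) =
      - (k.1 : ℂ) ^ 2 * (((1 / ell k : ℝ) : ℂ) * f.co k) := by
    ring_nf; rw [Complex.I_sq]; ring
  have h4 : Complex.I * k.2 * (Complex.I * k.2 * (((1 / ell k : ℝ) : ℂ) * f.co k)) =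
      - (k.2 : ℂ) ^ 2 * (((1 / ell k : ℝ) : ℂ) * f.co k) := by
    ring_nf; rw [Complex.I_sq]; ring
  rw [h3, h4]
  have h5 : ((1 / ell k : ℝ) : ℂ) = 1 / (ell k : ℂ) := by push_cast; rfl
  rw [h5]
  field_simp
  rw [h2]; ring

/-! ### calculus for `ev` -/

@[simp] lemma ev_inc (f : RW (W.up (s + 1))) (p : ℝ × ℝ) : ev (inc f) p = ev f p := by
  unfold ev evS
  congr 1
  exact tsum_congr fun k => by rw [co_inc]

lemma contDiff_ev (hW : W.Sup) (f : RW W) : ContDiff ℝ ∞ (ev f) :=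
  Complex.reCLM.contDiff.comp (contDiff_evS (f.rapid hW))

lemma hasFDerivAt_ev (hW : W.Sup) (f : RW (W.up (s + 1))) (p : ℝ × ℝ) :
    HasFDerivAt (ev f)
      (ev (D1 f) p • ContinuousLinearMap.fst ℝ ℝ ℝ + ev (D2 f) p • ContinuousLinearMap.snd ℝ ℝ ℝ)
      p := by
  have h := Complex.reCLM.hasFDerivAt.comp p (hasFDerivAt_evS (f.rapid (hW.up _)) p)
  refine h.congr_fderiv ?_
  have e1 : evS (sD1 f.co) p = (ev (D1 f) p : ℂ) := by
    rw [← evS_co]; congr 1; ext k; simp [sD1]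
  have e2 : evS (sD2 f.co) p = (ev (D2 f) p : ℂ) := by
    rw [← evS_co]; congr 1; ext k; simp [sD2]
  rw [e1, e2]
  ext <;> simp

lemma ex_periodic1 (k : ℤ × ℤ) (p : ℝ × ℝ) : ex k (p + (2 * Real.pi, 0)) = ex k p := by
  unfold ex
  rw [Complex.exp_eq_exp_iff_exists_int]
  refine ⟨k.1, ?_⟩
  push_cast [Prod.fst_add, Prod.snd_add]
  ring

lemma ex_periodic2 (k : ℤ × ℤ) (p : ℝ × ℝ) : ex k (p + (0, 2 * Real.pi)) = ex k p := by
  unfold ex
  rw [Complex.exp_eq_exp_iff_exists_int]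
  refine ⟨k.2, ?_⟩
  push_cast [Prod.fst_add, Prod.snd_add]
  ring

lemma ev_periodic (f : RW W) : Periodic2 (2 * Real.pi, 0) (0, 2 * Real.pi) (ev f) :=
  ⟨fun p => by unfold ev evS; simp only [ex_periodic1],
   fun p => by unfold ev evS; simp only [ex_periodic2]⟩

end RW

end Vale.Agent.P205
end
end
end

section

section

namespace Vale.Agent.P205

section

variable {S : Type*} [CommRing S] [Algebra ℝ S] (D₁ D₂ : Derivation ℝ S S)

/-- the operator `1 - Δ` -/
def oml (a : S) : S := a - D₁ (D₁ a) - D₂ (D₂ a)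

/-- Hessian determinant -/
def hes (u : S) : S := D₁ (D₁ u) * D₂ (D₂ u) - D₁ (D₂ u) * D₁ (D₂ u)

/-- Laplacian -/
def lap (u : S) : S := D₁ (D₁ u) + D₂ (D₂ u)

/-- cross term `κ_j` for the derivation `D` -/
def kap (D : Derivation ℝ S S) (r s : S) : S :=
  (r * D s - s * D r) - 2 * (lap D₁ D₂ r * D s) + 2 * (lap D₁ D₂ s * D r)
    - 2 * (D₁ r * D₁ (D s) - D₁ s * D₁ (D r)) - 2 * (D₂ r * D (D₂ s) - D₂ s * D (D₂ r))

/-- `ν` for the derivation `D` (with `t = ε²`) -/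
def nuD (D : Derivation ℝ S S) (t r s s1 s2 r1 r2 : S) : S :=
  -(r * lap D₁ D₂ s - s * lap D₁ D₂ r) - (lap D₁ D₂ s1 * D s1 + lap D₁ D₂ s2 * D s2)
    - t * (lap D₁ D₂ r1 * D r1 + lap D₁ D₂ r2 * D r2)

def pi11 (t s1 s2 r1 r2 : S) : S :=
  2 * kap D₁ D₂ D₁ r1 s1 + (2 * hes D₁ D₂ s1 + D₁ s1 * D₁ s1) + (2 * hes D₁ D₂ s2 + D₁ s2 * D₁ s2)
    + t * ((2 * hes D₁ D₂ r1 + D₁ r1 * D₁ r1) + (2 * hes D₁ D₂ r2 + D₁ r2 * D₁ r2))

def pi22 (t s1 s2 r1 r2 : S) : S :=
  2 * kap D₁ D₂ D₂ r2 s2 + (2 * hes D₁ D₂ s1 + D₂ s1 * D₂ s1) + (2 * hes D₁ D₂ s2 + D₂ s2 * D₂ s2)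
    + t * ((2 * hes D₁ D₂ r1 + D₂ r1 * D₂ r1) + (2 * hes D₁ D₂ r2 + D₂ r2 * D₂ r2))

def pi12 (t s1 s2 r1 r2 : S) : S :=
  kap D₁ D₂ D₂ r1 s1 + kap D₁ D₂ D₁ r2 s2 + (D₁ s1 * D₂ s1 + D₁ s2 * D₂ s2)
    + t * (D₁ r1 * D₂ r1 + D₁ r2 * D₂ r2)

def L11 (t s1 s2 r1 r2 : S) : S :=
  2 * (r1 * D₁ s1 - s1 * D₁ r1) + (D₁ s1 * D₁ s1 + D₁ s2 * D₁ s2)
    + t * (D₁ r1 * D₁ r1 + D₁ r2 * D₁ r2)

def L22 (t s1 s2 r1 r2 : S) : S :=
  2 * (r2 * D₂ s2 - s2 * D₂ r2) + (D₂ s1 * D₂ s1 + D₂ s2 * D₂ s2)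
    + t * (D₂ r1 * D₂ r1 + D₂ r2 * D₂ r2)

def L12 (t s1 s2 r1 r2 : S) : S :=
  (r1 * D₂ s1 - s1 * D₂ r1) + (r2 * D₁ s2 - s2 * D₁ r2) + (D₁ s1 * D₂ s1 + D₁ s2 * D₂ s2)
    + t * (D₁ r1 * D₂ r1 + D₁ r2 * D₂ r2)

variable {D₁ D₂}

lemma oml_sq11 (hc : ∀ a, D₂ (D₁ a) = D₁ (D₂ a)) (u : S) :
    oml D₁ D₂ (D₁ u * D₁ u) = 2 * D₁ (-(lap D₁ D₂ u * D₁ u)) + (2 * hes D₁ D₂ u + D₁ u * D₁ u) := by
  simp only [oml, lap, hes, Derivation.leibniz, map_add, map_neg, hc, smul_eq_mul]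
  ring

lemma oml_sq22 (hc : ∀ a, D₂ (D₁ a) = D₁ (D₂ a)) (u : S) :
    oml D₁ D₂ (D₂ u * D₂ u) = 2 * D₂ (-(lap D₁ D₂ u * D₂ u)) + (2 * hes D₁ D₂ u + D₂ u * D₂ u) := by
  simp only [oml, lap, hes, Derivation.leibniz, map_add, map_neg, hc, smul_eq_mul]
  ring

lemma oml_sq12 (hc : ∀ a, D₂ (D₁ a) = D₁ (D₂ a)) (u : S) :
    oml D₁ D₂ (D₁ u * D₂ u) = D₁ (-(lap D₁ D₂ u * D₂ u)) + D₂ (-(lap D₁ D₂ u * D₁ u))
      + D₁ u * D₂ u := by
  simp only [oml, lap, Derivation.leibniz, map_add, map_neg, hc, smul_eq_mul]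
  ring

lemma oml_cross1 (hc : ∀ a, D₂ (D₁ a) = D₁ (D₂ a)) (r s : S) :
    oml D₁ D₂ (r * D₁ s - s * D₁ r) =
      D₁ (-(r * lap D₁ D₂ s - s * lap D₁ D₂ r)) + kap D₁ D₂ D₁ r s := by
  simp only [oml, lap, kap, Derivation.leibniz, map_add, map_neg, map_sub, hc, smul_eq_mul]
  ring

lemma oml_cross2 (hc : ∀ a, D₂ (D₁ a) = D₁ (D₂ a)) (r s : S) :
    oml D₁ D₂ (r * D₂ s - s * D₂ r) =
      D₂ (-(r * lap D₁ D₂ s - s * lap D₁ D₂ r)) + kap D₁ D₂ D₂ r s := by
  simp only [oml, lap, kap, Derivation.leibniz, map_add, map_neg, map_sub, hc, smul_eq_mul]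
  ring

lemma oml_add (a b : S) : oml D₁ D₂ (a + b) = oml D₁ D₂ a + oml D₁ D₂ b := by
  simp only [oml, map_add]; ring

lemma oml_sub (a b : S) : oml D₁ D₂ (a - b) = oml D₁ D₂ a - oml D₁ D₂ b := by
  simp only [oml, map_sub]; ring

lemma oml_two (a : S) : oml D₁ D₂ (2 * a) = 2 * oml D₁ D₂ a := by
  rw [two_mul, oml_add]; ring

lemma oml_const {t : S} (h1 : D₁ t = 0) (h2 : D₂ t = 0) (a : S) :
    oml D₁ D₂ (t * a) = t * oml D₁ D₂ a := by
  simp only [oml, Derivation.leibniz, h1, h2, smul_eq_mul, mul_zero, add_zero]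
  ring

lemma oml_D1 (hc : ∀ a, D₂ (D₁ a) = D₁ (D₂ a)) (a : S) :
    oml D₁ D₂ (D₁ a) = D₁ (oml D₁ D₂ a) := by
  simp only [oml, map_sub, hc]

lemma oml_D2 (hc : ∀ a, D₂ (D₁ a) = D₁ (D₂ a)) (a : S) :
    oml D₁ D₂ (D₂ a) = D₂ (oml D₁ D₂ a) := by
  simp only [oml, map_sub, hc]

lemma der_const (D : Derivation ℝ S S) {t : S} (h : D t = 0) (a : S) : D (t * a) = t * D a := by
  simp [h]

lemma oml_L11 (hc : ∀ a, D₂ (D₁ a) = D₁ (D₂ a)) {t : S} (h1 : D₁ t = 0) (h2 : D₂ t = 0)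
    (s1 s2 r1 r2 : S) :
    oml D₁ D₂ (L11 D₁ t s1 s2 r1 r2) =
      2 * D₁ (nuD D₁ D₂ D₁ t r1 s1 s1 s2 r1 r2) + pi11 D₁ D₂ t s1 s2 r1 r2 := by
  simp only [L11, oml_add, oml_two, oml_const h1 h2, oml_cross1 hc, oml_sq11 hc, nuD, pi11,
    map_add, map_sub, map_neg, der_const D₁ h1]
  ring

lemma oml_L22 (hc : ∀ a, D₂ (D₁ a) = D₁ (D₂ a)) {t : S} (h1 : D₁ t = 0) (h2 : D₂ t = 0)
    (s1 s2 r1 r2 : S) :
    oml D₁ D₂ (L22 D₂ t s1 s2 r1 r2) =
      2 * D₂ (nuD D₁ D₂ D₂ t r2 s2 s1 s2 r1 r2) + pi22 D₁ D₂ t s1 s2 r1 r2 := by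
  simp only [L22, oml_add, oml_two, oml_const h1 h2, oml_cross2 hc, oml_sq22 hc, nuD, pi22,
    map_add, map_sub, map_neg, der_const D₂ h2]
  ring

lemma oml_L12 (hc : ∀ a, D₂ (D₁ a) = D₁ (D₂ a)) {t : S} (h1 : D₁ t = 0) (h2 : D₂ t = 0)
    (s1 s2 r1 r2 : S) :
    oml D₁ D₂ (L12 D₁ D₂ t s1 s2 r1 r2) =
      D₁ (nuD D₁ D₂ D₂ t r2 s2 s1 s2 r1 r2) + D₂ (nuD D₁ D₂ D₁ t r1 s1 s1 s2 r1 r2)
        + pi12 D₁ D₂ t s1 s2 r1 r2 := by
  simp only [L12, oml_add, oml_const h1 h2, oml_cross1 hc, oml_cross2 hc, oml_sq12 hc, nuD, pi12,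
    map_add, map_sub, map_neg, der_const D₁ h1, der_const D₂ h2]
  ring

/-- The system solved by the fixed point. -/
structure Sol (D₁ D₂ : Derivation ℝ S S) (A B iA iB t s1 s2 r1 r2 a c n1 n2 p11 p12 p22 : S) :
    Prop where
  hA : A * iA = 1
  hB : B * iB = 1
  hn1 : oml D₁ D₂ n1 = nuD D₁ D₂ D₁ t r1 s1 s1 s2 r1 r2
  hn2 : oml D₁ D₂ n2 = nuD D₁ D₂ D₂ t r2 s2 s1 s2 r1 r2
  hp11 : oml D₁ D₂ p11 = pi11 D₁ D₂ t s1 s2 r1 r2
  hp12 : oml D₁ D₂ p12 = pi12 D₁ D₂ t s1 s2 r1 r2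
  hp22 : oml D₁ D₂ p22 = pi22 D₁ D₂ t s1 s2 r1 r2
  hs1 : A * s1 = A ^ 2 * a - t * (n1 + (D₁ A * r1 + D₁ B * r2))
  hs2 : B * s2 = B ^ 2 * c - t * (n2 + (D₂ A * r1 + D₂ B * r2))
  hac : A ^ 2 * D₂ a + B ^ 2 * D₁ c = -(D₁ A * D₂ A + D₁ B * D₂ B
    + t * (2 * (D₂ A * iA) * (n1 + (D₁ A * r1 + D₁ B * r2))
      + 2 * (D₁ B * iB) * (n2 + (D₂ A * r1 + D₂ B * r2))
      - 2 * (D₁ (D₂ A) * r1 + D₁ (D₂ B) * r2) + p12))
  hr1 : 2 * A * r1 + 2 * A ^ 2 * D₁ a + s1 ^ 2 + (D₁ A) ^ 2 + (D₁ B) ^ 2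
    + t * (4 * (D₁ A * iA) * (n1 + (D₁ A * r1 + D₁ B * r2))
      - 2 * (D₁ (D₁ A) * r1 + D₁ (D₁ B) * r2) + r1 ^ 2 + p11) = 0
  hr2 : 2 * B * r2 + 2 * B ^ 2 * D₂ c + s2 ^ 2 + (D₂ A) ^ 2 + (D₂ B) ^ 2
    + t * (4 * (D₂ B * iB) * (n2 + (D₂ A * r1 + D₂ B * r2))
      - 2 * (D₂ (D₂ A) * r1 + D₂ (D₂ B) * r2) + r2 ^ 2 + p22) = 0

section pde

variable {A B iA iB t s1 s2 r1 r2 a c n1 n2 p11 p12 p22 : S}

lemma Sol.L11_eq (h : Sol D₁ D₂ A B iA iB t s1 s2 r1 r2 a c n1 n2 p11 p12 p22)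
    (hc : ∀ a, D₂ (D₁ a) = D₁ (D₂ a)) (hinj : ∀ a, oml D₁ D₂ a = 0 → a = 0)
    (h1 : D₁ t = 0) (h2 : D₂ t = 0) : L11 D₁ t s1 s2 r1 r2 = 2 * D₁ n1 + p11 := by
  have := hinj (L11 D₁ t s1 s2 r1 r2 - (2 * D₁ n1 + p11)) (by
    rw [oml_sub, oml_add, oml_two, oml_D1 hc, h.hn1, h.hp11, oml_L11 hc h1 h2]; ring)
  linear_combination this

lemma Sol.L22_eq (h : Sol D₁ D₂ A B iA iB t s1 s2 r1 r2 a c n1 n2 p11 p12 p22)
    (hc : ∀ a, D₂ (D₁ a) = D₁ (D₂ a)) (hinj : ∀ a, oml D₁ D₂ a = 0 → a = 0)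
    (h1 : D₁ t = 0) (h2 : D₂ t = 0) : L22 D₂ t s1 s2 r1 r2 = 2 * D₂ n2 + p22 := by
  have := hinj (L22 D₂ t s1 s2 r1 r2 - (2 * D₂ n2 + p22)) (by
    rw [oml_sub, oml_add, oml_two, oml_D2 hc, h.hn2, h.hp22, oml_L22 hc h1 h2]; ring)
  linear_combination this

lemma Sol.L12_eq (h : Sol D₁ D₂ A B iA iB t s1 s2 r1 r2 a c n1 n2 p11 p12 p22)
    (hc : ∀ a, D₂ (D₁ a) = D₁ (D₂ a)) (hinj : ∀ a, oml D₁ D₂ a = 0 → a = 0)
    (h1 : D₁ t = 0) (h2 : D₂ t = 0) :
    L12 D₁ D₂ t s1 s2 r1 r2 = D₁ n2 + D₂ n1 + p12 := by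
  have := hinj (L12 D₁ D₂ t s1 s2 r1 r2 - (D₁ n2 + D₂ n1 + p12)) (by
    rw [oml_sub, oml_add, oml_add, oml_D1 hc, oml_D2 hc, h.hn1, h.hn2, h.hp12, oml_L12 hc h1 h2]
    ring)
  linear_combination this

lemma Sol.E11 (h : Sol D₁ D₂ A B iA iB t s1 s2 r1 r2 a c n1 n2 p11 p12 p22)
    (hc : ∀ a, D₂ (D₁ a) = D₁ (D₂ a)) (hinj : ∀ a, oml D₁ D₂ a = 0 → a = 0)
    (h1 : D₁ t = 0) (h2 : D₂ t = 0) :
    2 * A * r1 + s1 ^ 2 + 2 * (A * D₁ s1 - s1 * D₁ A) + (D₁ A) ^ 2 + (D₁ B) ^ 2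
      + t * (r1 ^ 2 + 2 * (D₁ A * D₁ r1 + D₁ B * D₁ r2) + L11 D₁ t s1 s2 r1 r2) = 0 := by
  rw [h.L11_eq hc hinj h1 h2]
  have hd := congrArg D₁ h.hs1
  simp only [Derivation.leibniz, map_add, map_sub, h1, smul_eq_mul, pow_two, mul_zero,
    add_zero] at hd
  have hA := h.hA
  have hs1 := h.hs1
  have hr1 := h.hr1
  linear_combination hr1 + 2 * hd - 4 * (D₁ A) * iA * hs1 + (4 * D₁ A * s1 - 4 * A * a * D₁ A) * hA

lemma Sol.E22 (h : Sol D₁ D₂ A B iA iB t s1 s2 r1 r2 a c n1 n2 p11 p12 p22)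
    (hc : ∀ a, D₂ (D₁ a) = D₁ (D₂ a)) (hinj : ∀ a, oml D₁ D₂ a = 0 → a = 0)
    (h1 : D₁ t = 0) (h2 : D₂ t = 0) :
    2 * B * r2 + s2 ^ 2 + 2 * (B * D₂ s2 - s2 * D₂ B) + (D₂ A) ^ 2 + (D₂ B) ^ 2
      + t * (r2 ^ 2 + 2 * (D₂ A * D₂ r1 + D₂ B * D₂ r2) + L22 D₂ t s1 s2 r1 r2) = 0 := by
  rw [h.L22_eq hc hinj h1 h2]
  have hd := congrArg D₂ h.hs2
  simp only [Derivation.leibniz, map_add, map_sub, h2, smul_eq_mul, pow_two, mul_zero,
    add_zero] at hd
  have hB := h.hB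
  have hs2 := h.hs2
  have hr2 := h.hr2
  linear_combination hr2 + 2 * hd - 4 * (D₂ B) * iB * hs2 + (4 * D₂ B * s2 - 4 * B * c * D₂ B) * hB

lemma Sol.E12 (h : Sol D₁ D₂ A B iA iB t s1 s2 r1 r2 a c n1 n2 p11 p12 p22)
    (hc : ∀ a, D₂ (D₁ a) = D₁ (D₂ a)) (hinj : ∀ a, oml D₁ D₂ a = 0 → a = 0)
    (h1 : D₁ t = 0) (h2 : D₂ t = 0) :
    (A * D₂ s1 - s1 * D₂ A) + (B * D₁ s2 - s2 * D₁ B) + D₁ A * D₂ A + D₁ B * D₂ B
      + t * ((D₁ A * D₂ r1 + D₂ A * D₁ r1) + (D₁ B * D₂ r2 + D₂ B * D₁ r2)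
        + L12 D₁ D₂ t s1 s2 r1 r2) = 0 := by
  rw [h.L12_eq hc hinj h1 h2]
  have hd1 := congrArg D₂ h.hs1
  have hd2 := congrArg D₁ h.hs2
  simp only [Derivation.leibniz, smul_eq_mul, pow_two, map_sub, map_add, hc, h2, mul_zero, add_zero, h1] at hd1 hd2
  have hA := h.hA
  have hB := h.hB
  have hs1 := h.hs1
  have hs2 := h.hs2
  have hac := h.hac
  linear_combination hac + hd1 + hd2 - 2 * (D₂ A) * iA * hs1 + (2 * D₂ A * s1 - 2 * A * a * D₂ A) * hA
    - 2 * (D₁ B) * iB * hs2 + (2 * D₁ B * s2 - 2 * B * c * D₁ B) * hB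

end pde

end

end Vale.Agent.P205
end
end

section

section

open scoped ContDiff

noncomputable section

namespace Vale.Agent.P205

/-- smooth real functions on the plane, `2π`-periodic in both variables -/
def SFun : Subalgebra ℝ (ℝ × ℝ → ℝ) where
  carrier := {g | ContDiff ℝ ∞ g ∧ Periodic2 (2 * Real.pi, 0) (0, 2 * Real.pi) g}
  mul_mem' := by
    rintro f g ⟨hf, hf1, hf2⟩ ⟨hg, hg1, hg2⟩
    exact ⟨hf.mul hg, fun p => by simp [hf1 p, hg1 p], fun p => by simp [hf2 p, hg2 p]⟩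
  add_mem' := by
    rintro f g ⟨hf, hf1, hf2⟩ ⟨hg, hg1, hg2⟩
    exact ⟨hf.add hg, fun p => by simp [hf1 p, hg1 p], fun p => by simp [hf2 p, hg2 p]⟩
  algebraMap_mem' := by
    intro r
    exact ⟨contDiff_const, fun p => rfl, fun p => rfl⟩

namespace SFun

lemma smooth (g : SFun) : ContDiff ℝ ∞ (g : ℝ × ℝ → ℝ) := g.2.1

lemma diff (g : SFun) : Differentiable ℝ (g : ℝ × ℝ → ℝ) := (smooth g).differentiable (by simp)

lemma per (g : SFun) : Periodic2 (2 * Real.pi, 0) (0, 2 * Real.pi) (g : ℝ × ℝ → ℝ) := g.2.2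

/-- directional derivative of a smooth periodic function -/
def dirFun (v : ℝ × ℝ) (g : SFun) : SFun :=
  ⟨fun p => fderiv ℝ (g : ℝ × ℝ → ℝ) p v,
    ((smooth g).fderiv_right (m := ∞) (by simp)).clm_apply contDiff_const,
    fun p => by
      have h : (fun q => (g : ℝ × ℝ → ℝ) (q + (2 * Real.pi, 0))) = g := by
        ext q; exact (per g).1 q
      have := fderiv_comp_add_right (𝕜 := ℝ) (f := (g : ℝ × ℝ → ℝ)) (x := p) (2 * Real.pi, 0)
      rw [h] at this
      show fderiv ℝ (g : ℝ × ℝ → ℝ) (p + (2 * Real.pi, 0)) v = _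
      rw [← this],
    fun p => by
      have h : (fun q => (g : ℝ × ℝ → ℝ) (q + (0, 2 * Real.pi))) = g := by
        ext q; exact (per g).2 q
      have := fderiv_comp_add_right (𝕜 := ℝ) (f := (g : ℝ × ℝ → ℝ)) (x := p) (0, 2 * Real.pi)
      rw [h] at this
      show fderiv ℝ (g : ℝ × ℝ → ℝ) (p + (0, 2 * Real.pi)) v = _
      rw [← this]⟩

/-- directional derivative as a derivation of the algebra of smooth periodic functions -/
def dir (v : ℝ × ℝ) : Derivation ℝ SFun SFun :=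
  Derivation.mk'
    { toFun := dirFun v
      map_add' := by
        intro f g; ext p
        show fderiv ℝ ((f : ℝ × ℝ → ℝ) + (g : ℝ × ℝ → ℝ)) p v = _
        rw [fderiv_add (diff f p) (diff g p)]; rfl
      map_smul' := by
        intro c f; ext p
        show fderiv ℝ (c • (f : ℝ × ℝ → ℝ)) p v = _
        rw [fderiv_const_smul (diff f p)]; rfl }
    (by
      intro f g; ext p
      show fderiv ℝ ((f : ℝ × ℝ → ℝ) * (g : ℝ × ℝ → ℝ)) p v = _
      rw [fderiv_mul (diff f p) (diff g p)]; rfl)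

lemma dir_comm (v w : ℝ × ℝ) (g : SFun) : dir v (dir w g) = dir w (dir v g) := by
  ext p
  have hd : DifferentiableAt ℝ (fderiv ℝ (g : ℝ × ℝ → ℝ)) p :=
    ((smooth g).fderiv_right (m := ∞) (by simp)).differentiable (by simp) p
  have key : ∀ v w : ℝ × ℝ, (dir v (dir w g) : ℝ × ℝ → ℝ) p =
      fderiv ℝ (fderiv ℝ (g : ℝ × ℝ → ℝ)) p v w := by
    intro v w
    show fderiv ℝ (fun q => fderiv ℝ (g : ℝ × ℝ → ℝ) q w) p v = _
    rw [fderiv_clm_apply hd (differentiableAt_const w)]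
    simp only [fderiv_fun_const, Pi.zero_apply, ContinuousLinearMap.comp_zero, zero_add, ContinuousLinearMap.flip_apply]
  rw [key, key]
  have hs : IsSymmSndFDerivAt ℝ (g : ℝ × ℝ → ℝ) p :=
    ((smooth g).contDiffAt (x := p)).isSymmSndFDerivAt (by
      rw [minSmoothness_of_isRCLikeNormedField]; exact WithTop.coe_le_coe.2 le_top)
  exact hs v w

/-- `x`-derivative -/
abbrev D₁ : Derivation ℝ SFun SFun := dir (1, 0)
/-- `y`-derivative -/
abbrev D₂ : Derivation ℝ SFun SFun := dir (0, 1)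

lemma exists_max (g : SFun) : ∃ p, ∀ q, (g : ℝ × ℝ → ℝ) q ≤ (g : ℝ × ℝ → ℝ) p := by
  have hpi : 0 < 2 * Real.pi := by positivity
  obtain ⟨p, -, hp⟩ := (isCompact_Icc (a := ((0 : ℝ), (0 : ℝ)))
    (b := (2 * Real.pi, 2 * Real.pi))).exists_isMaxOn ⟨(0, 0), by
      simp only [Set.mem_Icc, Std.le_refl, Prod.le_def, hpi.le, and_self]⟩ (smooth g).continuous.continuousOn
  refine ⟨p, fun q => ?_⟩
  have h1 : ∀ (x y : ℝ) (n : ℤ), (g : ℝ × ℝ → ℝ) (x + n • (2 * Real.pi), y) =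
      (g : ℝ × ℝ → ℝ) (x, y) := by
    intro x y n
    have : Function.Periodic (fun x => (g : ℝ × ℝ → ℝ) (x, y)) (2 * Real.pi) := by
      intro x
      have := (per g).1 (x, y)
      simpa only [Prod.mk_add_mk, add_zero] using this
    exact this.zsmul n x
  have h2 : ∀ (x y : ℝ) (n : ℤ), (g : ℝ × ℝ → ℝ) (x, y + n • (2 * Real.pi)) =
      (g : ℝ × ℝ → ℝ) (x, y) := by
    intro x y n
    have : Function.Periodic (fun y => (g : ℝ × ℝ → ℝ) (x, y)) (2 * Real.pi) := by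
      intro y
      have := (per g).2 (x, y)
      simpa only [Prod.mk_add_mk, add_zero] using this
    exact this.zsmul n y
  have e : (g : ℝ × ℝ → ℝ) q =
      (g : ℝ × ℝ → ℝ) (toIcoMod hpi 0 q.1, toIcoMod hpi 0 q.2) := by
    have e1 : q = (q.1, q.2) := rfl
    rw [toIcoMod, toIcoMod, sub_eq_add_neg, sub_eq_add_neg, ← neg_zsmul, ← neg_zsmul, h1, h2]
  rw [e]
  apply hp
  have a1 := toIcoMod_mem_Ico hpi 0 q.1
  have a2 := toIcoMod_mem_Ico hpi 0 q.2
  simp only [zero_add, Set.mem_Ico] at a1 a2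
  exact ⟨⟨a1.1, a2.1⟩, ⟨a1.2.le, a2.2.le⟩⟩

lemma second_deriv_nonpos {f : ℝ → ℝ} (hf : ContDiff ℝ ∞ f) (hmax : ∀ x, f x ≤ f 0) :
    deriv (deriv f) 0 ≤ 0 := by
  by_contra h
  push Not at h
  have hd : deriv f 0 = 0 := IsLocalMax.deriv_eq_zero (Filter.Eventually.of_forall hmax)
  have hmin := isLocalMin_of_deriv_deriv_pos h hd hf.continuous.continuousAt
  have hc : f =ᶠ[nhds 0] fun _ => f 0 := by
    filter_upwards [hmin] with x hx
    exact le_antisymm (hmax x) hx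
  have h2 : deriv f =ᶠ[nhds 0] deriv (fun _ : ℝ => f 0) := hc.deriv
  have h3 := h2.deriv_eq
  simp at h3
  linarith only [h, h3]

lemma dir_dir_nonpos (v : ℝ × ℝ) (g : SFun) {p : ℝ × ℝ}
    (hp : ∀ q, (g : ℝ × ℝ → ℝ) q ≤ (g : ℝ × ℝ → ℝ) p) :
    (dir v (dir v g) : ℝ × ℝ → ℝ) p ≤ 0 := by
  have hline : ContDiff ℝ ∞ (fun t : ℝ => p + t • v) := by fun_prop
  have hder : ∀ (G : SFun) (t : ℝ), deriv (fun t : ℝ => (G : ℝ × ℝ → ℝ) (p + t • v)) t =
      (dir v G : ℝ × ℝ → ℝ) (p + t • v) := by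
    intro G t
    have h1 : HasDerivAt (fun t : ℝ => p + t • v) v t := by
      simpa using ((hasDerivAt_id t).smul_const v).const_add p
    have h2 := (diff G (p + t • v)).hasFDerivAt.comp_hasDerivAt t h1
    exact h2.deriv
  have hf : ContDiff ℝ ∞ (fun t : ℝ => (g : ℝ × ℝ → ℝ) (p + t • v)) := (smooth g).comp hline
  have := second_deriv_nonpos hf (fun x => by simpa only [zero_smul, add_zero] using hp (p + x • v))
  have e : deriv (fun t : ℝ => (g : ℝ × ℝ → ℝ) (p + t • v)) =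
      fun t : ℝ => (dir v g : ℝ × ℝ → ℝ) (p + t • v) := funext fun t => hder g t
  rw [e, hder (dir v g) 0] at this
  simpa only [ge_iff_le, zero_smul, add_zero] using this

lemma le_zero_of_oml {g : SFun} (h : oml D₁ D₂ g = 0) (p : ℝ × ℝ) : (g : ℝ × ℝ → ℝ) p ≤ 0 := by
  obtain ⟨q, hq⟩ := exists_max g
  refine (hq p).trans ?_
  have h1 := dir_dir_nonpos (1, 0) g hq
  have h2 := dir_dir_nonpos (0, 1) g hq
  have h3 : (g : ℝ × ℝ → ℝ) q - (dir (1, 0) (dir (1, 0) g) : ℝ × ℝ → ℝ) q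
      - (dir (0, 1) (dir (0, 1) g) : ℝ × ℝ → ℝ) q = 0 := by
    have := congrArg (fun G : SFun => (G : ℝ × ℝ → ℝ) q) h
    simpa only [oml, AddSubgroupClass.coe_sub, Pi.sub_apply, ZeroMemClass.coe_zero, Pi.zero_apply] using this
  linarith only [h1, h2, h3]

theorem oml_inj (g : SFun) (h : oml D₁ D₂ g = 0) : g = 0 := by
  ext p
  have h1 := le_zero_of_oml h p
  have hn : oml D₁ D₂ (-g) = 0 := by
    have : oml D₁ D₂ (-g) = - oml D₁ D₂ g := by
      simp only [oml, map_neg]; ring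
    rw [this, h, neg_zero]
  have h2 := le_zero_of_oml hn p
  have h3 : ((-g : SFun) : ℝ × ℝ → ℝ) p = - (g : ℝ × ℝ → ℝ) p := rfl
  rw [h3] at h2
  exact le_antisymm h1 (by show (0 : ℝ) ≤ _; linarith only [h2])

end SFun

end Vale.Agent.P205
end
end
end

section

section

namespace Vale.Agent.P205

section

variable {S : Type*} [CommRing S] [Algebra ℝ S] {D₁ D₂ : Derivation ℝ S S}

/-- a rotating frame of frequency `n` in the direction of `D₁` -/
structure Frame (D₁ D₂ : Derivation ℝ S S) (n C N : S) : Prop where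
  d1C : D₁ C = -(n * N)
  d1N : D₁ N = n * C
  d2C : D₂ C = 0
  d2N : D₂ N = 0
  sq : C ^ 2 + N ^ 2 = 1

/-- first component -/
def fU (e a b C N : S) : S := e * (a * C - b * N)
/-- second component -/
def fV (e a b C N : S) : S := e * (a * N + b * C)

variable {e n a b C N : S}

lemma Frame.d1U (h : Frame D₁ D₂ n C N) (he : D₁ e = 0) (hen : e * n = 1) :
    D₁ (fU e a b C N) = (e * D₁ a - b) * C - (e * D₁ b + a) * N := by
  simp only [fU, Derivation.leibniz, map_sub, h.d1C, h.d1N, he, smul_eq_mul, mul_zero, add_zero]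
  linear_combination (-a * N - b * C) * hen

lemma Frame.d1V (h : Frame D₁ D₂ n C N) (he : D₁ e = 0) (hen : e * n = 1) :
    D₁ (fV e a b C N) = (e * D₁ a - b) * N + (e * D₁ b + a) * C := by
  simp only [fV, Derivation.leibniz, map_add, h.d1C, h.d1N, he, smul_eq_mul, mul_zero, add_zero]
  linear_combination (a * C - b * N) * hen

lemma Frame.d2U (h : Frame D₁ D₂ n C N) (he : D₂ e = 0) :
    D₂ (fU e a b C N) = e * (D₂ a * C - D₂ b * N) := by
  simp only [fU, Derivation.leibniz, map_sub, h.d2C, h.d2N, he, smul_eq_mul, mul_zero, add_zero,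
    zero_add]
  ring

lemma Frame.d2V (h : Frame D₁ D₂ n C N) (he : D₂ e = 0) :
    D₂ (fV e a b C N) = e * (D₂ a * N + D₂ b * C) := by
  simp only [fV, Derivation.leibniz, map_add, h.d2C, h.d2N, he, smul_eq_mul, mul_zero, add_zero,
    zero_add]
  ring

lemma Frame.m11 (h : Frame D₁ D₂ n C N) (he : D₁ e = 0) (hen : e * n = 1) :
    D₁ (fU e a b C N) ^ 2 + D₁ (fV e a b C N) ^ 2 = (e * D₁ a - b) ^ 2 + (e * D₁ b + a) ^ 2 := by
  rw [h.d1U he hen, h.d1V he hen]
  linear_combination ((e * D₁ a - b) ^ 2 + (e * D₁ b + a) ^ 2) * h.sq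

lemma Frame.m12 (h : Frame D₁ D₂ n C N) (he1 : D₁ e = 0) (he2 : D₂ e = 0) (hen : e * n = 1) :
    D₁ (fU e a b C N) * D₂ (fU e a b C N) + D₁ (fV e a b C N) * D₂ (fV e a b C N) =
      (e * D₁ a - b) * (e * D₂ a) + (e * D₁ b + a) * (e * D₂ b) := by
  rw [h.d1U he1 hen, h.d1V he1 hen, h.d2U he2, h.d2V he2]
  linear_combination ((e * D₁ a - b) * (e * D₂ a) + (e * D₁ b + a) * (e * D₂ b)) * h.sq

lemma Frame.m22 (h : Frame D₁ D₂ n C N) (he : D₂ e = 0) :
    D₂ (fU e a b C N) ^ 2 + D₂ (fV e a b C N) ^ 2 = e ^ 2 * (D₂ a ^ 2 + D₂ b ^ 2) := by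
  rw [h.d2U he, h.d2V he]
  linear_combination (e ^ 2 * (D₂ a ^ 2 + D₂ b ^ 2)) * h.sq

variable {A B iA iB t s1 s2 r1 r2 α β n1 n2 p11 p12 p22 C1 N1 C2 N2 : S}

section

variable (h : Sol D₁ D₂ A B iA iB t s1 s2 r1 r2 α β n1 n2 p11 p12 p22)
    (hc : ∀ a, D₂ (D₁ a) = D₁ (D₂ a)) (hinj : ∀ a, oml D₁ D₂ a = 0 → a = 0)
    (he1 : D₁ e = 0) (he2 : D₂ e = 0) (het : t = e ^ 2) (hen : e * n = 1)
    (f1 : Frame D₁ D₂ n C1 N1) (f2 : Frame D₂ D₁ n C2 N2)

include h hc hinj he1 he2 het hen f1 f2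

theorem metric11 :
    D₁ (fU e (A + t * r1) (e * s1) C1 N1) ^ 2 + D₁ (fV e (A + t * r1) (e * s1) C1 N1) ^ 2
      + (D₁ (fU e (B + t * r2) (e * s2) C2 N2) ^ 2 + D₁ (fV e (B + t * r2) (e * s2) C2 N2) ^ 2)
      = A ^ 2 := by
  have ht1 : D₁ t = 0 := by rw [het, pow_two, Derivation.leibniz, he1]; simp
  have ht2 : D₂ t = 0 := by rw [het, pow_two, Derivation.leibniz, he2]; simp
  have E := h.E11 hc hinj ht1 ht2
  rw [f1.m11 he1 hen, f2.m22 he1]
  simp only [map_add, der_const D₁ ht1, der_const D₁ he1]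
  rw [L11] at E
  subst het
  linear_combination (e ^ 2) * E

theorem metric22 :
    D₂ (fU e (A + t * r1) (e * s1) C1 N1) ^ 2 + D₂ (fV e (A + t * r1) (e * s1) C1 N1) ^ 2
      + (D₂ (fU e (B + t * r2) (e * s2) C2 N2) ^ 2 + D₂ (fV e (B + t * r2) (e * s2) C2 N2) ^ 2)
      = B ^ 2 := by
  have ht1 : D₁ t = 0 := by rw [het, pow_two, Derivation.leibniz, he1]; simp
  have ht2 : D₂ t = 0 := by rw [het, pow_two, Derivation.leibniz, he2]; simp
  have E := h.E22 hc hinj ht1 ht2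
  rw [f2.m11 he2 hen, f1.m22 he2]
  simp only [map_add, der_const D₂ ht2, der_const D₂ he2]
  rw [L22] at E
  subst het
  linear_combination (e ^ 2) * E

theorem metric12 :
    D₁ (fU e (A + t * r1) (e * s1) C1 N1) * D₂ (fU e (A + t * r1) (e * s1) C1 N1)
      + D₁ (fV e (A + t * r1) (e * s1) C1 N1) * D₂ (fV e (A + t * r1) (e * s1) C1 N1)
      + (D₁ (fU e (B + t * r2) (e * s2) C2 N2) * D₂ (fU e (B + t * r2) (e * s2) C2 N2)
      + D₁ (fV e (B + t * r2) (e * s2) C2 N2) * D₂ (fV e (B + t * r2) (e * s2) C2 N2)) = 0 := by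
  have ht1 : D₁ t = 0 := by rw [het, pow_two, Derivation.leibniz, he1]; simp
  have ht2 : D₂ t = 0 := by rw [het, pow_two, Derivation.leibniz, he2]; simp
  have E := h.E12 hc hinj ht1 ht2
  have k1 := f1.m12 (a := A + t * r1) (b := e * s1) he1 he2 hen
  have k2 := f2.m12 (a := B + t * r2) (b := e * s2) he2 he1 hen
  simp only [map_add, der_const D₁ ht1, der_const D₂ ht2, der_const D₁ he1, der_const D₂ he2] at k1 k2
  rw [L12] at E
  subst het
  linear_combination (e ^ 2) * E + k1 + k2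

end

end

end Vale.Agent.P205
end
end

section

section

open scoped ContDiff NNReal

namespace Vale.Agent.P205

/-- A `C¹` family of maps which is constant for `t = 0` has fixed points for small `t`. -/
theorem exists_fixed {E : Type*} [NormedAddCommGroup E] [NormedSpace ℝ E] [CompleteSpace E]
    (G : ℝ × E → E) (c0 : E) (hG : ContDiff ℝ 1 G) (h0 : ∀ u, G (0, u) = c0) :
    ∃ ε > 0, ∀ t : ℝ, |t| < ε → ∃ u, G (t, u) = u := by
  set L := fderiv ℝ G (0, c0) with hL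
  have hs : HasStrictFDerivAt G L (0, c0) := hG.contDiffAt.hasStrictFDerivAt (by norm_num)
  have hL0 : ∀ v : E, L (0, v) = 0 := by
    intro v
    have h1 : HasFDerivAt (fun u : E => ((0 : ℝ), u)) (ContinuousLinearMap.inr ℝ ℝ E) c0 :=
      hasFDerivAt_prodMk_right 0 c0
    have h2 : HasFDerivAt (fun u : E => G (0, u)) (L.comp (ContinuousLinearMap.inr ℝ ℝ E)) c0 :=
      hs.hasFDerivAt.comp c0 h1
    have h3 : HasFDerivAt (fun u : E => G (0, u)) (0 : E →L[ℝ] E) c0 := by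
      simp only [h0]; exact hasFDerivAt_const c0 c0
    have := h2.unique h3
    have := congrArg (fun A : E →L[ℝ] E => A v) this
    simpa only [ContinuousLinearMap.comp_apply, ContinuousLinearMap.inr_apply, zero_apply] using this
  have hlo := hs.isLittleO.def (c := 1 / 2) (by norm_num)
  rw [Metric.eventually_nhds_iff] at hlo
  obtain ⟨δ, hδ, hlo⟩ := hlo
  have hcont : ContinuousAt (fun t : ℝ => G (t, c0)) 0 := by
    have : Continuous fun t : ℝ => G (t, c0) := hG.continuous.comp (by fun_prop)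
    exact this.continuousAt
  rw [Metric.continuousAt_iff] at hcont
  obtain ⟨η, hη, hcont⟩ := hcont (δ / 4) (by positivity)
  refine ⟨min η δ, lt_min hη hδ, fun t ht => ?_⟩
  have ht1 : |t| < η := lt_of_lt_of_le ht (min_le_left _ _)
  have ht2 : |t| < δ := lt_of_lt_of_le ht (min_le_right _ _)
  have hlip : ∀ u ∈ Metric.closedBall c0 (δ / 2), ∀ u' ∈ Metric.closedBall c0 (δ / 2),
      ‖G (t, u) - G (t, u')‖ ≤ 1 / 2 * ‖u - u'‖ := by
    intro u hu u' hu'
    have hu1 : dist u c0 < δ := lt_of_le_of_lt hu (by linarith only [hδ])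
    have hu2 : dist u' c0 < δ := lt_of_le_of_lt hu' (by linarith only [hδ])
    have hmem : dist (((t, u), (t, u')) : (ℝ × E) × (ℝ × E)) ((0, c0), (0, c0)) < δ := by
      simp only [Prod.dist_eq, Real.dist_eq, sub_zero]
      exact max_lt (max_lt ht2 hu1) (max_lt ht2 hu2)
    have := hlo hmem
    simp only [Prod.mk_sub_mk, sub_self, hL0, sub_zero] at this
    simpa only [one_div, ge_iff_le, Prod.norm_def, norm_zero, norm_nonneg, sup_of_le_right] using this
  have hmap : Set.MapsTo (fun u => G (t, u)) (Metric.closedBall c0 (δ / 2))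
      (Metric.closedBall c0 (δ / 2)) := by
    intro u hu
    have h1 := hlip u hu c0 (Metric.mem_closedBall_self (by positivity))
    have h2 : dist (G (t, c0)) (G (0, c0)) < δ / 4 := hcont (by simpa [Real.dist_eq] using ht1)
    rw [h0] at h2
    have h3 : dist (G (t, u)) (G (t, c0)) ≤ δ / 4 := by
      rw [dist_eq_norm]
      refine h1.trans ?_
      have : ‖u - c0‖ ≤ δ / 2 := by rw [← dist_eq_norm]; exact hu
      linarith only [this]
    have := dist_triangle (G (t, u)) (G (t, c0)) c0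
    show dist (G (t, u)) c0 ≤ δ / 2
    linarith only [h2, h3, this]
  have hcontr : ContractingWith (1 / 2 : ℝ≥0)
      (hmap.restrict (fun u => G (t, u)) (Metric.closedBall c0 (δ / 2))
        (Metric.closedBall c0 (δ / 2))) := by
    refine ⟨by norm_num, LipschitzWith.of_dist_le_mul fun u u' => ?_⟩
    rw [Subtype.dist_eq, Subtype.dist_eq, Set.MapsTo.val_restrict_apply,
      Set.MapsTo.val_restrict_apply, dist_eq_norm, dist_eq_norm]
    have := hlip u u.2 u' u'.2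
    simpa only [one_div, NNReal.coe_inv, NNReal.coe_ofNat, ge_iff_le] using this
  obtain ⟨y, -, hy, -⟩ := hcontr.exists_fixedPoint' Metric.isClosed_closedBall.isComplete hmap
    (Metric.mem_closedBall_self (by positivity)) (edist_ne_top _ _)
  exact ⟨y, hy⟩

end Vale.Agent.P205
end
end

section

section

open scoped ContDiff

noncomputable section

namespace Vale.Agent.P205

open RW SFun

variable {W : Wt} {s : ℕ}

/-- evaluation as an element of the ring of smooth periodic functions -/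
def evA (hW : W.Sup) (s : ℕ) (f : RW (W.up s)) : SFun :=
  ⟨ev f, contDiff_ev (hW.up s) f, ev_periodic f⟩

section evA

variable (hW : W.Sup)

lemma evA_add (f g : RW (W.up s)) : evA hW s (f + g) = evA hW s f + evA hW s g := by
  ext p; exact ev_add f g p

lemma evA_smul (c : ℝ) (f : RW (W.up s)) : evA hW s (c • f) = c • evA hW s f := by
  ext p; exact ev_smul c f p

lemma evA_neg (f : RW (W.up s)) : evA hW s (-f) = - evA hW s f := by
  have := evA_smul hW (-1) f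
  simpa using this

lemma evA_sub (f g : RW (W.up s)) : evA hW s (f - g) = evA hW s f - evA hW s g := by
  rw [sub_eq_add_neg, evA_add, evA_neg, sub_eq_add_neg]

lemma evA_mul (f g : RW (W.up s)) :
    evA hW s (mulL (W.up s) f g) = evA hW s f * evA hW s g := by
  ext p; exact ev_mul f g p

lemma evA_inc (f : RW (W.up (s + 1))) : evA hW s (inc f) = evA hW (s + 1) f := by
  ext p; exact ev_inc f p

lemma evA_D1 (f : RW (W.up (s + 1))) : evA hW s (D1 f) = D₁ (evA hW (s + 1) f) := by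
  ext p
  show ev (D1 f) p = fderiv ℝ (ev f) p (1, 0)
  rw [(hasFDerivAt_ev hW f p).fderiv]; simp

lemma evA_D2 (f : RW (W.up (s + 1))) : evA hW s (D2 f) = D₂ (evA hW (s + 1) f) := by
  ext p
  show ev (D2 f) p = fderiv ℝ (ev f) p (0, 1)
  rw [(hasFDerivAt_ev hW f p).fderiv]; simp

lemma evA_J (f : RW (W.up s)) : oml D₁ D₂ (evA hW (s + 2) (J f)) = evA hW s f := by
  have h := congrArg (evA hW s) (J_spec f)
  rw [evA_sub, evA_sub, evA_inc, evA_inc, evA_D1, evA_D1, evA_D2, evA_D2] at h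
  exact h

end evA

/-- product in the algebra -/
abbrev mu {W : Wt} {s : ℕ} (x y : RW (W.up s)) : RW (W.up s) := mulL (W.up s) x y

/-- value, at the base level -/
def b00 : RW (W.up 2) →L[ℝ] RW (W.up 0) := (inc (s := 0)).comp (inc (s := 1))
def b10 : RW (W.up 2) →L[ℝ] RW (W.up 0) := (inc (s := 0)).comp (D1 (s := 1))
def b01 : RW (W.up 2) →L[ℝ] RW (W.up 0) := (inc (s := 0)).comp (D2 (s := 1))
def b20 : RW (W.up 2) →L[ℝ] RW (W.up 0) := (D1 (s := 0)).comp (D1 (s := 1))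
def b11 : RW (W.up 2) →L[ℝ] RW (W.up 0) := (D1 (s := 0)).comp (D2 (s := 1))
def b02 : RW (W.up 2) →L[ℝ] RW (W.up 0) := (D2 (s := 0)).comp (D2 (s := 1))

section base

variable (hW : W.Sup) (f : RW (W.up 2))

lemma ev_b00 : evA hW 0 (b00 f) = evA hW 2 f := by simp only [b00, ContinuousLinearMap.comp_apply, evA_inc]
lemma ev_b10 : evA hW 0 (b10 f) = D₁ (evA hW 2 f) := by
  simp only [b10, ContinuousLinearMap.comp_apply, evA_inc, evA_D1]
lemma ev_b01 : evA hW 0 (b01 f) = D₂ (evA hW 2 f) := by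
  simp only [b01, ContinuousLinearMap.comp_apply, evA_inc, evA_D2]
lemma ev_b20 : evA hW 0 (b20 f) = D₁ (D₁ (evA hW 2 f)) := by
  simp only [b20, ContinuousLinearMap.comp_apply, evA_D1]
lemma ev_b11 : evA hW 0 (b11 f) = D₁ (D₂ (evA hW 2 f)) := by
  simp only [b11, ContinuousLinearMap.comp_apply, evA_D1, evA_D2]
lemma ev_b02 : evA hW 0 (b02 f) = D₂ (D₂ (evA hW 2 f)) := by
  simp only [b02, ContinuousLinearMap.comp_apply, evA_D2]

end base

/-- Laplacian at the base level -/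
def bl : RW (W.up 2) →L[ℝ] RW (W.up 0) := b20 + b02

def wkap1 (r s : RW (W.up 2)) : RW (W.up 0) :=
  (mu (b00 r) (b10 s) - mu (b00 s) (b10 r)) - (2 : ℝ) • mu (bl r) (b10 s)
    + (2 : ℝ) • mu (bl s) (b10 r)
    - (2 : ℝ) • (mu (b10 r) (b20 s) - mu (b10 s) (b20 r))
    - (2 : ℝ) • (mu (b01 r) (b11 s) - mu (b01 s) (b11 r))

def wkap2 (r s : RW (W.up 2)) : RW (W.up 0) :=
  (mu (b00 r) (b01 s) - mu (b00 s) (b01 r)) - (2 : ℝ) • mu (bl r) (b01 s)
    + (2 : ℝ) • mu (bl s) (b01 r)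
    - (2 : ℝ) • (mu (b10 r) (b11 s) - mu (b10 s) (b11 r))
    - (2 : ℝ) • (mu (b01 r) (b02 s) - mu (b01 s) (b02 r))

def whes (u : RW (W.up 2)) : RW (W.up 0) := mu (b20 u) (b02 u) - mu (b11 u) (b11 u)

/-- the unknowns `(s₁, s₂, r₁, r₂)` -/
abbrev U4 (W : Wt) : Type := RW (W.up 2) × RW (W.up 2) × RW (W.up 2) × RW (W.up 2)

def wnu1 (t : ℝ) (u : U4 W) : RW (W.up 0) :=
  -(mu (b00 u.2.2.1) (bl u.1) - mu (b00 u.1) (bl u.2.2.1))
    - (mu (bl u.1) (b10 u.1) + mu (bl u.2.1) (b10 u.2.1))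
    - t • (mu (bl u.2.2.1) (b10 u.2.2.1) + mu (bl u.2.2.2) (b10 u.2.2.2))

def wnu2 (t : ℝ) (u : U4 W) : RW (W.up 0) :=
  -(mu (b00 u.2.2.2) (bl u.2.1) - mu (b00 u.2.1) (bl u.2.2.2))
    - (mu (bl u.1) (b01 u.1) + mu (bl u.2.1) (b01 u.2.1))
    - t • (mu (bl u.2.2.1) (b01 u.2.2.1) + mu (bl u.2.2.2) (b01 u.2.2.2))

def wpi11 (t : ℝ) (u : U4 W) : RW (W.up 0) :=
  (2 : ℝ) • wkap1 u.2.2.1 u.1 + ((2 : ℝ) • whes u.1 + mu (b10 u.1) (b10 u.1))
    + ((2 : ℝ) • whes u.2.1 + mu (b10 u.2.1) (b10 u.2.1))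
    + t • (((2 : ℝ) • whes u.2.2.1 + mu (b10 u.2.2.1) (b10 u.2.2.1))
      + ((2 : ℝ) • whes u.2.2.2 + mu (b10 u.2.2.2) (b10 u.2.2.2)))

def wpi22 (t : ℝ) (u : U4 W) : RW (W.up 0) :=
  (2 : ℝ) • wkap2 u.2.2.2 u.2.1 + ((2 : ℝ) • whes u.1 + mu (b01 u.1) (b01 u.1))
    + ((2 : ℝ) • whes u.2.1 + mu (b01 u.2.1) (b01 u.2.1))
    + t • (((2 : ℝ) • whes u.2.2.1 + mu (b01 u.2.2.1) (b01 u.2.2.1))
      + ((2 : ℝ) • whes u.2.2.2 + mu (b01 u.2.2.2) (b01 u.2.2.2)))

def wpi12 (t : ℝ) (u : U4 W) : RW (W.up 0) :=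
  wkap2 u.2.2.1 u.1 + wkap1 u.2.2.2 u.2.1 + (mu (b10 u.1) (b01 u.1) + mu (b10 u.2.1) (b01 u.2.1))
    + t • (mu (b10 u.2.2.1) (b01 u.2.2.1) + mu (b10 u.2.2.2) (b01 u.2.2.2))

section evals

variable (hW : W.Sup) (t : ℝ) (u : U4 W)

/-- the scalar `t` in the ring of functions -/
abbrev sc (t : ℝ) : SFun := algebraMap ℝ SFun t

lemma two_smul_S (x : SFun) : (2 : ℝ) • x = 2 * x := by
  rw [Algebra.smul_def, map_ofNat]

lemma ev_wkap1 (r s : RW (W.up 2)) :
    evA hW 0 (wkap1 r s) = kap D₁ D₂ D₁ (evA hW 2 r) (evA hW 2 s) := by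
  simp only [wkap1, kap, lap, bl, mu, add_apply, evA_add, evA_sub, evA_smul,
    evA_mul, ev_b00, ev_b10, ev_b01, ev_b20, ev_b11, ev_b02, two_smul_S]

lemma ev_wkap2 (r s : RW (W.up 2)) :
    evA hW 0 (wkap2 r s) = kap D₁ D₂ D₂ (evA hW 2 r) (evA hW 2 s) := by
  simp only [wkap2, mu, bl, add_apply, evA_sub, evA_add, evA_mul, ev_b00, ev_b01, evA_smul, ev_b20, ev_b02, two_smul_S, ev_b10, ev_b11, kap, lap]

lemma ev_whes (f : RW (W.up 2)) :
    evA hW 0 (whes f) = hes D₁ D₂ (evA hW 2 f) := by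
  simp only [whes, mu, evA_sub, evA_mul, ev_b20, ev_b02, ev_b11, hes]

lemma ev_wnu1 : evA hW 0 (wnu1 t u) = nuD D₁ D₂ D₁ (sc t) (evA hW 2 u.2.2.1) (evA hW 2 u.1)
    (evA hW 2 u.1) (evA hW 2 u.2.1) (evA hW 2 u.2.2.1) (evA hW 2 u.2.2.2) := by
  simp only [wnu1, nuD, lap, bl, mu, add_apply, evA_add, evA_sub, evA_neg,
    evA_smul, evA_mul, ev_b00, ev_b10, ev_b20, ev_b02, Algebra.smul_def]

lemma ev_wnu2 : evA hW 0 (wnu2 t u) = nuD D₁ D₂ D₂ (sc t) (evA hW 2 u.2.2.2) (evA hW 2 u.2.1)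
    (evA hW 2 u.1) (evA hW 2 u.2.1) (evA hW 2 u.2.2.1) (evA hW 2 u.2.2.2) := by
  simp only [wnu2, nuD, lap, bl, mu, add_apply, evA_add, evA_sub, evA_neg,
    evA_smul, evA_mul, ev_b00, ev_b01, ev_b20, ev_b02, Algebra.smul_def]

lemma ev_wpi11 : evA hW 0 (wpi11 t u) = pi11 D₁ D₂ (sc t)
    (evA hW 2 u.1) (evA hW 2 u.2.1) (evA hW 2 u.2.2.1) (evA hW 2 u.2.2.2) := by
  simp only [wpi11, mu, evA_add, evA_smul, ev_wkap1, two_smul_S, ev_whes, evA_mul, ev_b10, pi11]
  simp only [Algebra.smul_def]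

lemma ev_wpi22 : evA hW 0 (wpi22 t u) = pi22 D₁ D₂ (sc t)
    (evA hW 2 u.1) (evA hW 2 u.2.1) (evA hW 2 u.2.2.1) (evA hW 2 u.2.2.2) := by
  simp only [wpi22, pi22, mu, evA_add, evA_smul, ev_wkap2, ev_whes, evA_mul, ev_b01, two_smul_S]
  simp only [Algebra.smul_def]

lemma ev_wpi12 : evA hW 0 (wpi12 t u) = pi12 D₁ D₂ (sc t)
    (evA hW 2 u.1) (evA hW 2 u.2.1) (evA hW 2 u.2.2.1) (evA hW 2 u.2.2.2) := by
  simp only [wpi12, pi12, mu, evA_add, evA_smul, ev_wkap1, ev_wkap2, evA_mul, ev_b10, ev_b01]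
  simp only [Algebra.smul_def]

end evals

section smoothness

lemma contDiff_wnu1 : ContDiff ℝ 1 fun p : ℝ × U4 W => wnu1 p.1 p.2 := by
  unfold wnu1 mu; (clear * -; fun_prop)

lemma contDiff_wnu2 : ContDiff ℝ 1 fun p : ℝ × U4 W => wnu2 p.1 p.2 := by
  unfold wnu2 mu; (clear * -; fun_prop)

lemma contDiff_wpi11 : ContDiff ℝ 1 fun p : ℝ × U4 W => wpi11 p.1 p.2 := by
  unfold wpi11 wkap1 whes mu; (clear * -; fun_prop)

lemma contDiff_wpi22 : ContDiff ℝ 1 fun p : ℝ × U4 W => wpi22 p.1 p.2 := by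
  unfold wpi22 wkap2 whes mu; (clear * -; fun_prop)

lemma contDiff_wpi12 : ContDiff ℝ 1 fun p : ℝ × U4 W => wpi12 p.1 p.2 := by
  unfold wpi12 wkap1 wkap2 mu; (clear * -; fun_prop)

end smoothness

section total

variable (A B iA iB : RW (W.up 4)) (Ra Rc : RW (W.up 2) →L[ℝ] RW (W.up 3))

/-- restriction of a coefficient to the level `2` -/
def c0 : RW (W.up 4) →L[ℝ] RW (W.up 2) := (inc (s := 2)).comp (inc (s := 3))
def c1 : RW (W.up 4) →L[ℝ] RW (W.up 2) := (inc (s := 2)).comp (D1 (s := 3))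
def c2 : RW (W.up 4) →L[ℝ] RW (W.up 2) := (inc (s := 2)).comp (D2 (s := 3))
def c11 : RW (W.up 4) →L[ℝ] RW (W.up 2) := (D1 (s := 2)).comp (D1 (s := 3))
def c12 : RW (W.up 4) →L[ℝ] RW (W.up 2) := (D1 (s := 2)).comp (D2 (s := 3))
def c22 : RW (W.up 4) →L[ℝ] RW (W.up 2) := (D2 (s := 2)).comp (D2 (s := 3))

def fX1 (p : ℝ × U4 W) : RW (W.up 2) :=
  J (s := 0) (wnu1 p.1 p.2) + (mu (c1 A) p.2.2.2.1 + mu (c1 B) p.2.2.2.2)

def fX2 (p : ℝ × U4 W) : RW (W.up 2) :=
  J (s := 0) (wnu2 p.1 p.2) + (mu (c2 A) p.2.2.2.1 + mu (c2 B) p.2.2.2.2)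

/-- right-hand side of the mixed equation -/
def fF (p : ℝ × U4 W) : RW (W.up 2) :=
  mu (c1 A) (c2 A) + mu (c1 B) (c2 B)
    + p.1 • ((2 : ℝ) • mu (mu (c2 A) (c0 iA)) (fX1 A B p)
      + (2 : ℝ) • mu (mu (c1 B) (c0 iB)) (fX2 A B p)
      - (2 : ℝ) • (mu (c12 A) p.2.2.2.1 + mu (c12 B) p.2.2.2.2)
      + J (s := 0) (wpi12 p.1 p.2))

def fH (p : ℝ × U4 W) : RW (W.up 2) := -(mu (mu (c0 iA) (c0 iA)) (fF A B iA iB p))

def fs1 (p : ℝ × U4 W) : RW (W.up 2) :=
  mu (c0 A) (inc (Ra (fH A B iA iB p))) - p.1 • mu (c0 iA) (fX1 A B p)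

def fs2 (p : ℝ × U4 W) : RW (W.up 2) :=
  mu (c0 B) (inc (Rc (fH A B iA iB p))) - p.1 • mu (c0 iB) (fX2 A B p)

def fr1 (p : ℝ × U4 W) : RW (W.up 2) :=
  (-(1 / 2) : ℝ) • mu (c0 iA)
    ((2 : ℝ) • mu (mu (c0 A) (c0 A)) (D1 (Ra (fH A B iA iB p)))
      + mu (fs1 A B iA iB Ra p) (fs1 A B iA iB Ra p)
      + mu (c1 A) (c1 A) + mu (c1 B) (c1 B)
      + p.1 • ((4 : ℝ) • mu (mu (c1 A) (c0 iA)) (fX1 A B p)
        - (2 : ℝ) • (mu (c11 A) p.2.2.2.1 + mu (c11 B) p.2.2.2.2)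
        + mu p.2.2.2.1 p.2.2.2.1 + J (s := 0) (wpi11 p.1 p.2)))

def fr2 (p : ℝ × U4 W) : RW (W.up 2) :=
  (-(1 / 2) : ℝ) • mu (c0 iB)
    ((2 : ℝ) • mu (mu (c0 B) (c0 B)) (D2 (Rc (fH A B iA iB p)))
      + mu (fs2 A B iA iB Rc p) (fs2 A B iA iB Rc p)
      + mu (c2 A) (c2 A) + mu (c2 B) (c2 B)
      + p.1 • ((4 : ℝ) • mu (mu (c2 B) (c0 iB)) (fX2 A B p)
        - (2 : ℝ) • (mu (c22 A) p.2.2.2.1 + mu (c22 B) p.2.2.2.2)
        + mu p.2.2.2.2 p.2.2.2.2 + J (s := 0) (wpi22 p.1 p.2)))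

/-- the fixed point map -/
def GG (p : ℝ × U4 W) : U4 W :=
  (fs1 A B iA iB Ra p, fs2 A B iA iB Rc p, fr1 A B iA iB Ra p, fr2 A B iA iB Rc p)

lemma contDiff_fX1 : ContDiff ℝ 1 (fX1 A B : ℝ × U4 W → _) := by
  have h := contDiff_wnu1 (W := W)
  unfold fX1 mu; (clear * - h; fun_prop)

lemma contDiff_fX2 : ContDiff ℝ 1 (fX2 A B : ℝ × U4 W → _) := by
  have h := contDiff_wnu2 (W := W)
  unfold fX2 mu; (clear * - h; fun_prop)

lemma contDiff_fF : ContDiff ℝ 1 (fF A B iA iB : ℝ × U4 W → _) := by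
  have h := contDiff_wpi12 (W := W)
  have h1 := contDiff_fX1 A B
  have h2 := contDiff_fX2 A B
  unfold fF mu; (clear * - h1 h2 h; fun_prop)

lemma contDiff_fH : ContDiff ℝ 1 (fH A B iA iB : ℝ × U4 W → _) := by
  have h := contDiff_fF A B iA iB
  unfold fH mu; (clear * - h; fun_prop)

lemma contDiff_fs1 : ContDiff ℝ 1 (fs1 A B iA iB Ra : ℝ × U4 W → _) := by
  have h := contDiff_fH A B iA iB
  have h1 := contDiff_fX1 A B
  unfold fs1 mu; (clear * - h h1; fun_prop)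

lemma contDiff_fs2 : ContDiff ℝ 1 (fs2 A B iA iB Rc : ℝ × U4 W → _) := by
  have h := contDiff_fH A B iA iB
  have h2 := contDiff_fX2 A B
  unfold fs2 mu; (clear * - h h2; fun_prop)

lemma contDiff_fr1 : ContDiff ℝ 1 (fr1 A B iA iB Ra : ℝ × U4 W → _) := by
  have h := contDiff_fH A B iA iB
  have h1 := contDiff_fX1 A B
  have h2 := contDiff_fs1 A B iA iB Ra
  have h3 := contDiff_wpi11 (W := W)
  unfold fr1 mu; (clear * - h h2 h1 h3; fun_prop)

lemma contDiff_fr2 : ContDiff ℝ 1 (fr2 A B iA iB Rc : ℝ × U4 W → _) := by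
  have h := contDiff_fH A B iA iB
  have h1 := contDiff_fX2 A B
  have h2 := contDiff_fs2 A B iA iB Rc
  have h3 := contDiff_wpi22 (W := W)
  unfold fr2 mu; (clear * - h h2 h1 h3; fun_prop)

lemma contDiff_GG : ContDiff ℝ 1 (GG A B iA iB Ra Rc : ℝ × U4 W → _) :=
  (contDiff_fs1 A B iA iB Ra).prodMk ((contDiff_fs2 A B iA iB Rc).prodMk
    ((contDiff_fr1 A B iA iB Ra).prodMk (contDiff_fr2 A B iA iB Rc)))

lemma GG_zero (u : U4 W) : GG A B iA iB Ra Rc (0, u) = GG A B iA iB Ra Rc (0, 0) := by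
  simp only [GG, fs1, fs2, fr1, fr2, fH, fF, zero_smul, add_zero, sub_zero]

theorem exists_GG : ∃ ε > 0, ∀ t : ℝ, |t| < ε → ∃ u : U4 W, GG A B iA iB Ra Rc (t, u) = u :=
  exists_fixed _ _ (contDiff_GG A B iA iB Ra Rc) (GG_zero A B iA iB Ra Rc)

end total

end Vale.Agent.P205
end
end
end

section

section

open scoped ContDiff

noncomputable section

namespace Vale.Agent.P205

open RW SFun

variable {W : Wt} (hW : W.Sup)

section

variable (A : RW (W.up 4))

lemma ev_c0 : evA hW 2 (c0 A) = evA hW 4 A := by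
  simp only [c0, ContinuousLinearMap.comp_apply, evA_inc]
lemma ev_c1 : evA hW 2 (c1 A) = D₁ (evA hW 4 A) := by
  simp only [c1, ContinuousLinearMap.comp_apply, evA_inc, evA_D1]
lemma ev_c2 : evA hW 2 (c2 A) = D₂ (evA hW 4 A) := by
  simp only [c2, ContinuousLinearMap.comp_apply, evA_inc, evA_D2]
lemma ev_c11 : evA hW 2 (c11 A) = D₁ (D₁ (evA hW 4 A)) := by
  simp only [c11, ContinuousLinearMap.comp_apply, evA_D1]
lemma ev_c12 : evA hW 2 (c12 A) = D₁ (D₂ (evA hW 4 A)) := by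
  simp only [c12, ContinuousLinearMap.comp_apply, evA_D1, evA_D2]
lemma ev_c22 : evA hW 2 (c22 A) = D₂ (D₂ (evA hW 4 A)) := by
  simp only [c22, ContinuousLinearMap.comp_apply, evA_D2]

end

lemma evA_J0 (f : RW (W.up 0)) : oml D₁ D₂ (evA hW 2 (J (s := 0) f)) = evA hW 0 f := evA_J hW f

lemma evA_inc2 (f : RW (W.up 3)) : evA hW 2 (inc (s := 2) f) = evA hW 3 f := evA_inc hW f

lemma evA_D1' (f : RW (W.up 3)) : evA hW 2 (D1 (s := 2) f) = D₁ (evA hW 3 f) := evA_D1 hW f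

lemma evA_D2' (f : RW (W.up 3)) : evA hW 2 (D2 (s := 2) f) = D₂ (evA hW 3 f) := evA_D2 hW f

variable {A B iA iB : RW (W.up 4)} {Ra Rc : RW (W.up 2) →L[ℝ] RW (W.up 3)} {Q : SFun}

lemma half_aux {A iA r Z hf : SFun} (hA : A * iA = 1) (hh : 2 * hf = -1)
    (e : hf * (iA * Z) = r) : 2 * A * r + Z = 0 := by
  linear_combination (-2 * A) * e + (A * iA * Z) * hh - Z * hA

theorem sol_of_fixed (hA : evA hW 4 A * evA hW 4 iA = 1) (hB : evA hW 4 B * evA hW 4 iB = 1)
    (hQ : evA hW 4 B ^ 2 = Q * evA hW 4 A ^ 2)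
    (hR : ∀ H, D₂ (evA hW 3 (Ra H)) + Q * D₁ (evA hW 3 (Rc H)) = evA hW 2 H)
    {t : ℝ} {u : U4 W} (hu : GG A B iA iB Ra Rc (t, u) = u) :
    Sol D₁ D₂ (evA hW 4 A) (evA hW 4 B) (evA hW 4 iA) (evA hW 4 iB) (sc t)
      (evA hW 2 u.1) (evA hW 2 u.2.1) (evA hW 2 u.2.2.1) (evA hW 2 u.2.2.2)
      (evA hW 3 (Ra (fH A B iA iB (t, u)))) (evA hW 3 (Rc (fH A B iA iB (t, u))))
      (evA hW 2 (J (s := 0) (wnu1 t u))) (evA hW 2 (J (s := 0) (wnu2 t u)))
      (evA hW 2 (J (s := 0) (wpi11 t u))) (evA hW 2 (J (s := 0) (wpi12 t u)))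
      (evA hW 2 (J (s := 0) (wpi22 t u))) := by
  have hu1 : fs1 A B iA iB Ra (t, u) = u.1 := congrArg (fun z : U4 W => z.1) hu
  have hu2 : fs2 A B iA iB Rc (t, u) = u.2.1 := congrArg (fun z : U4 W => z.2.1) hu
  have hu3 : fr1 A B iA iB Ra (t, u) = u.2.2.1 := congrArg (fun z : U4 W => z.2.2.1) hu
  have hu4 : fr2 A B iA iB Rc (t, u) = u.2.2.2 := congrArg (fun z : U4 W => z.2.2.2) hu
  have e1 := congrArg (evA hW 2) hu1
  have e2 := congrArg (evA hW 2) hu2
  have e3 := congrArg (evA hW 2) hu3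
  have e4 := congrArg (evA hW 2) hu4
  have e5 := hR (fH A B iA iB (t, u))
  rw [fr1, hu1] at e3
  rw [fr2, hu2] at e4
  have e6 : evA hW 2 (fH A B iA iB (t, u)) = -(evA hW 4 iA * evA hW 4 iA *
      evA hW 2 (fF A B iA iB (t, u))) := by
    simp only [fH, mu, evA_neg, evA_mul, ev_c0]
  have e7 : evA hW 2 (fF A B iA iB (t, u)) =
      D₁ (evA hW 4 A) * D₂ (evA hW 4 A) + D₁ (evA hW 4 B) * D₂ (evA hW 4 B)
    + sc t * (2 * (D₂ (evA hW 4 A) * evA hW 4 iA) * (evA hW 2 (J (s := 0) (wnu1 t u)) +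
        (D₁ (evA hW 4 A) * evA hW 2 u.2.2.1 + D₁ (evA hW 4 B) * evA hW 2 u.2.2.2))
      + 2 * (D₁ (evA hW 4 B) * evA hW 4 iB) * (evA hW 2 (J (s := 0) (wnu2 t u)) +
        (D₂ (evA hW 4 A) * evA hW 2 u.2.2.1 + D₂ (evA hW 4 B) * evA hW 2 u.2.2.2))
      - 2 * (D₁ (D₂ (evA hW 4 A)) * evA hW 2 u.2.2.1
        + D₁ (D₂ (evA hW 4 B)) * evA hW 2 u.2.2.2) + evA hW 2 (J (s := 0) (wpi12 t u))) := by
    simp only [fF, mu, fX1, fX2, evA_add, evA_mul, ev_c1, ev_c2, evA_smul, evA_sub, ev_c0, two_smul_S, ev_c12]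
    simp only [Algebra.smul_def]
    ring
  simp only [fs1, fX1, mu, evA_add, evA_sub, evA_mul, evA_smul, ev_c0, ev_c1, evA_inc2] at e1
  simp only [fs2, fX2, mu, evA_add, evA_sub, evA_mul, evA_smul, ev_c0, ev_c2, evA_inc2] at e2
  simp only [fX1, mu, evA_add, evA_sub, evA_mul, evA_smul, ev_c0, ev_c1, ev_c11, evA_D1'] at e3
  simp only [fX2, mu, evA_add, evA_sub, evA_mul, evA_smul, ev_c0, ev_c2, ev_c22, evA_D2'] at e4
  simp only [Algebra.smul_def] at e1 e2 e3 e4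
  have h2 : (algebraMap ℝ SFun) (2 : ℝ) = 2 := map_ofNat _ 2
  have h4 : (algebraMap ℝ SFun) (4 : ℝ) = 4 := map_ofNat _ 4
  have hh : 2 * (algebraMap ℝ SFun) (-(1 / 2) : ℝ) = -1 := by
    rw [← h2, ← map_mul]; (clear * -; norm_num)
  rw [h2, h4] at e3 e4
  generalize (algebraMap ℝ SFun) (-(1 / 2) : ℝ) = hf at hh e3 e4
  refine ⟨hA, hB, ?_, ?_, ?_, ?_, ?_, ?_, ?_, ?_, ?_, ?_⟩
  · rw [evA_J0, ev_wnu1]
  · rw [evA_J0, ev_wnu2]
  · rw [evA_J0, ev_wpi11]
  · rw [evA_J0, ev_wpi12]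
  · rw [evA_J0, ev_wpi22]
  · linear_combination (-evA hW 4 A) * e1 - sc t * (evA hW 2 (J (s := 0) (wnu1 t u)) +
        (D₁ (evA hW 4 A) * evA hW 2 u.2.2.1 + D₁ (evA hW 4 B) * evA hW 2 u.2.2.2)) * hA
  · linear_combination (-evA hW 4 B) * e2 - sc t * (evA hW 2 (J (s := 0) (wnu2 t u)) +
        (D₂ (evA hW 4 A) * evA hW 2 u.2.2.1 + D₂ (evA hW 4 B) * evA hW 2 u.2.2.2)) * hB
  · rw [← e7]
    rw [e6] at e5
    rw [hQ]
    linear_combination evA hW 4 A ^ 2 * e5 - evA hW 2 (fF A B iA iB (t, u)) *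
      (evA hW 4 A * evA hW 4 iA + 1) * hA
  · have := half_aux hA hh e3
    linear_combination this
  · have := half_aux hB hh e4
    linear_combination this

end Vale.Agent.P205
end
end
end

section

section

open scoped ContDiff

noncomputable section

namespace Vale.Agent.P205

open RW SFun

/-- `cos (n x)` for `v = (1,0)`, `cos (n y)` for `v = (0,1)` -/
def cosS (n : ℕ) (i : Fin 2) : SFun :=
  ⟨fun p => Real.cos (n * (if i = 0 then p.1 else p.2)), by
    constructor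
    · split_ifs <;> fun_prop
    · constructor
      · intro p
        split_ifs
        · have := Real.cos_add_nat_mul_two_pi (n * p.1) n
          simp only [Prod.fst_add]
          rw [← this]; ring_nf
        · simp
      · intro p
        split_ifs
        · simp
        · have := Real.cos_add_nat_mul_two_pi (n * p.2) n
          simp only [Prod.snd_add]
          rw [← this]; ring_nf⟩

/-- `sin (n x)`, `sin (n y)` -/
def sinS (n : ℕ) (i : Fin 2) : SFun :=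
  ⟨fun p => Real.sin (n * (if i = 0 then p.1 else p.2)), by
    constructor
    · split_ifs <;> fun_prop
    · constructor
      · intro p
        split_ifs
        · have := Real.sin_add_nat_mul_two_pi (n * p.1) n
          simp only [Prod.fst_add]
          rw [← this]; ring_nf
        · simp
      · intro p
        split_ifs
        · simp
        · have := Real.sin_add_nat_mul_two_pi (n * p.2) n
          simp only [Prod.snd_add]
          rw [← this]; ring_nf⟩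

lemma fderiv_cos1 (n : ℕ) (p v : ℝ × ℝ) :
    fderiv ℝ (fun p : ℝ × ℝ => Real.cos (n * p.1)) p v = -(n * Real.sin (n * p.1)) * v.1 := by
  have h : HasFDerivAt (fun p : ℝ × ℝ => (n : ℝ) * p.1)
      ((n : ℝ) • ContinuousLinearMap.fst ℝ ℝ ℝ) p :=
    (ContinuousLinearMap.fst ℝ ℝ ℝ).hasFDerivAt.const_mul _
  rw [h.cos.fderiv]; simp only [smul_apply, ContinuousLinearMap.coe_fst', smul_eq_mul, neg_mul, neg_inj]; ring

lemma fderiv_cos2 (n : ℕ) (p v : ℝ × ℝ) :
    fderiv ℝ (fun p : ℝ × ℝ => Real.cos (n * p.2)) p v = -(n * Real.sin (n * p.2)) * v.2 := by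
  have h : HasFDerivAt (fun p : ℝ × ℝ => (n : ℝ) * p.2)
      ((n : ℝ) • ContinuousLinearMap.snd ℝ ℝ ℝ) p :=
    (ContinuousLinearMap.snd ℝ ℝ ℝ).hasFDerivAt.const_mul _
  rw [h.cos.fderiv]; simp only [smul_apply, ContinuousLinearMap.coe_snd', smul_eq_mul, neg_mul, neg_inj]; ring

lemma fderiv_sin1 (n : ℕ) (p v : ℝ × ℝ) :
    fderiv ℝ (fun p : ℝ × ℝ => Real.sin (n * p.1)) p v = (n * Real.cos (n * p.1)) * v.1 := by
  have h : HasFDerivAt (fun p : ℝ × ℝ => (n : ℝ) * p.1)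
      ((n : ℝ) • ContinuousLinearMap.fst ℝ ℝ ℝ) p :=
    (ContinuousLinearMap.fst ℝ ℝ ℝ).hasFDerivAt.const_mul _
  rw [h.sin.fderiv]; simp only [smul_apply, ContinuousLinearMap.coe_fst', smul_eq_mul]; ring

lemma fderiv_sin2 (n : ℕ) (p v : ℝ × ℝ) :
    fderiv ℝ (fun p : ℝ × ℝ => Real.sin (n * p.2)) p v = (n * Real.cos (n * p.2)) * v.2 := by
  have h : HasFDerivAt (fun p : ℝ × ℝ => (n : ℝ) * p.2)
      ((n : ℝ) • ContinuousLinearMap.snd ℝ ℝ ℝ) p :=
    (ContinuousLinearMap.snd ℝ ℝ ℝ).hasFDerivAt.const_mul _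
  rw [h.sin.fderiv]; simp only [smul_apply, ContinuousLinearMap.coe_snd', smul_eq_mul]; ring

lemma frame1 (n : ℕ) : Frame D₁ D₂ (sc n) (cosS n 0) (sinS n 0) where
  d1C := by
    ext p
    show fderiv ℝ (fun p : ℝ × ℝ => Real.cos (n * p.1)) p (1, 0) = -((n : ℝ) * Real.sin (n * p.1))
    rw [fderiv_cos1]; simp
  d1N := by
    ext p
    show fderiv ℝ (fun p : ℝ × ℝ => Real.sin (n * p.1)) p (1, 0) = (n : ℝ) * Real.cos (n * p.1)
    rw [fderiv_sin1]; simp
  d2C := by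
    ext p
    show fderiv ℝ (fun p : ℝ × ℝ => Real.cos (n * p.1)) p (0, 1) = 0
    rw [fderiv_cos1]; simp
  d2N := by
    ext p
    show fderiv ℝ (fun p : ℝ × ℝ => Real.sin (n * p.1)) p (0, 1) = 0
    rw [fderiv_sin1]; simp
  sq := by
    ext p
    show Real.cos (n * p.1) ^ 2 + Real.sin (n * p.1) ^ 2 = 1
    exact Real.cos_sq_add_sin_sq _

lemma frame2 (n : ℕ) : Frame D₂ D₁ (sc n) (cosS n 1) (sinS n 1) where
  d1C := by
    ext p
    show fderiv ℝ (fun p : ℝ × ℝ => Real.cos (n * p.2)) p (0, 1) = -((n : ℝ) * Real.sin (n * p.2))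
    rw [fderiv_cos2]; simp
  d1N := by
    ext p
    show fderiv ℝ (fun p : ℝ × ℝ => Real.sin (n * p.2)) p (0, 1) = (n : ℝ) * Real.cos (n * p.2)
    rw [fderiv_sin2]; simp
  d2C := by
    ext p
    show fderiv ℝ (fun p : ℝ × ℝ => Real.cos (n * p.2)) p (1, 0) = 0
    rw [fderiv_cos2]; simp
  d2N := by
    ext p
    show fderiv ℝ (fun p : ℝ × ℝ => Real.sin (n * p.2)) p (1, 0) = 0
    rw [fderiv_sin2]; simp
  sq := by
    ext p
    show Real.cos (n * p.2) ^ 2 + Real.sin (n * p.2) ^ 2 = 1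
    exact Real.cos_sq_add_sin_sq _

/-- four smooth periodic functions as a map to `ℝ⁴` -/
def toX (f : Fin 4 → SFun) (p : ℝ × ℝ) : EuclideanSpace ℝ (Fin 4) :=
  WithLp.toLp 2 fun i => (f i : ℝ × ℝ → ℝ) p

lemma toX_smooth (f : Fin 4 → SFun) : ContDiff ℝ ∞ (toX f) := by
  rw [contDiff_euclidean]
  exact fun i => smooth (f i)

lemma toX_periodic (f : Fin 4 → SFun) :
    Periodic2 (2 * Real.pi, 0) (0, 2 * Real.pi) (toX f) := by
  constructor
  · intro p; unfold toX; congr 1; ext i; exact (per (f i)).1 p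
  · intro p; unfold toX; congr 1; ext i; exact (per (f i)).2 p

lemma fderiv_split (g : SFun) (p v : ℝ × ℝ) :
    fderiv ℝ (g : ℝ × ℝ → ℝ) p v =
      v.1 * (D₁ g : ℝ × ℝ → ℝ) p + v.2 * (D₂ g : ℝ × ℝ → ℝ) p := by
  have hv : v = v.1 • ((1 : ℝ), (0 : ℝ)) + v.2 • ((0 : ℝ), (1 : ℝ)) := by
    ext <;> simp
  conv_lhs => rw [hv]
  rw [map_add, map_smul, map_smul]
  rfl

lemma toX_fderiv (f : Fin 4 → SFun) (p v : ℝ × ℝ) (i : Fin 4) :
    (fderiv ℝ (toX f) p v) i =
      v.1 * (D₁ (f i) : ℝ × ℝ → ℝ) p + v.2 * (D₂ (f i) : ℝ × ℝ → ℝ) p := by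
  have hd : DifferentiableAt ℝ (toX f) p := (toX_smooth f).differentiable (by simp) p
  have h := (EuclideanSpace.proj i : EuclideanSpace ℝ (Fin 4) →L[ℝ] ℝ).hasFDerivAt.comp p
    hd.hasFDerivAt
  have h2 : HasFDerivAt (f i : ℝ × ℝ → ℝ) _ p := h
  rw [← fderiv_split, h2.fderiv]
  rfl

theorem induces_of (f : Fin 4 → SFun) (E F G : SFun)
    (h11 : D₁ (f 0) ^ 2 + D₁ (f 1) ^ 2 + (D₁ (f 2) ^ 2 + D₁ (f 3) ^ 2) = E)
    (h22 : D₂ (f 0) ^ 2 + D₂ (f 1) ^ 2 + (D₂ (f 2) ^ 2 + D₂ (f 3) ^ 2) = G)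
    (h12 : D₁ (f 0) * D₂ (f 0) + D₁ (f 1) * D₂ (f 1)
      + (D₁ (f 2) * D₂ (f 2) + D₁ (f 3) * D₂ (f 3)) = F) :
    Induces (toX f) E F G := by
  intro p v w
  rw [PiLp.inner_apply]
  simp only [toX_fderiv, Fin.sum_univ_four, RCLike.inner_apply, conj_trivial]
  have e11 := congrArg (fun g : SFun => (g : ℝ × ℝ → ℝ) p) h11
  have e22 := congrArg (fun g : SFun => (g : ℝ × ℝ → ℝ) p) h22
  have e12 := congrArg (fun g : SFun => (g : ℝ × ℝ → ℝ) p) h12
  simp only [AddMemClass.coe_add, SubmonoidClass.coe_pow, Pi.add_apply, Pi.pow_apply, MulMemClass.coe_mul, Pi.mul_apply] at e11 e22 e12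
  unfold form
  linear_combination (v.1 * w.1) * e11 + (v.2 * w.2) * e22 + (v.1 * w.2 + v.2 * w.1) * e12

variable {W : Wt}

theorem core (hW : W.Sup) {A B iA iB : RW (W.up 4)} {Ra Rc : RW (W.up 2) →L[ℝ] RW (W.up 3)}
    {Q : SFun} (hA : evA hW 4 A * evA hW 4 iA = 1) (hB : evA hW 4 B * evA hW 4 iB = 1)
    (hQ : evA hW 4 B ^ 2 = Q * evA hW 4 A ^ 2)
    (hR : ∀ H, D₂ (evA hW 3 (Ra H)) + Q * D₁ (evA hW 3 (Rc H)) = evA hW 2 H) :
    ∃ X : ℝ × ℝ → EuclideanSpace ℝ (Fin 4), ContDiff ℝ ∞ X ∧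
      Periodic2 (2 * Real.pi, 0) (0, 2 * Real.pi) X ∧
      Induces X (fun p => (ev A p) ^ 2) (fun _ => 0) (fun p => (ev B p) ^ 2) := by
  obtain ⟨ε, hε, hfix⟩ := exists_GG A B iA iB Ra Rc
  obtain ⟨n, hn⟩ := exists_nat_gt (1 / ε + 1)
  have hn1 : (1 : ℝ) < n := by have : 0 < 1 / ε := by positivity
                               linarith
  have hn0 : (0 : ℝ) < n := by linarith only [hn1]
  have ht : |(1 / (n : ℝ)) ^ 2| < ε := by
    rw [abs_of_nonneg (by (clear * - hn1; positivity))]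
    have h1 : 1 / ε < n := by linarith only [hn]
    have h2 : 1 / (n : ℝ) < ε := by
      rw [div_lt_iff₀ hn0]; rw [div_lt_iff₀ hε] at h1; linarith only [h1]
    have h3 : 1 / (n : ℝ) ≤ 1 := by rw [div_le_one hn0]; exact hn1.le
    have h4 : 0 < 1 / (n : ℝ) := by (clear * - hn1; positivity)
    nlinarith only [h3, h2, h4]
  obtain ⟨u, hu⟩ := hfix _ ht
  have hS := sol_of_fixed hW hA hB hQ hR hu
  have hc : ∀ a : SFun, D₂ (D₁ a) = D₁ (D₂ a) := fun a => dir_comm _ _ a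
  have he1 : D₁ (sc (1 / (n : ℝ))) = 0 := D₁.map_algebraMap _
  have he2 : D₂ (sc (1 / (n : ℝ))) = 0 := D₂.map_algebraMap _
  have het : sc ((1 / (n : ℝ)) ^ 2) = sc (1 / (n : ℝ)) ^ 2 := map_pow _ _ _
  have hen : sc (1 / (n : ℝ)) * sc (n : ℝ) = 1 := by
    rw [sc, sc, ← map_mul, one_div, inv_mul_cancel₀ hn0.ne', map_one]
  have m11 := metric11 hS hc oml_inj he1 he2 het hen (frame1 n) (frame2 n)
  have m22 := metric22 hS hc oml_inj he1 he2 het hen (frame1 n) (frame2 n)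
  have m12 := metric12 hS hc oml_inj he1 he2 het hen (frame1 n) (frame2 n)
  set f : Fin 4 → SFun := ![
    fU (sc (1 / (n : ℝ))) (evA hW 4 A + sc ((1 / (n : ℝ)) ^ 2) * evA hW 2 u.2.2.1)
      (sc (1 / (n : ℝ)) * evA hW 2 u.1) (cosS n 0) (sinS n 0),
    fV (sc (1 / (n : ℝ))) (evA hW 4 A + sc ((1 / (n : ℝ)) ^ 2) * evA hW 2 u.2.2.1)
      (sc (1 / (n : ℝ)) * evA hW 2 u.1) (cosS n 0) (sinS n 0),
    fU (sc (1 / (n : ℝ))) (evA hW 4 B + sc ((1 / (n : ℝ)) ^ 2) * evA hW 2 u.2.2.2)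
      (sc (1 / (n : ℝ)) * evA hW 2 u.2.1) (cosS n 1) (sinS n 1),
    fV (sc (1 / (n : ℝ))) (evA hW 4 B + sc ((1 / (n : ℝ)) ^ 2) * evA hW 2 u.2.2.2)
      (sc (1 / (n : ℝ)) * evA hW 2 u.2.1) (cosS n 1) (sinS n 1)] with hf
  have key := induces_of f _ _ _ m11 m22 m12
  exact ⟨toX f, toX_smooth f, toX_periodic f, key⟩

end Vale.Agent.P205
end
end
end

section

section

open scoped ComplexConjugate ContDiff

noncomputable section

namespace Vale.Agent.P205

variable {V W : Wt}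

namespace RInv

open RW

/-- `x`-derivative of the evaluation -/
def d1 (f : RW V) (p : ℝ × ℝ) : ℝ := (evS (sD1 f.co) p).re
/-- `y`-derivative of the evaluation -/
def d2 (f : RW V) (p : ℝ × ℝ) : ℝ := (evS (sD2 f.co) p).re

lemma hasFDerivAt_ev (hV : V.Sup) (f : RW V) (p : ℝ × ℝ) :
    HasFDerivAt (ev f) ((ContinuousLinearMap.fst ℝ ℝ ℝ).smulRight (d1 f p) +
        (ContinuousLinearMap.snd ℝ ℝ ℝ).smulRight (d2 f p)) p := by
  have h := (Complex.reCLM.hasFDerivAt (x := evS f.co p)).comp p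
    (hasFDerivAt_evS (f.rapid hV) p)
  refine (h.congr_fderiv ?_)
  ext <;> simp [d1, d2]

lemma fderiv_ev_fst (hV : V.Sup) (f : RW V) (p : ℝ × ℝ) :
    fderiv ℝ (ev f) p (1, 0) = d1 f p := by
  rw [(hasFDerivAt_ev hV f p).fderiv]; simp only [add_apply, ContinuousLinearMap.smulRight_apply, ContinuousLinearMap.coe_fst', smul_eq_mul, one_mul, ContinuousLinearMap.coe_snd', zero_mul, add_zero]

lemma fderiv_ev_snd (hV : V.Sup) (f : RW V) (p : ℝ × ℝ) :
    fderiv ℝ (ev f) p (0, 1) = d2 f p := by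
  rw [(hasFDerivAt_ev hV f p).fderiv]; simp

lemma d1_eq_of_co {V' : Wt} (f : RW V) (g : RW V') (h : ∀ k, Complex.I * k.1 * f.co k = g.co k)
    (p : ℝ × ℝ) : d1 f p = ev g p := by
  unfold d1 ev
  congr 2
  funext k
  exact h k

lemma d2_eq_of_co {V' : Wt} (f : RW V) (g : RW V') (h : ∀ k, Complex.I * k.2 * f.co k = g.co k)
    (p : ℝ × ℝ) : d2 f p = ev g p := by
  unfold d2 ev
  congr 2
  funext k
  exact h k

lemma d1_add (hV : V.Sup) (f g : RW V) (p : ℝ × ℝ) : d1 (f + g) p = d1 f p + d1 g p := by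
  have h1 := hasFDerivAt_ev hV (f + g) p
  have h2 := (hasFDerivAt_ev hV f p).add (hasFDerivAt_ev hV g p)
  have h3 : ev (f + g) = ev f + ev g := by funext q; exact ev_add f g q
  rw [h3] at h1
  have := congrArg (fun L : ℝ × ℝ →L[ℝ] ℝ => L (1, 0)) (h1.unique h2)
  simpa using this

lemma d2_add (hV : V.Sup) (f g : RW V) (p : ℝ × ℝ) : d2 (f + g) p = d2 f p + d2 g p := by
  have h1 := hasFDerivAt_ev hV (f + g) p
  have h2 := (hasFDerivAt_ev hV f p).add (hasFDerivAt_ev hV g p)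
  have h3 : ev (f + g) = ev f + ev g := by funext q; exact ev_add f g q
  rw [h3] at h1
  have := congrArg (fun L : ℝ × ℝ →L[ℝ] ℝ => L (0, 1)) (h1.unique h2)
  simpa using this

lemma d1_smul (hV : V.Sup) (c : ℝ) (f : RW V) (p : ℝ × ℝ) : d1 (c • f) p = c * d1 f p := by
  have h1 := hasFDerivAt_ev hV (c • f) p
  have h2 := (hasFDerivAt_ev hV f p).const_smul c
  have h3 : ev (c • f) = c • ev f := by funext q; exact ev_smul c f q
  rw [h3] at h1
  have := congrArg (fun L : ℝ × ℝ →L[ℝ] ℝ => L (1, 0)) (h1.unique h2)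
  simpa using this

lemma d1_mul (hV : V.Sup) (f g : RW V) (p : ℝ × ℝ) :
    d1 (mul' f g) p = d1 f p * ev g p + ev f p * d1 g p := by
  have h1 := hasFDerivAt_ev hV (mul' f g) p
  have h2 := (hasFDerivAt_ev hV f p).mul (hasFDerivAt_ev hV g p)
  have h3 : ev (mul' f g) = ev f * ev g := by funext q; exact ev_mul f g q
  rw [h3] at h1
  have := congrArg (fun L : ℝ × ℝ →L[ℝ] ℝ => L (1, 0)) (h1.unique h2)
  simp at this
  rw [this]; ring

lemma ev_sub (f g : RW V) (p : ℝ × ℝ) : ev (f - g) p = ev f p - ev g p := by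
  have h := ev_add f ((-1 : ℝ) • g) p
  rw [ev_smul] at h
  have e : f + (-1 : ℝ) • g = f - g := by rw [neg_one_smul, sub_eq_add_neg]
  rw [e] at h; rw [h]; ring

lemma ev_eq_of_co {V' : Wt} (f : RW V) (g : RW V') (h : ∀ k, f.co k = g.co k)
    (p : ℝ × ℝ) : ev f p = ev g p := by
  unfold ev
  congr 2
  funext k
  exact h k

/-- `∂_x⁻¹` on the modes with `k₁ ≠ 0` -/
def I1 (V : Wt) : RW V →L[ℝ] RW V :=
  mult (fun k => if k.1 = 0 then 0 else (Complex.I * k.1)⁻¹) 1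
    (by
      intro k
      refine mul_le_mul_of_nonneg_right ?_ (V.pos k).le
      split_ifs with h
      · simp
      · rw [norm_inv, norm_mul, Complex.norm_I, one_mul, Complex.norm_intCast]
        apply inv_le_one_of_one_le₀
        exact_mod_cast Int.one_le_abs h)
    (by
      intro k
      simp only [Prod.fst_neg, neg_eq_zero]
      split_ifs with h
      · simp
      · simp)

/-- `∂_y⁻¹` on the modes with `k₂ ≠ 0` -/
def I2 (V : Wt) : RW V →L[ℝ] RW V :=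
  mult (fun k => if k.2 = 0 then 0 else (Complex.I * k.2)⁻¹) 1
    (by
      intro k
      refine mul_le_mul_of_nonneg_right ?_ (V.pos k).le
      split_ifs with h
      · simp
      · rw [norm_inv, norm_mul, Complex.norm_I, one_mul, Complex.norm_intCast]
        apply inv_le_one_of_one_le₀
        exact_mod_cast Int.one_le_abs h)
    (by
      intro k
      simp only [Prod.snd_neg, neg_eq_zero]
      split_ifs with h
      · simp
      · simp)

/-- projection to the modes `k₂ = 0`, `k₁ ≠ 0` -/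
def Ex (V : Wt) : RW V →L[ℝ] RW V :=
  mult (fun k => if k.2 = 0 ∧ k.1 ≠ 0 then 1 else 0) 1
    (by
      intro k
      refine mul_le_mul_of_nonneg_right ?_ (V.pos k).le
      split_ifs <;> simp)
    (by
      intro k
      simp only [Prod.snd_neg, Prod.fst_neg, neg_eq_zero, ne_eq]
      split_ifs <;> simp)

/-- projection to the constant mode, landing in any better space -/
def P0 (V V' : Wt) : RW V →L[ℝ] RW V' :=
  mult (fun k => if k = 0 then 1 else 0) (V'.w 0)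
    (by
      intro k
      split_ifs with h
      · subst h
        simp only [norm_one, one_mul]
        exact le_mul_of_one_le_right (V'.pos 0).le (V.one_le 0)
      · simp only [norm_zero, zero_mul]
        exact mul_nonneg (V'.pos 0).le (V.pos k).le)
    (by
      intro k
      simp only [neg_eq_zero]
      split_ifs <;> simp)

/-- mean value -/
def mean (V : Wt) : RW V →L[ℝ] ℝ :=
  LinearMap.mkContinuous
    { toFun := fun f => (f.co 0).re
      map_add' := by intro f g; simp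
      map_smul' := by intro c f; simp }
    1
    (by
      intro f
      rw [norm_eq, one_mul]
      simp only [LinearMap.coe_mk, AddHom.coe_mk]
      calc ‖(f.co 0).re‖ ≤ ‖f.co 0‖ := Complex.abs_re_le_norm _
        _ ≤ V.w 0 * ‖f.co 0‖ := le_mul_of_one_le_left (norm_nonneg _) (V.one_le 0)
        _ ≤ ∑' k, V.w k * ‖f.co k‖ :=
          f.summable.le_tsum 0 (fun j _ => mul_nonneg (V.pos j).le (norm_nonneg _)))

lemma mean_apply (f : RW V) : mean V f = (f.co 0).re := rfl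

lemma co_zero_eq (f : RW V) : f.co 0 = ((f.co 0).re : ℂ) := by
  have h := f.co_neg 0
  rw [neg_zero] at h
  exact (Complex.conj_eq_iff_re.mp h.symm).symm

lemma conv_antidiag_row {q : RW V} (hs : ∀ k : ℤ × ℤ, k.1 + k.2 ≠ 0 → q.co k = 0) (g : RW V)
    (hg : ∀ k : ℤ × ℤ, k.2 ≠ 0 → g.co k = 0) (n : ℤ) :
    (mul' q g).co (n, 0) = q.co 0 * g.co (n, 0) := by
  rw [co_mul', conv, tsum_eq_single (0 : ℤ × ℤ)]
  · simp
  · intro j hj
    by_cases h2 : j.2 = 0
    · have h1 : j.1 ≠ 0 := by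
        intro h1; exact hj (Prod.ext h1 h2)
      rw [hs j (by rw [h2, add_zero]; exact h1), zero_mul]
    · rw [hg ((n, 0) - j) (by simpa using h2), mul_zero]

lemma conv_antidiag {q : RW V} (hs : ∀ k : ℤ × ℤ, k.1 + k.2 ≠ 0 → q.co k = 0) (g : RW V)
    (hg : ∀ k : ℤ × ℤ, k.1 + k.2 ≠ 0 → g.co k = 0) (k : ℤ × ℤ) (hk : k.1 + k.2 ≠ 0) :
    (mul' q g).co k = 0 := by
  rw [co_mul', conv]
  convert tsum_zero with j
  by_cases h : j.1 + j.2 = 0
  · rw [hg (k - j) (by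
      have : (k - j).1 + (k - j).2 = k.1 + k.2 - (j.1 + j.2) := by
        simp only [Prod.fst_sub, Prod.snd_sub]; ring
      rw [this, h, sub_zero]; exact hk), mul_zero]
  · rw [hs j h, zero_mul]

/-- Solving `∂_y a + q ∂_x c = G` without gain, for `q` a nonconstant function of `x - y`
with nonzero mean. -/
lemma exists_T (hV : V.Sup) (q : RW V) (hs : ∀ k : ℤ × ℤ, k.1 + k.2 ≠ 0 → q.co k = 0)
    (h0 : q.co 0 ≠ 0) (hne : ∃ k : ℤ × ℤ, k ≠ 0 ∧ q.co k ≠ 0) :
    ∃ Ta Tc : RW V →L[ℝ] RW V, ∀ (G : RW V) (p : ℝ × ℝ),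
      d2 (Ta G) p + ev q p * d1 (Tc G) p = ev G p := by
  -- the variance
  set q0 : RW V := q - P0 V V q with hq0
  have hq0co : ∀ k, q0.co k = if k = 0 then 0 else q.co k := by
    intro k
    rw [hq0, co_sub, P0, co_mult]
    split_ifs with h <;> simp
  set vv : ℝ := ((mul' q q0).co 0).re with hvv
  have hvsum : Summable fun j => ‖q.co j * q0.co (0 - j)‖ := summable_conv_term q q0 0
  have hterm : ∀ j : ℤ × ℤ, q.co j * q0.co (0 - j) =
      ((if j = 0 then 0 else ‖q.co j‖ ^ 2 : ℝ) : ℂ) := by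
    intro j
    rw [zero_sub, hq0co]
    by_cases h : j = 0
    · rw [if_pos h, if_pos (by rw [h, neg_zero])]; simp
    · rw [if_neg h, if_neg (by simpa using h), co_neg, Complex.mul_conj,
        Complex.normSq_eq_norm_sq]
  have hre : vv = ∑' j : ℤ × ℤ, (if j = 0 then 0 else ‖q.co j‖ ^ 2 : ℝ) := by
    rw [hvv, co_mul', conv]
    simp_rw [hterm]
    rw [← Complex.ofReal_tsum, Complex.ofReal_re]
  have hsumR : Summable fun j : ℤ × ℤ => (if j = 0 then 0 else ‖q.co j‖ ^ 2 : ℝ) := by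
    refine hvsum.congr (fun j => ?_) |>.of_norm
    rw [hterm, Complex.norm_real]
  have hvpos : 0 < vv := by
    obtain ⟨k, hk, hqk⟩ := hne
    rw [hre]
    refine hsumR.tsum_pos (fun j => ?_) k ?_
    · split_ifs <;> (clear * -; positivity)
    · rw [if_neg hk]; positivity
  -- the correctors
  set γ : RW V := vv⁻¹ • I1 V q with hγ
  set γx : RW V := vv⁻¹ • q0 with hγx
  set r : RW V := mul' q γx with hr
  have hq0s : ∀ k : ℤ × ℤ, k.1 + k.2 ≠ 0 → q0.co k = 0 := by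
    intro k hk
    rw [hq0co]
    split_ifs with h
    · rfl
    · exact hs k hk
  have hγxs : ∀ k : ℤ × ℤ, k.1 + k.2 ≠ 0 → γx.co k = 0 := by
    intro k hk
    rw [hγx, co_smul, hq0s k hk, mul_zero]
  have hd1γ : ∀ p, d1 γ p = ev γx p := by
    intro p
    refine d1_eq_of_co _ _ (fun k => ?_) p
    rw [hγ, hγx, co_smul, co_smul, I1, co_mult, hq0co]
    by_cases h1 : k.1 = 0
    · rw [if_pos h1]
      split_ifs with h
      · simp
      · have h2 : k.2 ≠ 0 := fun h2 => h (Prod.ext h1 h2)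
        rw [hs k (by rw [h1, zero_add]; exact h2)]; simp
    · rw [if_neg h1, if_neg (by rintro rfl; exact h1 rfl)]
      have : (k.1 : ℂ) ≠ 0 := by exact_mod_cast h1
      have hI := Complex.I_ne_zero
      (clear * - hI this; field_simp)
  have hr0 : r.co 0 = 1 := by
    have e : r = vv⁻¹ • mul' q q0 := by
      exact ((mulL V) q).map_smul vv⁻¹ q0
    rw [e, co_smul]
    have h1 : (mul' q q0).co 0 = (vv : ℂ) := by
      rw [hvv]; exact co_zero_eq _
    rw [h1]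
    have : (vv : ℂ) ≠ 0 := by exact_mod_cast hvpos.ne'
    push_cast
    field_simp
  have hrs : ∀ k : ℤ × ℤ, k.1 + k.2 ≠ 0 → r.co k = 0 := fun k hk => conv_antidiag hs γx hγxs k hk
  set qb : ℝ := (q.co 0).re with hqb
  have hqb' : q.co 0 = (qb : ℂ) := co_zero_eq q
  have hqb0 : qb ≠ 0 := by
    intro h; rw [hqb', h] at h0; exact h0 (by simp)
  refine ⟨I2 V ∘L (ContinuousLinearMap.id ℝ (RW V) - qb⁻¹ • ((mulL V q) ∘L Ex V) -
      (mean V).smulRight r), qb⁻¹ • (I1 V ∘L Ex V) + (mean V).smulRight γ, fun G p => ?_⟩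
  set Z : RW V := G - qb⁻¹ • mul' q (Ex V G) - mean V G • r with hZ
  have hTa : (I2 V ∘L (ContinuousLinearMap.id ℝ (RW V) - qb⁻¹ • ((mulL V q) ∘L Ex V) -
      (mean V).smulRight r)) G = I2 V Z := by
    simp [hZ]
  have hTc : (qb⁻¹ • (I1 V ∘L Ex V) + (mean V).smulRight γ) G =
      qb⁻¹ • I1 V (Ex V G) + mean V G • γ := by
    simp only [add_apply, smul_apply, ContinuousLinearMap.comp_apply, ContinuousLinearMap.smulRight_apply]
  rw [hTa, hTc]
  have hExs : ∀ k : ℤ × ℤ, k.2 ≠ 0 → (Ex V G).co k = 0 := by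
    intro k hk
    rw [Ex, co_mult, if_neg (by (clear * - hne hk; tauto)), zero_mul]
  have hZ0 : ∀ k : ℤ × ℤ, k.2 = 0 → Z.co k = 0 := by
    rintro ⟨n, m⟩ hm
    simp only at hm
    subst hm
    rw [hZ, co_sub, co_sub, co_smul, co_smul, conv_antidiag_row hs _ hExs, hqb']
    by_cases hn : n = 0
    · subst hn
      have e0 : (((0 : ℤ), (0 : ℤ)) : ℤ × ℤ) = 0 := rfl
      rw [e0, hr0, mean_apply, ← co_zero_eq G, Ex, co_mult]
      simp
    · rw [hrs (n, 0) (by simpa using hn), Ex, co_mult, if_pos ⟨rfl, hn⟩]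
      have : (qb : ℂ) ≠ 0 := by exact_mod_cast hqb0
      push_cast
      field_simp
      ring
  have e1 : d2 (I2 V Z) p = ev Z p := by
    refine d2_eq_of_co _ _ (fun k => ?_) p
    rw [I2, co_mult]
    by_cases h : k.2 = 0
    · rw [if_pos h, hZ0 k h]; simp
    · rw [if_neg h]
      have : (k.2 : ℂ) ≠ 0 := by exact_mod_cast h
      have hI := Complex.I_ne_zero
      field_simp
  have e2 : d1 (I1 V (Ex V G)) p = ev (Ex V G) p := by
    refine d1_eq_of_co _ _ (fun k => ?_) p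
    rw [I1, co_mult, Ex, co_mult]
    by_cases h : k.1 = 0
    · rw [if_pos h, if_neg (by (clear * - hne h; tauto))]; simp
    · rw [if_neg h]
      have : (k.1 : ℂ) ≠ 0 := by exact_mod_cast h
      have hI := Complex.I_ne_zero
      (clear * - hI this; field_simp)
  rw [e1, d1_add hV, d1_smul hV, d1_smul hV, e2, hd1γ, hZ, ev_sub, ev_sub, ev_smul, ev_smul,
    ev_mul, hr, ev_mul]
  ring

lemma sq_add_pos {k : ℤ × ℤ} (h : k ≠ 0) : (1 : ℝ) ≤ (k.1 : ℝ) ^ 2 + (k.2 : ℝ) ^ 2 := by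
  have h1 : k.1 ≠ 0 ∨ k.2 ≠ 0 := by
    by_contra hc
    push Not at hc
    exact h (Prod.ext hc.1 hc.2)
  have h2 : (0 : ℤ) < k.1 ^ 2 + k.2 ^ 2 := by
    rcases h1 with h1 | h1
    · have := sq_nonneg k.2; have := pow_pos (abs_pos.mpr h1) 2; rw [sq_abs] at this; omega
    · have := sq_nonneg k.1; have := pow_pos (abs_pos.mpr h1) 2; rw [sq_abs] at this; omega
  have h3 : (1 : ℤ) ≤ k.1 ^ 2 + k.2 ^ 2 := h2
  exact_mod_cast h3

lemma fsz_le_three (k : ℤ × ℤ) (h : k ≠ 0) : fsz k * fsz k ≤ 6 * ((k.1 : ℝ) ^ 2 + (k.2 : ℝ) ^ 2) := by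
  have h1 := sq_add_pos h
  unfold fsz
  have a1 := sq_abs (k.1 : ℝ)
  have a2 := sq_abs (k.2 : ℝ)
  linarith only [sq_nonneg (1 - |(k.2 : ℝ)|), sq_nonneg (1 - |(k.1 : ℝ)|), sq_nonneg (|(k.1 : ℝ)| - |(k.2 : ℝ)|), a2, a1, h1]

/-- the symbol `k₁² + k₂²` as a complex number -/
def nk (k : ℤ × ℤ) : ℂ := ((((k.1 : ℝ) ^ 2 + (k.2 : ℝ) ^ 2 : ℝ)) : ℂ)

lemma nk_ne {k : ℤ × ℤ} (h : k ≠ 0) : nk k ≠ 0 := by
  unfold nk
  have := sq_add_pos h
  exact_mod_cast (by linarith only [this] : (0 : ℝ) < (k.1 : ℝ) ^ 2 + (k.2 : ℝ) ^ 2).ne'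

lemma norm_nk (k : ℤ × ℤ) : ‖nk k‖ = (k.1 : ℝ) ^ 2 + (k.2 : ℝ) ^ 2 := by
  unfold nk
  rw [Complex.norm_real, Real.norm_of_nonneg (by positivity)]

lemma nk_neg (k : ℤ × ℤ) : nk (-k) = nk k := by simp only [nk, Prod.fst_neg, Int.cast_neg, even_two, Even.neg_pow, Prod.snd_neg, Complex.ofReal_add, Complex.ofReal_pow, Complex.ofReal_intCast]

lemma conj_nk (k : ℤ × ℤ) : conj (nk k) = nk k := by unfold nk; exact Complex.conj_ofReal _

/-- `∂_x Δ⁻¹` on the modes `k ≠ 0` -/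
def DxL (W : Wt) : RW (W.up 2) →L[ℝ] RW (W.up 3) :=
  mult (fun k => if k = 0 then 0 else -(Complex.I * k.1) / nk k) 6
    (by
      intro k
      rw [Wt.up_w, Wt.up_w]
      split_ifs with h
      · rw [norm_zero, zero_mul]
        have := W.pos k; have := fsz_pos k; positivity
      · rw [norm_div, norm_neg, norm_mul, Complex.norm_I, one_mul, norm_nk, Complex.norm_intCast]
        have h1 := sq_add_pos h
        have h2 := fsz_le_three k h
        have h3 := abs_fst_le_fsz k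
        have h4 := fsz_pos k
        have h5 := W.pos k
        rw [div_mul_eq_mul_div, div_le_iff₀ (by linarith)]
        calc |(k.1 : ℝ)| * (W.w k * fsz k ^ 3) ≤ fsz k * (W.w k * fsz k ^ 3) :=
              mul_le_mul_of_nonneg_right h3 (by positivity)
          _ = (fsz k * fsz k) * (W.w k * fsz k ^ 2) := by ring
          _ ≤ (6 * ((k.1 : ℝ) ^ 2 + (k.2 : ℝ) ^ 2)) * (W.w k * fsz k ^ 2) :=
              mul_le_mul_of_nonneg_right h2 (by positivity)
          _ = _ := by ring)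
    (by
      intro k
      by_cases h : k = 0
      · rw [if_pos h, if_pos (by rw [h, neg_zero])]; simp
      · rw [if_neg h, if_neg (by simpa using h)]
        simp [nk_neg, conj_nk])

/-- `∂_y Δ⁻¹` on the modes `k ≠ 0` -/
def DyL (W : Wt) : RW (W.up 2) →L[ℝ] RW (W.up 3) :=
  mult (fun k => if k = 0 then 0 else -(Complex.I * k.2) / nk k) 6
    (by
      intro k
      rw [Wt.up_w, Wt.up_w]
      split_ifs with h
      · rw [norm_zero, zero_mul]
        have := W.pos k; have := fsz_pos k; positivity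
      · rw [norm_div, norm_neg, norm_mul, Complex.norm_I, one_mul, norm_nk, Complex.norm_intCast]
        have h1 := sq_add_pos h
        have h2 := fsz_le_three k h
        have h3 := abs_snd_le_fsz k
        have h4 := fsz_pos k
        have h5 := W.pos k
        rw [div_mul_eq_mul_div, div_le_iff₀ (by linarith)]
        calc |(k.2 : ℝ)| * (W.w k * fsz k ^ 3) ≤ fsz k * (W.w k * fsz k ^ 3) :=
              mul_le_mul_of_nonneg_right h3 (by positivity)
          _ = (fsz k * fsz k) * (W.w k * fsz k ^ 2) := by ring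
          _ ≤ (6 * ((k.1 : ℝ) ^ 2 + (k.2 : ℝ) ^ 2)) * (W.w k * fsz k ^ 2) :=
              mul_le_mul_of_nonneg_right h2 (by positivity)
          _ = _ := by ring)
    (by
      intro k
      by_cases h : k = 0
      · rw [if_pos h, if_pos (by rw [h, neg_zero])]; simp
      · rw [if_neg h, if_neg (by simpa using h)]
        simp [nk_neg, conj_nk])

/-- `∂_x² Δ⁻¹` -/
def P11 (V : Wt) : RW V →L[ℝ] RW V :=
  mult (fun k => if k = 0 then 0 else ((k.1 : ℂ) * k.1) / nk k) 1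
    (by
      intro k
      refine mul_le_mul_of_nonneg_right ?_ (V.pos k).le
      split_ifs with h
      · simp
      · rw [norm_div, norm_mul, norm_nk, Complex.norm_intCast, abs_mul_abs_self]
        have h1 := sq_add_pos h
        rw [div_le_one (by linarith)]
        linarith only [sq_nonneg (k.2 : ℝ)])
    (by
      intro k
      by_cases h : k = 0
      · rw [if_pos h, if_pos (by rw [h, neg_zero])]; simp
      · rw [if_neg h, if_neg (by simpa using h)]
        simp [nk_neg, conj_nk])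

/-- `∂_y² Δ⁻¹` -/
def P22 (V : Wt) : RW V →L[ℝ] RW V :=
  mult (fun k => if k = 0 then 0 else ((k.2 : ℂ) * k.2) / nk k) 1
    (by
      intro k
      refine mul_le_mul_of_nonneg_right ?_ (V.pos k).le
      split_ifs with h
      · simp
      · rw [norm_div, norm_mul, norm_nk, Complex.norm_intCast, abs_mul_abs_self]
        have h1 := sq_add_pos h
        rw [div_le_one (by linarith)]
        linarith only [sq_nonneg (k.1 : ℝ)])
    (by
      intro k
      by_cases h : k = 0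
      · rw [if_pos h, if_pos (by rw [h, neg_zero])]; simp
      · rw [if_neg h, if_neg (by simpa using h)]
        simp [nk_neg, conj_nk])

/-- **The explicit right inverse** of `(a, c) ↦ ∂_y a + q ∂_x c`, gaining one derivative. -/
theorem exists_right_inverse (hW : W.Sup) (q qi qix : RW (W.up 3))
    (hs : ∀ k : ℤ × ℤ, k.1 + k.2 ≠ 0 → q.co k = 0)
    (h0 : q.co 0 ≠ 0) (hne : ∃ k : ℤ × ℤ, k ≠ 0 ∧ q.co k ≠ 0)
    (hinv : ∀ p, ev q p * ev qi p = 1)
    (hqix : ∀ k : ℤ × ℤ, qix.co k = Complex.I * k.1 * qi.co k) :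
    ∃ Ta Tc : RW (W.up 2) →L[ℝ] RW (W.up 3), ∀ (H : RW (W.up 2)) (p : ℝ × ℝ),
      fderiv ℝ (ev (Ta H)) p (0, 1) + ev q p * fderiv ℝ (ev (Tc H)) p (1, 0) = ev H p := by
  have hV : (W.up 3).Sup := hW.up 3
  obtain ⟨T1, T2, hT⟩ := exists_T hV q hs h0 hne
  set K : RW (W.up 2) →L[ℝ] RW (W.up 3) :=
    P0 (W.up 2) (W.up 3) - (mulL (W.up 3) (mul' q qix)) ∘L DxL W with hK
  refine ⟨DyL W + T1 ∘L K, (mulL (W.up 3) qi) ∘L DxL W + T2 ∘L K, fun H p => ?_⟩
  rw [fderiv_ev_snd hV, fderiv_ev_fst hV]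
  have e1 : (DyL W + T1 ∘L K) H = DyL W H + T1 (K H) := rfl
  have e2 : ((mulL (W.up 3) qi) ∘L DxL W + T2 ∘L K) H = mul' qi (DxL W H) + T2 (K H) := rfl
  have e3 : K H = P0 (W.up 2) (W.up 3) H - mul' (mul' q qix) (DxL W H) := rfl
  have f1 : d2 (DyL W H) p = ev (P22 (W.up 2) H) p := by
    refine d2_eq_of_co _ _ (fun k => ?_) p
    rw [DyL, P22, co_mult, co_mult]
    by_cases h : k = 0
    · rw [if_pos h, if_pos h]; simp
    · rw [if_neg h, if_neg h]
      have := nk_ne h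
      field_simp
      rw [Complex.I_sq]; ring
  have f2 : d1 (DxL W H) p = ev (P11 (W.up 2) H) p := by
    refine d1_eq_of_co _ _ (fun k => ?_) p
    rw [DxL, P11, co_mult, co_mult]
    by_cases h : k = 0
    · rw [if_pos h, if_pos h]; simp
    · rw [if_neg h, if_neg h]
      have := nk_ne h
      field_simp
      rw [Complex.I_sq]; ring
  have f3 : d1 qi p = ev qix p := d1_eq_of_co _ _ (fun k => (hqix k).symm) p
  have f4 : ev H p = ev (P11 (W.up 2) H) p + ev (P22 (W.up 2) H) p +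
      ev (P0 (W.up 2) (W.up 3) H) p := by
    have g1 : ev (P0 (W.up 2) (W.up 3) H) p = ev (P0 (W.up 2) (W.up 2) H) p := by
      refine ev_eq_of_co _ _ (fun k => ?_) p
      rw [P0, P0, co_mult, co_mult]
    rw [g1, ← ev_add, ← ev_add]
    refine ev_eq_of_co _ _ (fun k => ?_) p
    rw [co_add, co_add, P11, P22, P0, co_mult, co_mult, co_mult]
    by_cases h : k = 0
    · rw [if_pos h, if_pos h, if_pos h]; simp
    · rw [if_neg h, if_neg h, if_neg h]
      have h1 := nk_ne h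
      have h2 : nk k = (k.1 : ℂ) * k.1 + (k.2 : ℂ) * k.2 := by
        unfold nk; push_cast; ring
      rw [zero_mul, add_zero, ← add_mul, ← add_div, ← h2, div_self h1, one_mul]
  have f5 := hT (K H) p
  have f6 : ev (K H) p = ev (P0 (W.up 2) (W.up 3) H) p -
      ev q p * ev qix p * ev (DxL W H) p := by
    rw [e3, ev_sub, ev_mul, ev_mul]
  rw [e1, e2, d2_add hV, d1_add hV, d1_mul hV, f1, f2, f3]
  have hi := hinv p
  have : ev q p * (ev qix p * ev (DxL W H) p + ev qi p * ev (P11 (W.up 2) H) p) =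
      ev q p * ev qix p * ev (DxL W H) p + ev (P11 (W.up 2) H) p := by
    rw [mul_add, ← mul_assoc, ← mul_assoc, hi, one_mul]
  rw [mul_add, this]
  linarith only [f4, f5, f6]

end RInv

end Vale.Agent.P205
end
end
end

section

section

open scoped ComplexConjugate ContDiff
open MeasureTheory

noncomputable section

namespace Vale.Agent.P205

namespace FS

/-- the period square -/
def SS : Set (ℝ × ℝ) := Set.Ioc 0 (2 * Real.pi) ×ˢ Set.Ioc 0 (2 * Real.pi)

lemma two_pi_pos' : (0 : ℝ) < 2 * Real.pi := by positivity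

lemma continuous_ex (k : ℤ × ℤ) : Continuous (ex k) := by
  unfold ex; fun_prop

lemma integrableOn_SS {E : Type*} [NormedAddCommGroup E] {g : ℝ × ℝ → E} (hg : Continuous g) :
    IntegrableOn g SS (volume.prod volume) := by
  have h1 : IntegrableOn g (Set.Icc 0 (2 * Real.pi) ×ˢ Set.Icc 0 (2 * Real.pi))
      (volume.prod volume) :=
    hg.continuousOn.integrableOn_compact (isCompact_Icc.prod isCompact_Icc)
  exact h1.mono_set (Set.prod_mono Set.Ioc_subset_Icc_self Set.Ioc_subset_Icc_self)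

/-- double integral over the period square -/
def int2 (g : ℝ × ℝ → ℂ) : ℂ := ∫ p in SS, g p ∂(volume.prod volume)

lemma int2_eq {g : ℝ × ℝ → ℂ} (hg : Continuous g) :
    int2 g = ∫ x in (0 : ℝ)..2 * Real.pi, ∫ y in (0 : ℝ)..2 * Real.pi, g (x, y) := by
  unfold int2 SS
  rw [setIntegral_prod g (integrableOn_SS hg), intervalIntegral.integral_of_le two_pi_pos'.le]
  refine setIntegral_congr_fun measurableSet_Ioc fun x _ => ?_
  rw [intervalIntegral.integral_of_le two_pi_pos'.le]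

lemma int2_eq' {g : ℝ × ℝ → ℂ} (hg : Continuous g) :
    int2 g = ∫ y in (0 : ℝ)..2 * Real.pi, ∫ x in (0 : ℝ)..2 * Real.pi, g (x, y) := by
  have h1 : int2 g = ∫ z in SS, g z.swap ∂(volume.prod volume) := by
    unfold int2 SS
    exact (setIntegral_prod_swap _ _ g).symm
  have h2 : (∫ z in SS, g z.swap ∂(volume.prod volume)) = int2 (fun z => g z.swap) := rfl
  rw [h1, h2, int2_eq (g := fun z : ℝ × ℝ => g z.swap) (hg.comp continuous_swap)]
  rfl

/-- Fourier coefficients -/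
def fc (g : ℝ × ℝ → ℂ) (k : ℤ × ℤ) : ℂ :=
  ((4 * Real.pi ^ 2 : ℝ) : ℂ)⁻¹ * int2 (fun p => g p * ex (-k) p)

lemma integral_exp_int (m : ℤ) :
    ∫ x in (0 : ℝ)..2 * Real.pi, Complex.exp (((m : ℝ) * x : ℝ) * Complex.I) =
      if m = 0 then ((2 * Real.pi : ℝ) : ℂ) else 0 := by
  split_ifs with h
  · subst h; simp only [Int.cast_zero, zero_mul, Complex.ofReal_zero, Complex.exp_zero, intervalIntegral.integral_const, sub_zero, Complex.real_smul, Complex.ofReal_mul, Complex.ofReal_ofNat, mul_one]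
  · have hm : (m : ℂ) * Complex.I ≠ 0 := mul_ne_zero (by exact_mod_cast h) Complex.I_ne_zero
    have e : ∀ x : ℝ, Complex.exp (((m : ℝ) * x : ℝ) * Complex.I) =
        Complex.exp ((m : ℂ) * Complex.I * x) := by
      intro x; congr 1; push_cast; ring
    simp_rw [e]
    rw [integral_exp_mul_complex hm]
    have : Complex.exp ((m : ℂ) * Complex.I * ((2 * Real.pi : ℝ) : ℂ)) = 1 := by
      rw [Complex.exp_eq_one_iff]
      exact ⟨m, by push_cast; ring⟩
    rw [this]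
    simp

lemma ex_mk (k : ℤ × ℤ) (x y : ℝ) : ex k (x, y) =
    Complex.exp (((k.1 : ℝ) * x : ℝ) * Complex.I) * Complex.exp (((k.2 : ℝ) * y : ℝ) * Complex.I) := by
  unfold ex
  rw [← Complex.exp_add]
  congr 1
  push_cast
  ring

lemma int2_ex (k : ℤ × ℤ) : int2 (ex k) = if k = 0 then ((4 * Real.pi ^ 2 : ℝ) : ℂ) else 0 := by
  rw [int2_eq (continuous_ex k)]
  simp_rw [ex_mk, intervalIntegral.integral_const_mul, integral_exp_int,
    intervalIntegral.integral_mul_const, integral_exp_int]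
  by_cases h1 : k.1 = 0
  · by_cases h2 : k.2 = 0
    · have : k = 0 := Prod.ext h1 h2
      rw [if_pos h1, if_pos h2, if_pos this]
      push_cast; ring
    · have : k ≠ 0 := by rintro rfl; exact h2 rfl
      rw [if_neg h2, if_neg this, mul_zero]
  · have : k ≠ 0 := by rintro rfl; exact h1 rfl
    rw [if_neg h1, if_neg this, zero_mul]

lemma four_pi_ne : ((4 * Real.pi ^ 2 : ℝ) : ℂ) ≠ 0 := by
  have : (4 * Real.pi ^ 2 : ℝ) ≠ 0 := by positivity
  exact_mod_cast this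

lemma continuous_evS {c : ℤ × ℤ → ℂ} (h : Summable fun k => ‖c k‖) : Continuous (evS c) := by
  unfold evS
  refine continuous_tsum (fun k => (continuous_const.mul (continuous_ex k))) h (fun k p => ?_)
  rw [norm_mul, norm_ex, mul_one]

/-- the Fourier coefficients of an absolutely convergent Fourier series -/
lemma fc_evS {c : ℤ × ℤ → ℂ} (h : Summable fun k => ‖c k‖) (k : ℤ × ℤ) : fc (evS c) k = c k := by
  unfold fc
  have hF : ∀ l : ℤ × ℤ, Integrable (fun p => c l * ex (l - k) p)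
      ((volume.prod volume).restrict SS) := fun l =>
    integrableOn_SS (continuous_const.mul (continuous_ex _))
  have hS : Summable fun l : ℤ × ℤ => ∫ p, ‖c l * ex (l - k) p‖
      ∂((volume.prod volume).restrict SS) := by
    have : ∀ l : ℤ × ℤ, ∫ p, ‖c l * ex (l - k) p‖ ∂((volume.prod volume).restrict SS) =
        ‖c l‖ * ∫ p : ℝ × ℝ, (1 : ℝ) ∂((volume.prod volume).restrict SS) := by
      intro l
      rw [← integral_const_mul]
      refine integral_congr_ae (Filter.Eventually.of_forall fun p => ?_)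
      simp [norm_ex]
    simp_rw [this]
    exact h.mul_right _
  have key := hasSum_integral_of_summable_integral_norm hF hS
  have e1 : int2 (fun p => evS c p * ex (-k) p) =
      ∫ p, ∑' l, c l * ex (l - k) p ∂((volume.prod volume).restrict SS) := by
    unfold int2
    refine integral_congr_ae (Filter.Eventually.of_forall fun p => ?_)
    simp only [evS]
    rw [← tsum_mul_right]
    refine tsum_congr fun l => ?_
    rw [sub_eq_add_neg, ex_add]; ring
  rw [e1, ← key.tsum_eq, tsum_eq_single k]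
  · have : (∫ p, c k * ex (k - k) p ∂((volume.prod volume).restrict SS)) = c k * int2 (ex 0) := by
      rw [sub_self]; exact integral_const_mul _ _
    rw [this, int2_ex, if_pos rfl]
    have := four_pi_ne
    field_simp
  · intro l hl
    have : (∫ p, c l * ex (l - k) p ∂((volume.prod volume).restrict SS)) =
        c l * int2 (ex (l - k)) := integral_const_mul _ _
    rw [this, int2_ex, if_neg (sub_ne_zero.mpr hl), mul_zero]

/-! ### integration by parts -/

lemma hasDerivAt_fst {g : ℝ × ℝ → ℂ} (hg : Differentiable ℝ g) (x y : ℝ) :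
    HasDerivAt (fun t => g (t, y)) (fderiv ℝ g (x, y) (1, 0)) x := by
  have h1 : HasDerivAt (fun t : ℝ => (t, y)) ((1 : ℝ), (0 : ℝ)) x :=
    (hasDerivAt_id x).prodMk (hasDerivAt_const x y)
  exact (hg (x, y)).hasFDerivAt.comp_hasDerivAt x h1

lemma hasDerivAt_snd {g : ℝ × ℝ → ℂ} (hg : Differentiable ℝ g) (x y : ℝ) :
    HasDerivAt (fun t => g (x, t)) (fderiv ℝ g (x, y) (0, 1)) y := by
  have h1 : HasDerivAt (fun t : ℝ => (x, t)) ((0 : ℝ), (1 : ℝ)) y :=
    (hasDerivAt_const y x).prodMk (hasDerivAt_id y)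
  exact (hg (x, y)).hasFDerivAt.comp_hasDerivAt y h1

variable {g : ℝ × ℝ → ℂ}

lemma int2_fderiv_fst (hg : ContDiff ℝ 1 g) (hp : ∀ p : ℝ × ℝ, g (p + (2 * Real.pi, 0)) = g p) :
    int2 (fun p => fderiv ℝ g p (1, 0)) = 0 := by
  have hc : Continuous fun p => fderiv ℝ g p (1, 0) :=
    (hg.continuous_fderiv one_ne_zero).clm_apply continuous_const
  rw [int2_eq' hc]
  have : ∀ y : ℝ, ∫ x in (0 : ℝ)..2 * Real.pi, fderiv ℝ g (x, y) (1, 0) = 0 := by
    intro y
    rw [intervalIntegral.integral_eq_sub_of_hasDerivAt (f := fun t => g (t, y))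
      (fun x _ => hasDerivAt_fst (hg.differentiable one_ne_zero) x y)
      ((hc.comp (continuous_id.prodMk continuous_const)).intervalIntegrable _ _)]
    have := hp (0, y)
    simp only [Prod.mk_add_mk, zero_add, add_zero] at this
    rw [this, sub_self]
  simp_rw [this]
  simp

lemma int2_fderiv_snd (hg : ContDiff ℝ 1 g) (hp : ∀ p : ℝ × ℝ, g (p + (0, 2 * Real.pi)) = g p) :
    int2 (fun p => fderiv ℝ g p (0, 1)) = 0 := by
  have hc : Continuous fun p => fderiv ℝ g p (0, 1) :=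
    (hg.continuous_fderiv one_ne_zero).clm_apply continuous_const
  rw [int2_eq hc]
  have : ∀ x : ℝ, ∫ y in (0 : ℝ)..2 * Real.pi, fderiv ℝ g (x, y) (0, 1) = 0 := by
    intro x
    rw [intervalIntegral.integral_eq_sub_of_hasDerivAt (f := fun t => g (x, t))
      (fun y _ => hasDerivAt_snd (hg.differentiable one_ne_zero) x y)
      ((hc.comp (continuous_const.prodMk continuous_id)).intervalIntegrable _ _)]
    have := hp (x, 0)
    simp only [Prod.mk_add_mk, zero_add, add_zero] at this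
    rw [this, sub_self]
  simp_rw [this]
  simp

lemma contDiff_ex (k : ℤ × ℤ) {n : WithTop ℕ∞} : ContDiff ℝ n (ex k) := by
  unfold ex
  refine Complex.contDiff_exp.comp (ContDiff.mul (Complex.ofRealCLM.contDiff.comp ?_)
    contDiff_const)
  exact (contDiff_const.mul contDiff_fst).add (contDiff_const.mul contDiff_snd)

lemma int2_add {g h : ℝ × ℝ → ℂ} (hg : Continuous g) (hh : Continuous h) :
    int2 (fun p => g p + h p) = int2 g + int2 h :=
  integral_add (integrableOn_SS hg) (integrableOn_SS hh)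

lemma int2_const_mul (c : ℂ) (g : ℝ × ℝ → ℂ) : int2 (fun p => c * g p) = c * int2 g :=
  integral_const_mul _ _

/-- Fourier coefficients of `∂_x g` -/
lemma fc_fst (hg : ContDiff ℝ 1 g) (hp : ∀ p : ℝ × ℝ, g (p + (2 * Real.pi, 0)) = g p)
    (k : ℤ × ℤ) : fc (fun p => fderiv ℝ g p (1, 0)) k = Complex.I * k.1 * fc g k := by
  have hc : Continuous fun p => fderiv ℝ g p (1, 0) :=
    (hg.continuous_fderiv one_ne_zero).clm_apply continuous_const
  have h := int2_fderiv_fst (g := fun p => g p * ex (-k) p) (hg.mul (contDiff_ex _))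
    (fun p => by rw [hp, RW.ex_periodic1])
  have e : ∀ p, fderiv ℝ (fun p => g p * ex (-k) p) p (1, 0) =
      fderiv ℝ g p (1, 0) * ex (-k) p + (-(Complex.I * k.1)) * (g p * ex (-k) p) := by
    intro p
    have := ((hg.differentiable one_ne_zero p).hasFDerivAt.mul (hasFDerivAt_ex (-k) p)).fderiv
    have e2 : (fun p => g p * ex (-k) p) = g * ex (-k) := rfl
    rw [e2, this]
    simp
    ring
  simp_rw [e] at h
  rw [int2_add (g := fun p => fderiv ℝ g p (1, 0) * ex (-k) p)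
    (h := fun p => (-(Complex.I * k.1)) * (g p * ex (-k) p)) (hc.mul (continuous_ex _))
    (continuous_const.mul (hg.continuous.mul (continuous_ex _))), int2_const_mul] at h
  unfold fc
  have h' : int2 (fun p => fderiv ℝ g p (1, 0) * ex (-k) p) =
      Complex.I * k.1 * int2 (fun p => g p * ex (-k) p) := by
    linear_combination h
  rw [h']; ring

/-- Fourier coefficients of `∂_y g` -/
lemma fc_snd (hg : ContDiff ℝ 1 g) (hp : ∀ p : ℝ × ℝ, g (p + (0, 2 * Real.pi)) = g p)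
    (k : ℤ × ℤ) : fc (fun p => fderiv ℝ g p (0, 1)) k = Complex.I * k.2 * fc g k := by
  have hc : Continuous fun p => fderiv ℝ g p (0, 1) :=
    (hg.continuous_fderiv one_ne_zero).clm_apply continuous_const
  have h := int2_fderiv_snd (g := fun p => g p * ex (-k) p) (hg.mul (contDiff_ex _))
    (fun p => by rw [hp, RW.ex_periodic2])
  have e : ∀ p, fderiv ℝ (fun p => g p * ex (-k) p) p (0, 1) =
      fderiv ℝ g p (0, 1) * ex (-k) p + (-(Complex.I * k.2)) * (g p * ex (-k) p) := by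
    intro p
    have := ((hg.differentiable one_ne_zero p).hasFDerivAt.mul (hasFDerivAt_ex (-k) p)).fderiv
    have e2 : (fun p => g p * ex (-k) p) = g * ex (-k) := rfl
    rw [e2, this]
    simp
    ring
  simp_rw [e] at h
  rw [int2_add (g := fun p => fderiv ℝ g p (0, 1) * ex (-k) p)
    (h := fun p => (-(Complex.I * k.2)) * (g p * ex (-k) p)) (hc.mul (continuous_ex _))
    (continuous_const.mul (hg.continuous.mul (continuous_ex _))), int2_const_mul] at h
  unfold fc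
  have h' : int2 (fun p => fderiv ℝ g p (0, 1) * ex (-k) p) =
      Complex.I * k.2 * int2 (fun p => g p * ex (-k) p) := by
    linear_combination h
  rw [h']; ring

/-! ### uniqueness -/

/-- A continuous `2π`-periodic function with vanishing Fourier coefficients vanishes. -/
lemma eq_zero_1d {h : ℝ → ℂ} (hc : Continuous h) (hp : ∀ x, h (x + 2 * Real.pi) = h x)
    (h0 : ∀ m : ℤ, ∫ x in (0 : ℝ)..2 * Real.pi,
      h x * Complex.exp (((m : ℝ) * x : ℝ) * Complex.I) = 0) (x : ℝ) : h x = 0 := by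
  have : Fact (0 < 2 * Real.pi) := ⟨two_pi_pos'⟩
  have hper : Function.Periodic h (2 * Real.pi) := hp
  set H : C(AddCircle (2 * Real.pi), ℂ) :=
    ⟨hper.lift, continuous_coinduced_dom.mpr hc⟩ with hH
  have hco : ∀ n : ℤ, fourierCoeff H n = 0 := by
    intro n
    rw [fourierCoeff_eq_intervalIntegral _ _ 0]
    have : ∫ x in (0 : ℝ)..0 + 2 * Real.pi,
        (fourier (-n) (x : AddCircle (2 * Real.pi)) : ℂ) • H (x : AddCircle (2 * Real.pi)) = 0 := by
      rw [zero_add, ← h0 (-n)]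
      refine intervalIntegral.integral_congr fun t _ => ?_
      simp only [fourier_coe_apply, smul_eq_mul, hH, ContinuousMap.coe_mk, hper.lift_coe]
      rw [mul_comm]
      congr 2
      have : (Real.pi : ℂ) ≠ 0 := by exact_mod_cast Real.pi_ne_zero
      push_cast
      field_simp
    rw [this, smul_zero]
  have hs : Summable (fourierCoeff H) := by
    have : fourierCoeff H = fun _ => 0 := funext hco
    rw [this]; exact summable_zero
  have h2 := has_pointwise_sum_fourier_series_of_summable hs (x : AddCircle (2 * Real.pi))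
  simp_rw [hco, zero_smul] at h2
  have h3 := h2.unique hasSum_zero
  simpa [hH] using h3

lemma eq_zero_2d (hc : Continuous g) (hp : Periodic2 (2 * Real.pi, 0) (0, 2 * Real.pi) g)
    (h0 : ∀ k, fc g k = 0) (p : ℝ × ℝ) : g p = 0 := by
  obtain ⟨hp1, hp2⟩ := hp
  -- inner coefficient
  have hi : ∀ (m : ℤ) (y : ℝ), ∫ x in (0 : ℝ)..2 * Real.pi,
      g (x, y) * Complex.exp (((m : ℝ) * x : ℝ) * Complex.I) = 0 := by
    intro m
    refine eq_zero_1d (h := fun y => ∫ x in (0 : ℝ)..2 * Real.pi,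
      g (x, y) * Complex.exp (((m : ℝ) * x : ℝ) * Complex.I)) ?_ ?_ ?_
    · refine intervalIntegral.continuous_parametric_intervalIntegral_of_continuous' ?_ _ _
      have : Continuous fun q : ℝ × ℝ => g (q.2, q.1) := hc.comp continuous_swap
      refine this.mul ?_
      fun_prop
    · intro y
      refine intervalIntegral.integral_congr fun x _ => ?_
      have := hp2 (x, y)
      simp only [Prod.mk_add_mk, add_zero] at this
      simp only [this]
    · intro n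
      have h1 := h0 (-m, -n)
      unfold fc at h1
      have h2 : int2 (fun p => g p * ex (-(-m, -n)) p) = 0 := by
        rcases mul_eq_zero.mp h1 with h | h
        · exact absurd h (inv_ne_zero four_pi_ne)
        · exact h
      rw [int2_eq' (g := fun p => g p * ex (-(-m, -n)) p) (hc.mul (continuous_ex _))] at h2
      rw [← h2]
      refine intervalIntegral.integral_congr fun y _ => ?_
      rw [← intervalIntegral.integral_mul_const]
      refine intervalIntegral.integral_congr fun x _ => ?_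
      simp only [ex_mk, Prod.neg_mk, neg_neg]
      ring
  obtain ⟨x, y⟩ := p
  refine eq_zero_1d (h := fun x => g (x, y)) (hc.comp (continuous_id.prodMk continuous_const)) ?_
    (fun m => hi m y) x
  intro x
  have := hp1 (x, y)
  simpa using this

/-- **Fourier inversion** for continuous functions with summable coefficients. -/
lemma evS_fc (hc : Continuous g) (hp : Periodic2 (2 * Real.pi, 0) (0, 2 * Real.pi) g)
    (hs : Summable fun k => ‖fc g k‖) (p : ℝ × ℝ) : evS (fc g) p = g p := by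
  have h1 : Continuous fun p => g p - evS (fc g) p := hc.sub (continuous_evS hs)
  have h2 := eq_zero_2d (g := fun p => g p - evS (fc g) p) h1
    ⟨fun p => by
      simp only [hp.1 p]; congr 1
      unfold evS; simp only [RW.ex_periodic1],
     fun p => by
      simp only [hp.2 p]; congr 1
      unfold evS; simp only [RW.ex_periodic2]⟩
    (fun k => by
      have h3 := fc_evS hs k
      unfold fc at h3 ⊢
      have e : (fun p => (g p - evS (fun k => ((4 * Real.pi ^ 2 : ℝ) : ℂ)⁻¹ *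
          int2 (fun p => g p * ex (-k) p)) p) * ex (-k) p) =
          fun p => g p * ex (-k) p + (-1) * (evS (fun k => ((4 * Real.pi ^ 2 : ℝ) : ℂ)⁻¹ *
          int2 (fun p => g p * ex (-k) p)) p * ex (-k) p) := by
        funext p; ring
      have hcont : Continuous (evS (fun k => ((4 * Real.pi ^ 2 : ℝ) : ℂ)⁻¹ *
          int2 (fun p => g p * ex (-k) p))) := continuous_evS hs
      rw [e, int2_add (g := fun p => g p * ex (-k) p)
        (h := fun p => (-1) * (evS (fun k => ((4 * Real.pi ^ 2 : ℝ) : ℂ)⁻¹ *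
          int2 (fun p => g p * ex (-k) p)) p * ex (-k) p)) (hc.mul (continuous_ex _))
        (continuous_const.mul (hcont.mul (continuous_ex _))), int2_const_mul, mul_add,
        mul_left_comm, h3]
      ring) p
  exact (sub_eq_zero.mp h2).symm

/-! ### rapid decay -/

/-- smooth doubly periodic -/
def SPer (g : ℝ × ℝ → ℂ) : Prop :=
  ContDiff ℝ ∞ g ∧ Periodic2 (2 * Real.pi, 0) (0, 2 * Real.pi) g

lemma SPer.fst (h : SPer g) : SPer (fun p => fderiv ℝ g p (1, 0)) := by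
  refine ⟨?_, fun p => ?_, fun p => ?_⟩
  · exact (h.1.fderiv_right (m := ∞) (by simp)).clm_apply contDiff_const
  · have : (fun q => g (q + (2 * Real.pi, 0))) = g := funext h.2.1
    have h2 := fderiv_comp_add_right (𝕜 := ℝ) (f := g) (x := p) ((2 * Real.pi, 0) : ℝ × ℝ)
    rw [this] at h2
    simp only [← h2]
  · have : (fun q => g (q + (0, 2 * Real.pi))) = g := funext h.2.2
    have h2 := fderiv_comp_add_right (𝕜 := ℝ) (f := g) (x := p) ((0, 2 * Real.pi) : ℝ × ℝ)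
    rw [this] at h2
    simp only [← h2]

lemma SPer.snd (h : SPer g) : SPer (fun p => fderiv ℝ g p (0, 1)) := by
  refine ⟨?_, fun p => ?_, fun p => ?_⟩
  · exact (h.1.fderiv_right (m := ∞) (by simp)).clm_apply contDiff_const
  · have : (fun q => g (q + (2 * Real.pi, 0))) = g := funext h.2.1
    have h2 := fderiv_comp_add_right (𝕜 := ℝ) (f := g) (x := p) ((2 * Real.pi, 0) : ℝ × ℝ)
    rw [this] at h2
    simp only [← h2]
  · have : (fun q => g (q + (0, 2 * Real.pi))) = g := funext h.2.2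
    have h2 := fderiv_comp_add_right (𝕜 := ℝ) (f := g) (x := p) ((0, 2 * Real.pi) : ℝ × ℝ)
    rw [this] at h2
    simp only [← h2]

lemma SPer.sub {g h : ℝ × ℝ → ℂ} (hg : SPer g) (hh : SPer h) : SPer (fun p => g p - h p) :=
  ⟨hg.1.sub hh.1, fun p => by simp only [hg.2.1 p, hh.2.1 p],
    fun p => by simp only [hg.2.2 p, hh.2.2 p]⟩

lemma SPer.one (h : SPer g) : ContDiff ℝ 1 g := h.1.of_le (by simp only [WithTop.one_le_coe, le_top])

lemma fc_sub {g h : ℝ × ℝ → ℂ} (hg : Continuous g) (hh : Continuous h) (k : ℤ × ℤ) :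
    fc (fun p => g p - h p) k = fc g k - fc h k := by
  unfold fc
  have e : (fun p => (g p - h p) * ex (-k) p) =
      fun p => g p * ex (-k) p + (-1) * (h p * ex (-k) p) := by
    funext p; ring
  rw [e, int2_add (g := fun p => g p * ex (-k) p) (h := fun p => (-1) * (h p * ex (-k) p))
    (hg.mul (continuous_ex _)) (continuous_const.mul (hh.mul (continuous_ex _))), int2_const_mul]
  ring

/-- `(1 - Δ) g` -/
def LL (g : ℝ × ℝ → ℂ) : ℝ × ℝ → ℂ := fun p =>
  g p - fderiv ℝ (fun q => fderiv ℝ g q (1, 0)) p (1, 0) -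
    fderiv ℝ (fun q => fderiv ℝ g q (0, 1)) p (0, 1)

lemma SPer.LL (h : SPer g) : SPer (LL g) := (h.sub h.fst.fst).sub h.snd.snd

lemma fc_LL (h : SPer g) (k : ℤ × ℤ) : fc (LL g) k = (RW.ell k : ℂ) * fc g k := by
  unfold LL
  rw [fc_sub (g := fun p => g p - fderiv ℝ (fun q => fderiv ℝ g q (1, 0)) p (1, 0))
      (h := fun p => fderiv ℝ (fun q => fderiv ℝ g q (0, 1)) p (0, 1))
      (h.sub h.fst.fst).1.continuous h.snd.snd.1.continuous,
    fc_sub (g := g) (h := fun p => fderiv ℝ (fun q => fderiv ℝ g q (1, 0)) p (1, 0))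
      h.1.continuous h.fst.fst.1.continuous,
    fc_fst h.fst.one h.fst.2.1, fc_snd h.snd.one h.snd.2.2, fc_fst h.one h.2.1,
    fc_snd h.one h.2.2]
  have : (RW.ell k : ℂ) = 1 + (k.1 : ℂ) ^ 2 + (k.2 : ℂ) ^ 2 := by
    unfold RW.ell; push_cast; ring
  rw [this]
  ring_nf
  rw [Complex.I_sq]
  ring

lemma norm_fc_le (g : ℝ × ℝ → ℂ) : ∃ C : ℝ, ∀ k, ‖fc g k‖ ≤ C := by
  refine ⟨‖((4 * Real.pi ^ 2 : ℝ) : ℂ)⁻¹‖ * ∫ p, ‖g p‖ ∂((volume.prod volume).restrict SS),
    fun k => ?_⟩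
  unfold fc int2
  rw [norm_mul]
  refine mul_le_mul_of_nonneg_left ?_ (norm_nonneg _)
  refine (norm_integral_le_integral_norm _).trans (le_of_eq ?_)
  refine integral_congr_ae (Filter.Eventually.of_forall fun p => ?_)
  simp [norm_ex]

lemma fc_decay (n : ℕ) : ∀ {g : ℝ × ℝ → ℂ}, SPer g → ∃ C : ℝ, ∀ k, RW.ell k ^ n * ‖fc g k‖ ≤ C := by
  induction n with
  | zero =>
    intro g hg
    obtain ⟨C, hC⟩ := norm_fc_le g
    exact ⟨C, fun k => by simpa only [pow_zero, one_mul] using hC k⟩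
  | succ n ih =>
    intro g hg
    obtain ⟨C, hC⟩ := ih hg.LL
    refine ⟨C, fun k => ?_⟩
    have h1 := hC k
    rw [fc_LL hg, norm_mul, Complex.norm_real, Real.norm_of_nonneg (RW.ell_pos k).le] at h1
    rw [pow_succ]
    linarith only [h1]

lemma summable_inv_fsz : Summable fun k : ℤ × ℤ => (fsz k ^ 4)⁻¹ := by
  have h1 : Summable fun n : ℤ => ((1 + |(n : ℝ)|) ^ 2)⁻¹ := by
    have h0 : Summable fun n : ℤ => 1 / |(n : ℝ) + 0| ^ (2 : ℝ) :=
      (Real.summable_one_div_int_add_rpow 0 2).mpr (by norm_num)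
    have h0' : Summable fun n : ℤ => 1 / |(n : ℝ) + 0| ^ (2 : ℝ) + (if n = 0 then 1 else 0) := by
      refine h0.add ?_
      exact summable_of_ne_finset_zero (s := {0}) (fun n hn => by
        rw [if_neg]; simpa using hn)
    refine Summable.of_nonneg_of_le (fun n => by positivity) (fun n => ?_) h0'
    by_cases hn : n = 0
    · subst hn; simp
    · rw [if_neg hn, add_zero, add_zero, one_div]
      have h2 : (0 : ℝ) < |(n : ℝ)| := abs_pos.mpr (by exact_mod_cast hn)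
      have h3 : |(n : ℝ)| ^ (2 : ℝ) = |(n : ℝ)| ^ 2 := by
        rw [← Real.rpow_natCast]; norm_num
      rw [h3]
      apply inv_anti₀ (by (clear * - hn; positivity))
      apply pow_le_pow_left₀ h2.le
      linarith only []
  have h2 := h1.mul_of_nonneg h1 (fun n => by positivity) (fun n => by positivity)
  refine Summable.of_nonneg_of_le (fun k => by have := fsz_pos k; positivity) (fun k => ?_) h2
  rw [← mul_inv, ← mul_pow]
  have a1 := abs_nonneg (k.1 : ℝ)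
  have a2 := abs_nonneg (k.2 : ℝ)
  apply inv_anti₀ (by (clear * -; positivity))
  have : (1 + |(k.1 : ℝ)|) * (1 + |(k.2 : ℝ)|) ≤ fsz k ^ 2 := by
    unfold fsz; linarith only [mul_nonneg (sub_nonneg.2 a2) (sub_nonneg.2 a2), mul_nonneg (sub_nonneg.2 a1) (sub_nonneg.2 a2), mul_nonneg (sub_nonneg.2 a1) (sub_nonneg.2 a1), a2, a1]
  calc ((1 + |(k.1 : ℝ)|) * (1 + |(k.2 : ℝ)|)) ^ 2 ≤ (fsz k ^ 2) ^ 2 :=
        pow_le_pow_left₀ (by (clear * -; positivity)) this 2
    _ = fsz k ^ 4 := by ring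

/-- the Fourier coefficients of a smooth doubly periodic function decrease rapidly -/
lemma fc_le (h : SPer g) (s : ℕ) : ∃ C : ℝ, 0 ≤ C ∧ ∀ k, fsz k ^ s * ‖fc g k‖ ≤ C := by
  obtain ⟨C, hC⟩ := fc_decay s h
  refine ⟨3 ^ s * |C|, by positivity, fun k => ?_⟩
  have h1 := one_le_fsz k
  have h2 : fsz k ^ s ≤ 3 ^ s * RW.ell k ^ s := by
    rw [← mul_pow]
    refine pow_le_pow_left₀ (fsz_pos k).le ?_ s
    calc fsz k ≤ fsz k ^ 2 := by nlinarith only [h1]
      _ ≤ 3 * RW.ell k := RW.fsz_sq_le k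
  calc fsz k ^ s * ‖fc g k‖ ≤ (3 ^ s * RW.ell k ^ s) * ‖fc g k‖ :=
        mul_le_mul_of_nonneg_right h2 (norm_nonneg _)
    _ = 3 ^ s * (RW.ell k ^ s * ‖fc g k‖) := by ring
    _ ≤ 3 ^ s * |C| := mul_le_mul_of_nonneg_left ((hC k).trans (le_abs_self C)) (by positivity)

lemma rapid_fc (h : SPer g) : Rapid (fc g) := by
  intro s
  obtain ⟨C, hC0, hC⟩ := fc_le h (s + 4)
  refine Summable.of_nonneg_of_le (fun k => by have := fsz_pos k; (clear * - this; positivity)) (fun k => ?_)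
    (summable_inv_fsz.mul_left C)
  have h1 := fsz_pos k
  have h2 := hC k
  rw [← div_eq_mul_inv, le_div_iff₀ (by positivity)]
  calc fsz k ^ s * ‖fc g k‖ * fsz k ^ 4 = fsz k ^ (s + 4) * ‖fc g k‖ := by ring
    _ ≤ C := h2

lemma evS_fc' (h : SPer g) (p : ℝ × ℝ) : evS (fc g) p = g p :=
  evS_fc h.1.continuous h.2 (rapid_fc h).summable_norm p

/-- coefficients of real functions -/
lemma fc_neg_real {f : ℝ × ℝ → ℝ} (k : ℤ × ℤ) :
    fc (fun p => (f p : ℂ)) (-k) = conj (fc (fun p => (f p : ℂ)) k) := by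
  unfold fc int2
  rw [map_mul, ← integral_conj, map_inv₀, Complex.conj_ofReal]
  congr 1
  refine integral_congr_ae (Filter.Eventually.of_forall fun p => ?_)
  simp only [neg_neg, ex_neg, map_mul, Complex.conj_ofReal, Complex.conj_conj]

end FS

end Vale.Agent.P205
end
end
end

section

section

open scoped ComplexConjugate ContDiff
open MeasureTheory

noncomputable section

namespace Vale.Agent.P205

namespace WX

/-- `|k₁| + |k₂|` -/
def ab (k : ℤ × ℤ) : ℝ := |(k.1 : ℝ)| + |(k.2 : ℝ)|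

lemma ab_nonneg (k : ℤ × ℤ) : 0 ≤ ab k := by unfold ab; positivity

lemma ab_neg (k : ℤ × ℤ) : ab (-k) = ab k := by simp only [ab, Prod.fst_neg, Int.cast_neg, abs_neg, Prod.snd_neg]

lemma ab_add (k l : ℤ × ℤ) : ab (k + l) ≤ ab k + ab l := by
  unfold ab
  have h1 : |((k + l).1 : ℝ)| ≤ |(k.1 : ℝ)| + |(l.1 : ℝ)| := by
    simpa only [Prod.fst_add, Int.cast_add] using abs_add_le (k.1 : ℝ) (l.1 : ℝ)
  have h2 : |((k + l).2 : ℝ)| ≤ |(k.2 : ℝ)| + |(l.2 : ℝ)| := by
    simpa only [Prod.snd_add, Int.cast_add] using abs_add_le (k.2 : ℝ) (l.2 : ℝ)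
  linarith only [h1, h2]

lemma fsz_eq (k : ℤ × ℤ) : fsz k = 1 + ab k := by unfold fsz ab; ring

lemma pow_conv {a ε : ℝ} (ha : 0 ≤ a) (h0 : 0 ≤ ε) (h1 : ε ≤ 1) (s : ℕ) :
    (1 + ε * a) ^ s - 1 ≤ ε * ((1 + a) ^ s - 1) := by
  induction s with
  | zero => simp
  | succ s ih =>
    have hA : 1 ≤ (1 + a) ^ s := one_le_pow₀ (by linarith only [ha])
    have h2 : (1 + ε * a) ^ s ≤ 1 + ε * ((1 + a) ^ s - 1) := by linarith
    have h3 : (0 : ℝ) ≤ 1 + ε * a := by (clear * - h0 ha; positivity)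
    rw [pow_succ, pow_succ]
    have h4 := mul_le_mul_of_nonneg_right h2 h3
    linarith only [mul_nonneg (mul_nonneg h0 (sub_nonneg.mpr h1)) (mul_nonneg ha (sub_nonneg.mpr hA)), h4]

lemma term_bdd {ε : ℕ → ℝ} (h0 : ∀ s, 0 ≤ ε s) (h1 : ∀ s, ε s ≤ 1 / ((s : ℝ) + 1)) (k : ℤ × ℤ) :
    BddAbove (Set.range fun s : ℕ => (1 + ε s * ab k) ^ s) := by
  refine ⟨Real.exp (ab k), ?_⟩
  rintro _ ⟨s, rfl⟩
  have ha := ab_nonneg k
  have hs : (0 : ℝ) < (s : ℝ) + 1 := by positivity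
  have h2 : 1 + ε s * ab k ≤ Real.exp (ab k / ((s : ℝ) + 1)) := by
    calc 1 + ε s * ab k ≤ 1 + 1 / ((s : ℝ) + 1) * ab k := by
          have := mul_le_mul_of_nonneg_right (h1 s) ha; linarith only [this]
      _ = ab k / ((s : ℝ) + 1) + 1 := by ring
      _ ≤ _ := Real.add_one_le_exp _
  have h3 : (0 : ℝ) ≤ 1 + ε s * ab k := by have := h0 s; positivity
  calc (1 + ε s * ab k) ^ s ≤ (Real.exp (ab k / ((s : ℝ) + 1))) ^ s := pow_le_pow_left₀ h3 h2 s
    _ = Real.exp (s * (ab k / ((s : ℝ) + 1))) := by rw [← Real.exp_nat_mul]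
    _ ≤ Real.exp (ab k) := by
        apply Real.exp_le_exp.mpr
        rw [mul_div_assoc', div_le_iff₀ hs]
        nlinarith only [ha]

/-- the weight `sup_s (1 + ε_s |k|)^s` -/
def mkW (ε : ℕ → ℝ) (h0 : ∀ s, 0 ≤ ε s) (h1 : ∀ s, ε s ≤ 1 / ((s : ℝ) + 1)) : Wt where
  w k := ⨆ s : ℕ, (1 + ε s * ab k) ^ s
  one_le k := by
    refine le_trans ?_ (le_ciSup (term_bdd h0 h1 k) 0)
    simp
  neg k := by simp only [ab_neg]
  add_le k l := by
    refine ciSup_le fun s => ?_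
    have hk := ab_nonneg k
    have hl := ab_nonneg l
    have he := h0 s
    have e1 : 1 + ε s * ab (k + l) ≤ (1 + ε s * ab k) * (1 + ε s * ab l) := by
      have := mul_le_mul_of_nonneg_left (ab_add k l) he
      linarith only [mul_nonneg (mul_nonneg he hk) (mul_nonneg he hl), this]
    have e0 : 0 ≤ 1 + ε s * ab (k + l) := by have := ab_nonneg (k + l); positivity
    calc (1 + ε s * ab (k + l)) ^ s ≤ ((1 + ε s * ab k) * (1 + ε s * ab l)) ^ s :=
          pow_le_pow_left₀ e0 e1 s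
      _ = (1 + ε s * ab k) ^ s * (1 + ε s * ab l) ^ s := by rw [mul_pow]
      _ ≤ (⨆ s : ℕ, (1 + ε s * ab k) ^ s) * (⨆ s : ℕ, (1 + ε s * ab l) ^ s) := by
          refine mul_le_mul (le_ciSup (term_bdd h0 h1 k) s) (le_ciSup (term_bdd h0 h1 l) s)
            (by positivity) ?_
          exact le_trans (by positivity : (0 : ℝ) ≤ (1 + ε s * ab k) ^ s)
            (le_ciSup (term_bdd h0 h1 k) s)

/-- Existence of a weight beating all polynomials but still summable against a given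
rapidly decreasing sequence. -/
theorem exists_weight (c : ℤ × ℤ → ℝ) (hc0 : ∀ k, 0 ≤ c k)
    (hc : ∀ s : ℕ, Summable fun k => fsz k ^ s * c k) {δ : ℝ} (hδ : 0 < δ) :
    ∃ W : Wt, W.Sup ∧ W.w 0 = 1 ∧ Summable (fun k => c k * W.w k) ∧
      Summable (fun k => c k * (W.w k - 1)) ∧ ∑' k, c k * (W.w k - 1) ≤ δ := by
  set M : ℕ → ℝ := fun s => ∑' k, fsz k ^ s * c k with hM
  have hM0 : ∀ s, 0 ≤ M s := fun s => tsum_nonneg fun k =>
    mul_nonneg (pow_nonneg (fsz_pos k).le s) (hc0 k)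
  set ε : ℕ → ℝ := fun s => min (1 / ((s : ℝ) + 1)) (δ * (1 / 2) ^ (s + 1) / (M s + 1)) with hε
  have hεpos : ∀ s, 0 < ε s := by
    intro s
    have := hM0 s
    simp only [hε]
    refine lt_min (by (clear * -; positivity)) (by positivity)
  have h0 : ∀ s, 0 ≤ ε s := fun s => (hεpos s).le
  have h1 : ∀ s, ε s ≤ 1 / ((s : ℝ) + 1) := fun s => min_le_left _ _
  have h1' : ∀ s, ε s ≤ 1 := by
    intro s
    refine (h1 s).trans ?_
    rw [div_le_one (by positivity)]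
    have : (0 : ℝ) ≤ s := Nat.cast_nonneg s
    linarith only []
  have h2 : ∀ s, ε s * M s ≤ δ * (1 / 2) ^ (s + 1) := by
    intro s
    have hMs := hM0 s
    have : ε s ≤ δ * (1 / 2) ^ (s + 1) / (M s + 1) := min_le_right _ _
    calc ε s * M s ≤ (δ * (1 / 2) ^ (s + 1) / (M s + 1)) * M s :=
          mul_le_mul_of_nonneg_right this hMs
      _ = (δ * (1 / 2) ^ (s + 1)) * (M s / (M s + 1)) := by ring
      _ ≤ (δ * (1 / 2) ^ (s + 1)) * 1 := by
          refine mul_le_mul_of_nonneg_left ?_ (by positivity)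
          rw [div_le_one (by linarith only [hMs])]; linarith only []
      _ = _ := mul_one _
  set W : Wt := mkW ε h0 h1 with hW
  have hWw : ∀ k, W.w k = ⨆ s : ℕ, (1 + ε s * ab k) ^ s := fun k => rfl
  -- the double family
  set u : ℕ × (ℤ × ℤ) → ℝ := fun q => c q.2 * ((1 + ε q.1 * ab q.2) ^ q.1 - 1) with hu
  have hu0 : ∀ q, 0 ≤ u q := by
    intro q
    have ha := ab_nonneg q.2
    have he := h0 q.1
    have : 1 ≤ (1 + ε q.1 * ab q.2) ^ q.1 := one_le_pow₀ (by nlinarith only [he, ha])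
    exact mul_nonneg (hc0 _) (by linarith only [this])
  have hule : ∀ s k, u (s, k) ≤ ε s * (fsz k ^ s * c k) := by
    intro s k
    have := pow_conv (ab_nonneg k) (h0 s) (h1' s) s
    simp only [hu]
    rw [fsz_eq]
    calc c k * ((1 + ε s * ab k) ^ s - 1) ≤ c k * (ε s * ((1 + ab k) ^ s - 1)) :=
          mul_le_mul_of_nonneg_left this (hc0 k)
      _ ≤ c k * (ε s * (1 + ab k) ^ s) := by
          refine mul_le_mul_of_nonneg_left ?_ (hc0 k)
          exact mul_le_mul_of_nonneg_left (by linarith only []) (h0 s)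
      _ = _ := by ring
  have hus : ∀ s, Summable fun k => u (s, k) := fun s =>
    Summable.of_nonneg_of_le (fun k => hu0 _) (hule s) ((hc s).mul_left _)
  have hut : ∀ s, ∑' k, u (s, k) ≤ δ * (1 / 2) ^ (s + 1) := by
    intro s
    calc ∑' k, u (s, k) ≤ ∑' k, ε s * (fsz k ^ s * c k) :=
          Summable.tsum_le_tsum (hule s) (hus s) ((hc s).mul_left _)
      _ = ε s * M s := by rw [tsum_mul_left]
      _ ≤ _ := h2 s
  have hgeo : Summable fun s : ℕ => δ * (1 / 2 : ℝ) ^ (s + 1) := by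
    have := (summable_geometric_two).mul_left (δ * (1 / 2))
    refine this.congr fun s => ?_
    rw [pow_succ]; ring
  have hgeo2 : ∑' s : ℕ, δ * (1 / 2 : ℝ) ^ (s + 1) = δ := by
    have : ∀ s : ℕ, δ * (1 / 2 : ℝ) ^ (s + 1) = (δ * (1 / 2)) * (1 / 2) ^ s := by
      intro s; rw [pow_succ]; ring
    simp_rw [this]
    rw [tsum_mul_left, tsum_geometric_two]
    ring
  have hts : Summable fun s => ∑' k, u (s, k) :=
    Summable.of_nonneg_of_le (fun s => tsum_nonneg fun k => hu0 _) hut hgeo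
  have hU : Summable u := (summable_prod_of_nonneg hu0).mpr ⟨hus, hts⟩
  have hU' : Summable fun q : (ℤ × ℤ) × ℕ => u (q.2, q.1) :=
    (Equiv.prodComm (ℤ × ℤ) ℕ).summable_iff.mpr hU
  have hk : ∀ k, Summable fun s => u (s, k) := fun k => hU'.prod_factor k
  have hkk : Summable fun k => ∑' s, u (s, k) := hU'.prod
  have htot : ∑' k, ∑' s, u (s, k) ≤ δ := by
    have e1 : ∑' k, ∑' s, u (s, k) = ∑' s, ∑' k, u (s, k) := by
      rw [← hU'.tsum_prod, ← hU.tsum_prod]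
      exact (Equiv.prodComm (ℤ × ℤ) ℕ).tsum_eq u
    rw [e1, ← hgeo2]
    exact Summable.tsum_le_tsum hut hts hgeo
  have hmain : ∀ k, c k * (W.w k - 1) ≤ ∑' s, u (s, k) := by
    intro k
    rcases (hc0 k).eq_or_lt with h | h
    · rw [← h, zero_mul]; exact tsum_nonneg fun s => hu0 _
    · have : W.w k ≤ 1 + (∑' s, u (s, k)) / c k := by
        rw [hWw]
        refine ciSup_le fun s => ?_
        have h3 : u (s, k) ≤ ∑' s, u (s, k) := (hk k).le_tsum s (fun j _ => hu0 _)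
        have h4 : (1 + ε s * ab k) ^ s - 1 ≤ (∑' s, u (s, k)) / c k := by
          rw [le_div_iff₀ h]
          calc ((1 + ε s * ab k) ^ s - 1) * c k = u (s, k) := by simp only [hu]; ring
            _ ≤ _ := h3
        linarith only [h4]
      have h5 : W.w k - 1 ≤ (∑' s, u (s, k)) / c k := by linarith only [this]
      calc c k * (W.w k - 1) ≤ c k * ((∑' s, u (s, k)) / c k) :=
            mul_le_mul_of_nonneg_left h5 h.le
        _ = _ := by (clear * - h; field_simp)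
  have hw1 : ∀ k, 0 ≤ c k * (W.w k - 1) := fun k =>
    mul_nonneg (hc0 k) (by have := W.one_le k; linarith only [this])
  have hsum1 : Summable fun k => c k * (W.w k - 1) :=
    Summable.of_nonneg_of_le hw1 hmain hkk
  refine ⟨W, ?_, ?_, ?_, hsum1, ?_⟩
  · intro s
    refine ⟨((ε s)⁻¹) ^ s, fun k => ?_⟩
    have he := hεpos s
    have ha := ab_nonneg k
    calc fsz k ^ s = ((ε s)⁻¹ * (ε s * (1 + ab k))) ^ s := by
          rw [fsz_eq]; congr 1; (clear * - he ha; field_simp)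
      _ ≤ ((ε s)⁻¹ * (1 + ε s * ab k)) ^ s := by
          refine pow_le_pow_left₀ (by (clear * - he ha; positivity)) ?_ s
          refine mul_le_mul_of_nonneg_left ?_ (by (clear * - he; positivity))
          have := h1' s
          nlinarith only [this]
      _ = ((ε s)⁻¹) ^ s * (1 + ε s * ab k) ^ s := by rw [mul_pow]
      _ ≤ ((ε s)⁻¹) ^ s * W.w k := by
          refine mul_le_mul_of_nonneg_left ?_ (by (clear * - he; positivity))
          rw [hWw]
          exact le_ciSup (term_bdd h0 h1 k) s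
  · rw [hWw]
    have : ∀ s : ℕ, (1 + ε s * ab 0) ^ s = 1 := by
      intro s; simp only [ab, Prod.fst_zero, Int.cast_zero, abs_zero, Prod.snd_zero, add_zero, mul_zero, one_pow]
    simp_rw [this]
    simp only [ciSup_const]
  · have h6 : Summable c := by simpa using hc 0
    refine (h6.add hsum1).congr fun k => ?_
    ring
  · exact (Summable.tsum_le_tsum hmain hsum1 hkk).trans htot

/-- A weight for which finitely many smooth doubly periodic functions are in the algebra. -/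
theorem exists_weight_family {ι : Type*} [Fintype ι] (f : ι → ℝ × ℝ → ℝ)
    (hf : ∀ i, ContDiff ℝ ∞ (f i))
    (hp : ∀ i, Periodic2 (2 * Real.pi, 0) (0, 2 * Real.pi) (f i)) (s : ℕ) :
    ∃ W : Wt, W.Sup ∧ ∀ i, ∃ F : RW (W.up s), (∀ p, RW.ev F p = f i p) ∧
      ∀ k, F.co k = FS.fc (fun p => (f i p : ℂ)) k := by
  have hS : ∀ i, FS.SPer (fun p => (f i p : ℂ)) := fun i =>
    ⟨Complex.ofRealCLM.contDiff.comp (hf i), fun p => by simp only [(hp i).1 p],
      fun p => by simp only [(hp i).2 p]⟩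
  obtain ⟨W, hW, -, hsum, -, -⟩ := exists_weight
    (fun k => fsz k ^ s * ∑ i, ‖FS.fc (fun p => (f i p : ℂ)) k‖)
    (fun k => mul_nonneg (pow_nonneg (fsz_pos k).le s) (Finset.sum_nonneg fun i _ => norm_nonneg _))
    (fun t => by
      have : ∀ k, fsz k ^ t * (fsz k ^ s * ∑ i, ‖FS.fc (fun p => (f i p : ℂ)) k‖) =
          ∑ i, fsz k ^ (t + s) * ‖FS.fc (fun p => (f i p : ℂ)) k‖ := by
        intro k
        rw [← mul_assoc, ← pow_add, Finset.mul_sum]
      simp_rw [this]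
      exact summable_sum fun i _ => FS.rapid_fc (hS i) (t + s)) one_pos
  refine ⟨W, hW, fun i => ?_⟩
  have h1 : Summable fun k => (W.up s).w k * ‖FS.fc (fun p => (f i p : ℂ)) k‖ := by
    refine Summable.of_nonneg_of_le
      (fun k => mul_nonneg ((W.up s).pos k).le (norm_nonneg _)) (fun k => ?_) hsum
    rw [Wt.up_w]
    have h3 : ‖FS.fc (fun p => (f i p : ℂ)) k‖ ≤ ∑ i, ‖FS.fc (fun p => (f i p : ℂ)) k‖ :=
      Finset.single_le_sum (f := fun i => ‖FS.fc (fun p => (f i p : ℂ)) k‖)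
        (fun i _ => norm_nonneg _) (Finset.mem_univ i)
    have h4 := W.pos k
    have h5 := fsz_pos k
    calc W.w k * fsz k ^ s * ‖FS.fc (fun p => (f i p : ℂ)) k‖ ≤
        W.w k * fsz k ^ s * ∑ i, ‖FS.fc (fun p => (f i p : ℂ)) k‖ :=
          mul_le_mul_of_nonneg_left h3 (by (clear * - h4 h5; positivity))
      _ = _ := by ring
  refine ⟨RW.mk (FS.fc (fun p => (f i p : ℂ))) h1 (fun k => FS.fc_neg_real k), fun p => ?_,
    fun k => by rw [RW.co_mk]⟩
  have h2 : evS (RW.mk (FS.fc (fun p => (f i p : ℂ))) h1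
      (fun k => FS.fc_neg_real k) : RW (W.up s)).co p = (f i p : ℂ) := by
    have e : (RW.mk (FS.fc (fun p => (f i p : ℂ))) h1
      (fun k => FS.fc_neg_real k) : RW (W.up s)).co = FS.fc (fun p => (f i p : ℂ)) := by
      funext k; rw [RW.co_mk]
    rw [e]
    exact FS.evS_fc' (hS i) p
  unfold RW.ev
  rw [h2, Complex.ofReal_re]

end WX

end Vale.Agent.P205
end
end
end

section

section

open scoped ComplexConjugate ContDiff
open MeasureTheory

noncomputable section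

namespace Vale.Agent.P205

namespace RInv

open RW

variable {V W : Wt}

/-- coefficients are determined by the function -/
lemma co_eq_fc (f : RW V) (k : ℤ × ℤ) : f.co k = FS.fc (fun p => (ev f p : ℂ)) k := by
  have h := FS.fc_evS f.summable_co k
  have e : evS f.co = fun p => (ev f p : ℂ) := funext fun p => evS_co f p
  rw [← h, e]

lemma co_supp_of_diag {q : RW V} {Q : ℝ → ℝ} (hq : ∀ p : ℝ × ℝ, ev q p = Q (p.1 - p.2))
    (k : ℤ × ℤ) (hk : k.1 + k.2 ≠ 0) : q.co k = 0 := by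
  set s : ℝ := Real.pi / ((k.1 + k.2 : ℤ) : ℝ) with hs
  have hk' : ((k.1 + k.2 : ℤ) : ℝ) ≠ 0 := by exact_mod_cast hk
  set c' : ℤ × ℤ → ℂ := fun l => q.co l * ex l (s, s) with hc'
  have h1 : Summable fun l => ‖c' l‖ := by
    simp only [hc', norm_mul, norm_ex, mul_one]; exact q.summable_co
  have h2 : evS c' = evS q.co := by
    funext p
    have e1 : evS c' p = evS q.co (p + (s, s)) := by
      unfold evS
      refine tsum_congr fun l => ?_
      simp only [hc']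
      have : ex l (p + (s, s)) = ex l (s, s) * ex l p := by
        unfold ex
        rw [← Complex.exp_add]
        congr 1
        push_cast [Prod.fst_add, Prod.snd_add]
        ring
      rw [this]; ring
    rw [e1, evS_co, evS_co, hq, hq]
    congr 2
    simp
  have h3 := FS.fc_evS h1 k
  rw [h2, FS.fc_evS q.summable_co k] at h3
  have h4 : ex k (s, s) = -1 := by
    unfold ex
    have : ((((k.1 : ℝ) * s + (k.2 : ℝ) * s : ℝ) : ℂ) * Complex.I) = (Real.pi : ℂ) * Complex.I := by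
      congr 1
      have : (k.1 : ℝ) * s + (k.2 : ℝ) * s = Real.pi := by
        rw [← add_mul, hs]
        push_cast at hk' ⊢
        field_simp
      exact_mod_cast this
    simp only [this, Complex.exp_pi_mul_I]
  simp only [hc', h4] at h3
  have h5 : (2 : ℂ) * q.co k = 0 := by linear_combination h3
  simpa using h5

lemma co_zero_ne_of_pos {q : RW V} (hV : V.Sup) (hpos : ∀ p, 0 < ev q p) : q.co 0 ≠ 0 := by
  rw [co_eq_fc, FS.fc]
  have e : (fun p => (ev q p : ℂ) * ex (-0) p) = fun p => (ev q p : ℂ) := by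
    funext p; rw [neg_zero, ex_zero, mul_one]
  rw [e]
  refine mul_ne_zero (inv_ne_zero FS.four_pi_ne) ?_
  unfold FS.int2
  have hc : Continuous (ev q) := (contDiff_ev hV q).continuous
  have h1 : (∫ p in FS.SS, (ev q p : ℂ) ∂(volume.prod volume)) =
      ((∫ p in FS.SS, ev q p ∂(volume.prod volume) : ℝ) : ℂ) := integral_ofReal
  rw [h1]
  have h2 : 0 < ∫ p in FS.SS, ev q p ∂(volume.prod volume) := by
    rw [setIntegral_pos_iff_support_of_nonneg_ae]
    · have : Function.support (ev q) = Set.univ := by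
        ext p; simp [(hpos p).ne']
      rw [this, Set.univ_inter]
      unfold FS.SS
      rw [Measure.prod_prod, Real.volume_Ioc]
      have : (0 : ENNReal) < ENNReal.ofReal (2 * Real.pi - 0) := by
        rw [ENNReal.ofReal_pos]; have := Real.pi_pos; linarith only [this]
      exact ENNReal.mul_pos this.ne' this.ne'
    · exact Filter.Eventually.of_forall fun p => (hpos p).le
    · exact FS.integrableOn_SS hc
  exact_mod_cast h2.ne'

lemma co_ne_of_nonconst {q : RW V} (h : ∃ p p', ev q p ≠ ev q p') :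
    ∃ k : ℤ × ℤ, k ≠ 0 ∧ q.co k ≠ 0 := by
  by_contra hc
  push Not at hc
  obtain ⟨p, p', hpp⟩ := h
  apply hpp
  have : ∀ p, evS q.co p = q.co 0 := by
    intro p
    unfold evS
    rw [tsum_eq_single 0]
    · rw [ex_zero, mul_one]
    · intro k hk; rw [hc k hk, zero_mul]
  unfold ev
  rw [this, this]

/-- M5 in the form needed for the fixed point argument. -/
theorem exists_Rac (hW : W.Sup) (Q : ℝ → ℝ) (hQ : ∀ s, 0 < Q s) (hne : ∃ s t, Q s ≠ Q t)
    (q qi : RW (W.up 4)) (hq : ∀ p : ℝ × ℝ, ev q p = Q (p.1 - p.2))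
    (hqi : ∀ p : ℝ × ℝ, ev qi p = (Q (p.1 - p.2))⁻¹) :
    ∃ Ra Rc : RW (W.up 2) →L[ℝ] RW (W.up 3), ∀ (H : RW (W.up 2)) (p : ℝ × ℝ),
      ev (D2 (Ra H)) p + Q (p.1 - p.2) * ev (D1 (Rc H)) p = ev H p := by
  have h4 : (W.up 4).Sup := hW.up 4
  obtain ⟨Ta, Tc, hT⟩ := exists_right_inverse (W := W) hW (inc q) (inc qi) (D1 qi)
    (fun k hk => by rw [co_inc]; exact co_supp_of_diag hq k hk)
    (by rw [co_inc]; exact co_zero_ne_of_pos h4 (fun p => by rw [hq]; exact hQ _))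
    (by
      obtain ⟨s, t, hst⟩ := hne
      obtain ⟨k, hk, hk'⟩ := co_ne_of_nonconst (q := q) ⟨(s, 0), (t, 0), by
        rw [hq, hq]; simpa using hst⟩
      exact ⟨k, hk, by rw [co_inc]; exact hk'⟩)
    (fun p => by
      rw [ev_inc, ev_inc, hq, hqi]
      exact mul_inv_cancel₀ (hQ _).ne')
    (fun k => by rw [co_D1, co_inc])
  refine ⟨Ta, Tc, fun H p => ?_⟩
  have h := hT H p
  rw [(RW.hasFDerivAt_ev hW (Ta H) p).fderiv, (RW.hasFDerivAt_ev hW (Tc H) p).fderiv, ev_inc,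
    hq] at h
  simpa only [Nat.reduceAdd, add_apply, smul_apply, ContinuousLinearMap.coe_fst', smul_eq_mul, mul_zero,     ContinuousLinearMap.coe_snd', mul_one, zero_add, add_zero] using h

end RInv

end Vale.Agent.P205
end
end
end

section

section

open scoped ContDiff

noncomputable section

namespace Vale.Agent.P205

open RW SFun

theorem tdiag : TDiag := by
  intro A B Q hA hB hQ pA pB pQ Qpos hne Apos Bpos hBA
  have hq : ContDiff ℝ ∞ fun p : ℝ × ℝ => Q (p.1 - p.2) := hQ.comp (by fun_prop)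
  have pq : Periodic2 (2 * Real.pi, 0) (0, 2 * Real.pi) fun p : ℝ × ℝ => Q (p.1 - p.2) := by
    constructor
    · intro p
      simp only [Prod.fst_add, Prod.snd_add, add_zero]
      rw [show p.1 + 2 * Real.pi - p.2 = (p.1 - p.2) + 2 * Real.pi by ring, pQ]
    · intro p
      simp only [Prod.fst_add, Prod.snd_add, add_zero]
      have := pQ (p.1 - (p.2 + 2 * Real.pi))
      rw [← this]; congr 1; ring
  set f : Fin 6 → ℝ × ℝ → ℝ := ![A, B, fun p => (A p)⁻¹, fun p => (B p)⁻¹,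
    fun p => Q (p.1 - p.2), fun p => (Q (p.1 - p.2))⁻¹] with hf
  have hfs : ∀ i, ContDiff ℝ ∞ (f i) := by
    intro i
    fin_cases i
    · exact hA
    · exact hB
    · exact hA.inv fun p => (Apos p).ne'
    · exact hB.inv fun p => (Bpos p).ne'
    · exact hq
    · exact hq.inv fun p => (Qpos _).ne'
  have hfp : ∀ i, Periodic2 (2 * Real.pi, 0) (0, 2 * Real.pi) (f i) := by
    intro i
    fin_cases i
    · exact pA
    · exact pB
    · exact ⟨fun p => congrArg (·⁻¹) (pA.1 p), fun p => congrArg (·⁻¹) (pA.2 p)⟩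
    · exact ⟨fun p => congrArg (·⁻¹) (pB.1 p), fun p => congrArg (·⁻¹) (pB.2 p)⟩
    · exact pq
    · exact ⟨fun p => congrArg (·⁻¹) (pq.1 p), fun p => congrArg (·⁻¹) (pq.2 p)⟩
  obtain ⟨W, hW, hrep⟩ := WX.exists_weight_family f hfs hfp 4
  obtain ⟨a, ha, -⟩ := hrep 0
  obtain ⟨b, hb, -⟩ := hrep 1
  obtain ⟨ia, hia, -⟩ := hrep 2
  obtain ⟨ib, hib, -⟩ := hrep 3
  obtain ⟨q, hqe, -⟩ := hrep 4
  obtain ⟨qi, hqie, -⟩ := hrep 5
  have ha' : ∀ p, ev a p = A p := ha
  have hb' : ∀ p, ev b p = B p := hb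
  have hia' : ∀ p, ev ia p = (A p)⁻¹ := hia
  have hib' : ∀ p, ev ib p = (B p)⁻¹ := hib
  have hq' : ∀ p : ℝ × ℝ, ev q p = Q (p.1 - p.2) := hqe
  have hqi' : ∀ p : ℝ × ℝ, ev qi p = (Q (p.1 - p.2))⁻¹ := hqie
  obtain ⟨Ra, Rc, hR⟩ := RInv.exists_Rac hW Q Qpos hne q qi hq' hqi'
  have hR' : ∀ H, D₂ (evA hW 3 (Ra H)) + evA hW 4 q * D₁ (evA hW 3 (Rc H)) = evA hW 2 H := by
    intro H
    rw [← evA_D2' hW, ← evA_D1' hW]
    ext p
    have := hR H p
    rw [← hq' p] at this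
    exact this
  obtain ⟨X, hX, hXp, hXi⟩ := core hW (A := a) (B := b) (iA := ia) (iB := ib) (Q := evA hW 4 q)
    (by
      ext p
      show ev a p * ev ia p = 1
      rw [ha', hia', mul_inv_cancel₀ (Apos p).ne'])
    (by
      ext p
      show ev b p * ev ib p = 1
      rw [hb', hib', mul_inv_cancel₀ (Bpos p).ne'])
    (by
      ext p
      show (ev b p) ^ 2 = ev q p * (ev a p) ^ 2
      rw [ha', hb', hq']; exact hBA p)
    hR'
  refine ⟨X, hX, hXp, ?_⟩
  have e1 : (fun p => (ev a p) ^ 2) = fun p => (A p) ^ 2 := by ext p; rw [ha']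
  have e2 : (fun p => (ev b p) ^ 2) = fun p => (B p) ^ 2 := by ext p; rw [hb']
  rw [e1, e2] at hXi
  exact hXi

end Vale.Agent.P205
end
end
end

section

section

open scoped ComplexConjugate ContDiff
open MeasureTheory

noncomputable section

namespace Vale.Agent.P205

namespace Belt

open RW

variable {c d : ℤ × ℤ → ℂ}

lemma summable_pair_fun {F G : ℤ × ℤ → ℝ} (hF : Summable F) (hG : Summable G)
    (hF0 : ∀ k, 0 ≤ F k) (hG0 : ∀ k, 0 ≤ G k) :
    Summable fun q : (ℤ × ℤ) × (ℤ × ℤ) => F q.2 * G (q.1 - q.2) :=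
  shear.summable_iff.mpr (hF.mul_of_nonneg hG hF0 hG0)

lemma evS_conv (hc : Summable fun k => ‖c k‖) (hd : Summable fun k => ‖d k‖) (p : ℝ × ℝ) :
    evS (conv c d) p = evS c p * evS d p := by
  set F : ℤ × ℤ → ℂ := fun k => c k * ex k p with hF
  set G : ℤ × ℤ → ℂ := fun k => d k * ex k p with hG
  have hf : Summable fun k => ‖F k‖ := summable_evS hc p
  have hg : Summable fun k => ‖G k‖ := summable_evS hd p
  have e1 : evS c p = ∑' k, F k := rfl
  have e2 : evS d p = ∑' k, G k := rfl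
  rw [e1, e2, tsum_mul_tsum_of_summable_norm hf hg]
  have hs : Summable fun q : (ℤ × ℤ) × (ℤ × ℤ) => F q.1 * G q.2 :=
    summable_mul_of_summable_norm hf hg
  have hs' : Summable fun q : (ℤ × ℤ) × (ℤ × ℤ) => F q.2 * G (q.1 - q.2) :=
    shear.summable_iff.mpr hs
  have e3 : ∑' q : (ℤ × ℤ) × (ℤ × ℤ), F q.1 * G q.2 =
      ∑' q : (ℤ × ℤ) × (ℤ × ℤ), F q.2 * G (q.1 - q.2) :=
    (shear.tsum_eq (fun q : (ℤ × ℤ) × (ℤ × ℤ) => F q.1 * G q.2)).symm
  rw [e3, hs'.tsum_prod]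
  unfold evS
  refine tsum_congr fun k => ?_
  rw [conv, ← tsum_mul_right]
  refine tsum_congr fun j => ?_
  have : ex k p = ex j p * ex (k - j) p := by rw [← ex_add]; congr 1; abel
  rw [this, hF, hG]; ring

lemma rapid_conv (hc : Rapid c) (hd : Rapid d) : Rapid (conv c d) := by
  intro s
  have hF0 : ∀ (c : ℤ × ℤ → ℂ) k, 0 ≤ fsz k ^ s * ‖c k‖ := fun c k =>
    mul_nonneg (pow_nonneg (fsz_pos k).le _) (norm_nonneg _)
  have hp := summable_pair_fun (hc s) (hd s) (hF0 c) (hF0 d)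
  have hterm : ∀ k j : ℤ × ℤ, fsz k ^ s * ‖c j * d (k - j)‖ ≤
      (fsz j ^ s * ‖c j‖) * (fsz (k - j) ^ s * ‖d (k - j)‖) := by
    intro k j
    have h := fsz_add j (k - j)
    rw [add_sub_cancel] at h
    have h2 : fsz k ^ s ≤ fsz j ^ s * fsz (k - j) ^ s := by
      rw [← mul_pow]; exact pow_le_pow_left₀ (fsz_pos k).le h s
    rw [norm_mul]
    calc fsz k ^ s * (‖c j‖ * ‖d (k - j)‖) ≤
        (fsz j ^ s * fsz (k - j) ^ s) * (‖c j‖ * ‖d (k - j)‖) :=
          mul_le_mul_of_nonneg_right h2 (by positivity)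
      _ = _ := by ring
  have hsum1 : ∀ k, Summable fun j => ‖c j * d (k - j)‖ := by
    intro k
    refine Summable.of_nonneg_of_le (fun j => norm_nonneg _) (fun j => ?_) (hp.prod_factor k)
    refine le_trans ?_ (hterm k j)
    exact le_mul_of_one_le_left (norm_nonneg _) (one_le_pow₀ (one_le_fsz k))
  refine Summable.of_nonneg_of_le (fun k => mul_nonneg (pow_nonneg (fsz_pos k).le _)
    (norm_nonneg _)) (fun k => ?_) hp.prod
  calc fsz k ^ s * ‖conv c d k‖ ≤ fsz k ^ s * ∑' j, ‖c j * d (k - j)‖ :=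
        mul_le_mul_of_nonneg_left (norm_tsum_le_tsum_norm (hsum1 k))
          (pow_nonneg (fsz_pos k).le _)
    _ = ∑' j, fsz k ^ s * ‖c j * d (k - j)‖ := by rw [tsum_mul_left]
    _ ≤ _ := Summable.tsum_le_tsum (fun j => hterm k j) ((hsum1 k).mul_left _) (hp.prod_factor k)

/-- smooth doubly periodic functions from rapid sequences -/
lemma sper_evS (hc : Rapid c) : FS.SPer (evS c) :=
  ⟨contDiff_evS hc, fun p => by unfold evS; simp only [RW.ex_periodic1],
    fun p => by unfold evS; simp only [RW.ex_periodic2]⟩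

lemma fc_evS' (hc : Rapid c) (k : ℤ × ℤ) : FS.fc (evS c) k = c k :=
  FS.fc_evS hc.summable_norm k

/-- sequences of the complex conjugate function -/
def cj (c : ℤ × ℤ → ℂ) (k : ℤ × ℤ) : ℂ := conj (c (-k))

lemma rapid_cj (hc : Rapid c) : Rapid (cj c) := by
  intro s
  have := (Equiv.neg (ℤ × ℤ)).summable_iff.mpr (hc s)
  refine this.congr fun k => ?_
  simp [cj, fsz_neg]

lemma evS_cj (c : ℤ × ℤ → ℂ) (p : ℝ × ℝ) : evS (cj c) p = conj (evS c p) := by
  unfold evS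
  rw [Complex.conj_tsum, ← (Equiv.neg (ℤ × ℤ)).tsum_eq]
  refine tsum_congr fun k => ?_
  rw [Equiv.neg_apply, map_mul, cj, neg_neg, ex_neg]

/-- mean square -/
def msq (g : ℝ × ℝ → ℂ) : ℝ := (4 * Real.pi ^ 2)⁻¹ * ∫ p in FS.SS, ‖g p‖ ^ 2 ∂(volume.prod volume)

lemma msq_eq_fc (g : ℝ × ℝ → ℂ) : ((msq g : ℝ) : ℂ) = FS.fc (fun p => g p * conj (g p)) 0 := by
  unfold msq FS.fc FS.int2
  rw [Complex.ofReal_mul, Complex.ofReal_inv, ← integral_complex_ofReal]
  congr 1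
  refine integral_congr_ae (Filter.Eventually.of_forall fun p => ?_)
  simp only [neg_zero, ex_zero, mul_one, Complex.mul_conj, Complex.normSq_eq_norm_sq]

/-- Parseval for rapidly decreasing sequences -/
lemma parseval (hc : Rapid c) : msq (evS c) = ∑' k, ‖c k‖ ^ 2 := by
  have h1 : (fun p => evS c p * conj (evS c p)) = evS (conv c (cj c)) := by
    funext p
    rw [evS_conv hc.summable_norm (rapid_cj hc).summable_norm, evS_cj]
  have h2 := msq_eq_fc (evS c)
  rw [h1, fc_evS' (rapid_conv hc (rapid_cj hc))] at h2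
  have h3 : conv c (cj c) 0 = ((∑' k, ‖c k‖ ^ 2 : ℝ) : ℂ) := by
    unfold conv
    rw [Complex.ofReal_tsum]
    refine tsum_congr fun j => ?_
    rw [zero_sub, cj, neg_neg, Complex.mul_conj, Complex.normSq_eq_norm_sq]
  rw [h3] at h2
  exact_mod_cast h2

lemma msq_mono {g h : ℝ × ℝ → ℂ} (hg : Continuous g) (hh : Continuous h) {κ : ℝ} (hκ : 0 ≤ κ)
    (H : ∀ p, ‖g p‖ ≤ κ * ‖h p‖) : msq g ≤ κ ^ 2 * msq h := by
  unfold msq
  have hpi : (0 : ℝ) ≤ (4 * Real.pi ^ 2)⁻¹ := by positivity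
  calc (4 * Real.pi ^ 2)⁻¹ * ∫ p in FS.SS, ‖g p‖ ^ 2 ∂(volume.prod volume)
      ≤ (4 * Real.pi ^ 2)⁻¹ * ∫ p in FS.SS, κ ^ 2 * ‖h p‖ ^ 2 ∂(volume.prod volume) := by
        refine mul_le_mul_of_nonneg_left (integral_mono ?_ ?_ fun p => ?_) hpi
        · exact FS.integrableOn_SS (hg.norm.pow 2)
        · exact FS.integrableOn_SS (continuous_const.mul (hh.norm.pow 2))
        · simp only
          rw [← mul_pow]
          exact pow_le_pow_left₀ (norm_nonneg _) (H p) 2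
    _ = _ := by rw [integral_const_mul]; ring

/-- The `L²` bound for multiplication by a function bounded by `κ`, on the Fourier side. -/
lemma conv_l2_le {m c : ℤ × ℤ → ℂ} (hm : Rapid m) (hc : Rapid c) {κ : ℝ} (hκ : 0 ≤ κ)
    (hb : ∀ p, ‖evS m p‖ ≤ κ) :
    ∑' k, ‖conv m c k‖ ^ 2 ≤ κ ^ 2 * ∑' k, ‖c k‖ ^ 2 := by
  rw [← parseval hc, ← parseval (rapid_conv hm hc)]
  refine msq_mono (contDiff_evS (rapid_conv hm hc)).continuous (contDiff_evS hc).continuous hκ
    fun p => ?_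
  rw [evS_conv hm.summable_norm hc.summable_norm, norm_mul]
  exact mul_le_mul_of_nonneg_right (hb p) (norm_nonneg _)

end Belt

end Vale.Agent.P205
end
end
end

section

section

open scoped ComplexConjugate ContDiff
open MeasureTheory

noncomputable section

namespace Vale.Agent.P205

namespace Belt

open RW

/-- square-summable sequences -/
abbrev H2 := lp (fun _ : ℤ × ℤ => ℂ) 2

lemma rpow_two' (x : ℝ) : x ^ (ENNReal.toReal 2) = x ^ 2 := by
  simp

lemma H2_summable (c : H2) : Summable fun k => ‖c k‖ ^ 2 := by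
  have := (lp.memℓp c).summable (by simp)
  simpa only [rpow_two'] using this

lemma H2_norm_sq (c : H2) : ‖c‖ ^ 2 = ∑' k, ‖c k‖ ^ 2 := by
  have := lp.norm_rpow_eq_tsum (p := 2) (by simp) c
  simpa only [rpow_two'] using this

/-- constructor -/
def mkH (f : ℤ × ℤ → ℂ) (hf : Summable fun k => ‖f k‖ ^ 2) : H2 :=
  ⟨f, by
    apply memℓp_gen
    simpa only [rpow_two'] using hf⟩

@[simp] lemma mkH_apply (f : ℤ × ℤ → ℂ) (hf : Summable fun k => ‖f k‖ ^ 2) (k : ℤ × ℤ) :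
    (mkH f hf : H2) k = f k := rfl

lemma H2_norm_le {c : H2} {B : ℝ} (hB : 0 ≤ B) (h : ∑' k, ‖c k‖ ^ 2 ≤ B ^ 2) : ‖c‖ ≤ B := by
  rw [← H2_norm_sq] at h
  exact le_of_sq_le_sq h hB

/-- weighted shift, as a function -/
lemma sh_summable (i : ℤ × ℤ) (d : ℤ × ℤ → ℂ) {B : ℝ} (hd : ∀ k, ‖d k‖ ≤ B) (c : H2) :
    Summable fun k => ‖d k * c (k - i)‖ ^ 2 := by
  have h1 : Summable fun k => ‖c (k - i)‖ ^ 2 :=
    (Equiv.subRight i).summable_iff.mpr (H2_summable c)
  refine Summable.of_nonneg_of_le (fun k => by positivity) (fun k => ?_) (h1.mul_left (B ^ 2))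
  rw [norm_mul, mul_pow]
  exact mul_le_mul_of_nonneg_right (pow_le_pow_left₀ (norm_nonneg _) (hd k) 2) (by positivity)

lemma sh_tsum (i : ℤ × ℤ) (c : H2) : ∑' k, ‖c (k - i)‖ ^ 2 = ‖c‖ ^ 2 := by
  rw [H2_norm_sq]
  exact (Equiv.subRight i).tsum_eq (fun k => ‖c k‖ ^ 2)

/-- weighted shift `c ↦ (k ↦ d k * c (k - i))` -/
def shOp (i : ℤ × ℤ) (d : ℤ × ℤ → ℂ) (B : ℝ) (hd : ∀ k, ‖d k‖ ≤ B) : H2 →L[ℂ] H2 :=
  LinearMap.mkContinuous
    { toFun := fun c => mkH (fun k => d k * c (k - i)) (sh_summable i d hd c)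
      map_add' := by intro x y; ext k; simp [mul_add]
      map_smul' := by intro a x; ext k; simp; ring }
    B
    (by
      intro c
      have hB : 0 ≤ B := (norm_nonneg _).trans (hd 0)
      refine H2_norm_le (by positivity) ?_
      rw [mul_pow, ← sh_tsum i c, ← tsum_mul_left]
      have h1 : Summable fun k => ‖c (k - i)‖ ^ 2 :=
        (Equiv.subRight i).summable_iff.mpr (H2_summable c)
      refine Summable.tsum_le_tsum (fun k => ?_) (sh_summable i d hd c) (h1.mul_left _)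
      simp only [LinearMap.coe_mk, AddHom.coe_mk, mkH_apply]
      rw [norm_mul, mul_pow]
      exact mul_le_mul_of_nonneg_right (pow_le_pow_left₀ (norm_nonneg _) (hd k) 2) (by positivity))

@[simp] lemma shOp_apply (i : ℤ × ℤ) (d : ℤ × ℤ → ℂ) (B : ℝ) (hd : ∀ k, ‖d k‖ ≤ B) (c : H2)
    (k : ℤ × ℤ) : shOp i d B hd c k = d k * c (k - i) := rfl

lemma norm_shOp_le (i : ℤ × ℤ) (d : ℤ × ℤ → ℂ) (B : ℝ) (hd : ∀ k, ‖d k‖ ≤ B) :
    ‖shOp i d B hd‖ ≤ B :=
  LinearMap.mkContinuous_norm_le _ ((norm_nonneg _).trans (hd 0)) _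

/-- evaluation of a coordinate -/
def evk (k : ℤ × ℤ) : H2 →L[ℂ] ℂ := lp.evalCLM ℂ (fun _ : ℤ × ℤ => ℂ) 2 k

/-- sum of weighted shifts -/
def bigOp (D : ℤ × ℤ → ℤ × ℤ → ℂ) (a : ℤ × ℤ → ℝ) (hD : ∀ i k, ‖D i k‖ ≤ a i) : H2 →L[ℂ] H2 :=
  ∑' i, shOp i (D i) (a i) (hD i)

lemma bigOp_summable (D : ℤ × ℤ → ℤ × ℤ → ℂ) (a : ℤ × ℤ → ℝ) (hD : ∀ i k, ‖D i k‖ ≤ a i)
    (ha : Summable a) : Summable fun i => ‖shOp i (D i) (a i) (hD i)‖ :=
  Summable.of_nonneg_of_le (fun _ => norm_nonneg _) (fun i => norm_shOp_le i (D i) (a i) (hD i)) ha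

lemma norm_bigOp_le (D : ℤ × ℤ → ℤ × ℤ → ℂ) (a : ℤ × ℤ → ℝ) (hD : ∀ i k, ‖D i k‖ ≤ a i)
    (ha : Summable a) : ‖bigOp D a hD‖ ≤ ∑' i, a i :=
  (norm_tsum_le_tsum_norm (bigOp_summable D a hD ha)).trans
    ((bigOp_summable D a hD ha).tsum_le_tsum (fun i => norm_shOp_le i (D i) (a i) (hD i)) ha)

lemma bigOp_apply (D : ℤ × ℤ → ℤ × ℤ → ℂ) (a : ℤ × ℤ → ℝ) (hD : ∀ i k, ‖D i k‖ ≤ a i)
    (ha : Summable a) (c : H2) (k : ℤ × ℤ) :
    bigOp D a hD c k = ∑' i, D i k * c (k - i) := by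
  have hs : Summable fun i => shOp i (D i) (a i) (hD i) := (bigOp_summable D a hD ha).of_norm
  set L : (H2 →L[ℂ] H2) →L[ℂ] ℂ :=
    (evk k).comp (ContinuousLinearMap.apply ℂ H2 c : (H2 →L[ℂ] H2) →L[ℂ] H2) with hL
  have h1 : HasSum (fun i => L (shOp i (D i) (a i) (hD i))) (L (bigOp D a hD)) :=
    L.hasSum hs.hasSum
  have h2 : ∀ T : H2 →L[ℂ] H2, L T = T c k := fun T => rfl
  rw [← h2, ← h1.tsum_eq]
  refine tsum_congr fun i => ?_
  rw [h2, shOp_apply]

end Belt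

end Vale.Agent.P205
end
end
end

section

section

open scoped ComplexConjugate ContDiff
open MeasureTheory

noncomputable section

namespace Vale.Agent.P205

namespace Belt

open RW

lemma rapid_of_finite {c : ℤ × ℤ → ℂ} (F : Finset (ℤ × ℤ)) (h : ∀ k, k ∉ F → c k = 0) :
    Rapid c := by
  intro s
  refine summable_of_ne_finset_zero (s := F) fun k hk => ?_
  rw [h k hk, norm_zero, mul_zero]

variable {m : ℤ × ℤ → ℂ}

/-- multiplication by the function with Fourier coefficients `m` -/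
def Mop (m : ℤ × ℤ → ℂ) : H2 →L[ℂ] H2 := bigOp (fun i _ => m i) (fun i => ‖m i‖) (fun _ _ => le_rfl)

lemma Mop_apply (hm : Rapid m) (c : H2) (k : ℤ × ℤ) : Mop m c k = conv m c k :=
  bigOp_apply _ _ _ hm.summable_norm c k

lemma norm_Mop_apply_le_of_finite (hm : Rapid m) {κ : ℝ} (hκ : 0 ≤ κ)
    (hb : ∀ p, ‖evS m p‖ ≤ κ) (c : H2) (F : Finset (ℤ × ℤ)) (hF : ∀ k, k ∉ F → c k = 0) :
    ‖Mop m c‖ ≤ κ * ‖c‖ := by
  refine H2_norm_le (by positivity) ?_
  have := conv_l2_le hm (rapid_of_finite F hF) hκ hb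
  rw [mul_pow, H2_norm_sq c]
  simpa only [Mop_apply hm] using this

lemma norm_Mop_le (hm : Rapid m) {κ : ℝ} (hκ : 0 ≤ κ) (hb : ∀ p, ‖evS m p‖ ≤ κ) :
    ‖Mop m‖ ≤ κ := by
  refine ContinuousLinearMap.opNorm_le_bound _ hκ fun c => ?_
  have h1 : HasSum (fun i : ℤ × ℤ => lp.single 2 i (c i)) c := lp.hasSum_single (by simp) c
  have h2 : Filter.Tendsto (fun F : Finset (ℤ × ℤ) => ‖Mop m (∑ i ∈ F, lp.single 2 i (c i))‖)
      Filter.atTop (nhds ‖Mop m c‖) :=
    (((Mop m).continuous.tendsto c).comp h1).norm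
  have h3 : Filter.Tendsto (fun F : Finset (ℤ × ℤ) => κ * ‖(∑ i ∈ F, lp.single 2 i (c i) : H2)‖)
      Filter.atTop (nhds (κ * ‖c‖)) := h1.norm.const_mul κ
  refine le_of_tendsto_of_tendsto' h2 h3 fun F => ?_
  refine norm_Mop_apply_le_of_finite hm hκ hb _ F fun k hk => ?_
  rw [lp.coeFn_sum, Finset.sum_apply]
  refine Finset.sum_eq_zero fun i hi => ?_
  rw [lp.single_apply_ne]
  rintro rfl
  exact hk hi

variable (W : Wt)

lemma ratio_le (i k : ℤ × ℤ) : ‖((W.w k / W.w (k - i) - 1 : ℝ) : ℂ)‖ ≤ W.w i - 1 := by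
  rw [Complex.norm_real, Real.norm_eq_abs, abs_le]
  have hk := W.pos k
  have hki := W.pos (k - i)
  have hi := W.one_le i
  have h1 : W.w k ≤ W.w i * W.w (k - i) := by
    have := W.add_le i (k - i)
    rwa [add_sub_cancel] at this
  have h2 : W.w (k - i) ≤ W.w k * W.w i := by
    have := W.add_le k (-i)
    rwa [W.neg, ← sub_eq_add_neg] at this
  constructor
  · have h3 : 2 - W.w i ≤ W.w k / W.w (k - i) := by
      rw [le_div_iff₀ hki]
      nlinarith only [h2, hi, h1]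
    linarith
  · have h3 : W.w k / W.w (k - i) ≤ W.w i := by
      rw [div_le_iff₀ hki]; exact h1
    linarith only [h3]

/-- commutator with the weight -/
def Rop (m : ℤ × ℤ → ℂ) : H2 →L[ℂ] H2 :=
  bigOp (fun i k => m i * ((W.w k / W.w (k - i) - 1 : ℝ) : ℂ)) (fun i => ‖m i‖ * (W.w i - 1))
    (fun i k => by
      rw [norm_mul]
      exact mul_le_mul_of_nonneg_left (ratio_le W i k) (norm_nonneg _))

variable {W}

lemma Rop_apply (hs : Summable fun i => ‖m i‖ * (W.w i - 1)) (c : H2) (k : ℤ × ℤ) :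
    Rop W m c k = ∑' i, m i * ((W.w k / W.w (k - i) - 1 : ℝ) : ℂ) * c (k - i) :=
  bigOp_apply _ _ _ hs c k

lemma norm_Rop_le (hs : Summable fun i => ‖m i‖ * (W.w i - 1)) :
    ‖Rop W m‖ ≤ ∑' i, ‖m i‖ * (W.w i - 1) := norm_bigOp_le _ _ _ hs

/-- the symbol of `∂_z ∂_{\bar z}^{-1}` -/
def sy (k : ℤ × ℤ) : ℂ :=
  if k = 0 then 0 else ((k.1 : ℂ) - Complex.I * k.2) / ((k.1 : ℂ) + Complex.I * k.2)

lemma zk_ne {k : ℤ × ℤ} (hk : k ≠ 0) : (k.1 : ℂ) + Complex.I * k.2 ≠ 0 := by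
  intro h
  apply hk
  have h1 := congrArg Complex.re h
  have h2 := congrArg Complex.im h
  simp at h1 h2
  exact Prod.ext h1 h2

lemma zk_norm (k : ℤ × ℤ) : ‖(k.1 : ℂ) - Complex.I * k.2‖ = ‖(k.1 : ℂ) + Complex.I * k.2‖ := by
  have : (k.1 : ℂ) - Complex.I * k.2 = conj ((k.1 : ℂ) + Complex.I * k.2) := by
    simp only [sub_eq_add_neg, map_add, map_intCast, map_mul, Complex.conj_I, neg_mul]
  rw [this, Complex.norm_conj]

lemma norm_sy_le (k : ℤ × ℤ) : ‖sy k‖ ≤ 1 := by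
  unfold sy
  split_ifs with h
  · simp
  · rw [norm_div, zk_norm, div_self (norm_ne_zero_iff.mpr (zk_ne h))]

/-- the Beurling transform -/
def Sop : H2 →L[ℂ] H2 := shOp 0 sy 1 norm_sy_le

/-- projection to mean zero -/
def Pop : H2 →L[ℂ] H2 := shOp 0 (fun k => if k = 0 then 0 else 1) 1
  (fun k => by split_ifs <;> simp)

lemma norm_Sop_le : ‖Sop‖ ≤ 1 := norm_shOp_le _ _ _ _
lemma norm_Pop_le : ‖Pop‖ ≤ 1 := norm_shOp_le _ _ _ _

variable (W) in
/-- the operator of the Beltrami equation, conjugated with the weight -/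
def Aop (m : ℤ × ℤ → ℂ) : H2 →L[ℂ] H2 := Pop ∘L (Mop m + Rop W m) ∘L Sop

lemma norm_Aop_le (hm : Rapid m) {κ δ : ℝ} (hκ : 0 ≤ κ) (hb : ∀ p, ‖evS m p‖ ≤ κ)
    (hs : Summable fun i => ‖m i‖ * (W.w i - 1)) (hδ : ∑' i, ‖m i‖ * (W.w i - 1) ≤ δ) :
    ‖Aop W m‖ ≤ κ + δ := by
  have h1 : ‖Mop m + Rop W m‖ ≤ κ + δ :=
    (norm_add_le _ _).trans (add_le_add (norm_Mop_le hm hκ hb) ((norm_Rop_le hs).trans hδ))
  have h0 : 0 ≤ κ + δ := (norm_nonneg _).trans h1
  calc ‖Aop W m‖ ≤ ‖Pop‖ * (‖Mop m + Rop W m‖ * ‖Sop‖) :=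
        (ContinuousLinearMap.opNorm_comp_le _ _).trans
          (mul_le_mul_of_nonneg_left (ContinuousLinearMap.opNorm_comp_le _ _) (norm_nonneg _))
    _ ≤ 1 * ((κ + δ) * 1) := by
        refine mul_le_mul norm_Pop_le (mul_le_mul h1 norm_Sop_le (norm_nonneg _) h0)
          (by positivity) zero_le_one
    _ = κ + δ := by ring

lemma Aop_apply (hm : Rapid m) (hs : Summable fun i => ‖m i‖ * (W.w i - 1)) (c : H2)
    (k : ℤ × ℤ) :
    Aop W m c k = if k = 0 then 0 else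
      (W.w k : ℂ) * conv m (fun j => sy j * (c j / (W.w j : ℂ))) k := by
  have hP : ∀ x : H2, Pop x k = (if k = 0 then 0 else 1) * x k := fun x => by
    show (if k = 0 then 0 else 1) * x (k - 0) = _
    rw [sub_zero]
  have hS : ∀ j, Sop c j = sy j * c j := fun j => by
    show sy j * c (j - 0) = _
    rw [sub_zero]
  have e : Aop W m c k = Pop (Mop m (Sop c) + Rop W m (Sop c)) k := rfl
  rw [e, hP]
  split_ifs with hk
  · rw [zero_mul]
  · rw [one_mul, lp.coeFn_add, Pi.add_apply, Mop_apply hm, Rop_apply hs, conv, conv,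
      ← tsum_mul_left]
    have hs1 : Summable fun i => m i * Sop c (k - i) := by
      refine Summable.of_norm_bounded (hm.summable_norm.mul_right ‖Sop c‖) fun i => ?_
      rw [norm_mul]
      exact mul_le_mul_of_nonneg_left (lp.norm_apply_le_norm (by simp) _ _) (norm_nonneg _)
    have hs2 : Summable fun i => m i * ((W.w k / W.w (k - i) - 1 : ℝ) : ℂ) * Sop c (k - i) := by
      refine Summable.of_norm_bounded (hs.mul_right ‖Sop c‖) fun i => ?_
      rw [norm_mul, norm_mul]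
      exact mul_le_mul (mul_le_mul_of_nonneg_left (ratio_le W i k) (norm_nonneg _))
        (lp.norm_apply_le_norm (by simp) _ _) (norm_nonneg _)
        (mul_nonneg (norm_nonneg _) (by linarith [W.one_le i]))
    rw [← hs1.tsum_add hs2]
    refine tsum_congr fun i => ?_
    rw [hS]
    have h1 : (W.w (k - i) : ℂ) ≠ 0 := by exact_mod_cast W.ne (k - i)
    push_cast
    field_simp
    ring

end Belt

end Vale.Agent.P205
end
end
end

section

section

open scoped ComplexConjugate ContDiff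
open MeasureTheory

noncomputable section

namespace Vale.Agent.P205

namespace Belt

open RW

/-- symbol of `∂_z` -/
def zs (k : ℤ × ℤ) : ℂ := Complex.I / 2 * ((k.1 : ℂ) - Complex.I * k.2)
/-- symbol of `∂_{\bar z}` -/
def bs (k : ℤ × ℤ) : ℂ := Complex.I / 2 * ((k.1 : ℂ) + Complex.I * k.2)

lemma zs_zero : zs 0 = 0 := by simp [zs]
lemma bs_zero : bs 0 = 0 := by simp only [bs, Prod.fst_zero, Int.cast_zero, Prod.snd_zero, mul_zero, add_zero]

lemma bs_ne {k : ℤ × ℤ} (hk : k ≠ 0) : bs k ≠ 0 :=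
  mul_ne_zero (by simp [Complex.I_ne_zero]) (zk_ne hk)

lemma sy_mul_bs (k : ℤ × ℤ) : sy k * bs k = zs k := by
  by_cases hk : k = 0
  · subst hk; simp [bs_zero, zs_zero]
  · have := zk_ne hk
    unfold sy bs zs
    rw [if_neg hk]
    field_simp

lemma norm_zs_eq (k : ℤ × ℤ) : ‖zs k‖ = ‖bs k‖ := by
  unfold zs bs; rw [norm_mul, norm_mul, zk_norm]

lemma norm_bs_ge {k : ℤ × ℤ} (hk : k ≠ 0) : 1 / 2 ≤ ‖bs k‖ := by
  have h1 : 1 ≤ ‖(k.1 : ℂ) + Complex.I * k.2‖ := by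
    have h2 : (1 : ℝ) ≤ (k.1 : ℝ) ^ 2 + (k.2 : ℝ) ^ 2 := by
      have h3 : (1 : ℤ) ≤ k.1 ^ 2 + k.2 ^ 2 := by
        by_contra h
        push Not at h
        have e1 : k.1 = 0 := by nlinarith only [h]
        have e2 : k.2 = 0 := by nlinarith only [h]
        exact hk (Prod.ext e1 e2)
      exact_mod_cast h3
    have h4 : ‖(k.1 : ℂ) + Complex.I * k.2‖ ^ 2 = (k.1 : ℝ) ^ 2 + (k.2 : ℝ) ^ 2 := by
      rw [← Complex.normSq_eq_norm_sq, Complex.normSq_apply]
      simp only [Complex.add_re, Complex.intCast_re, Complex.mul_re, Complex.I_re, zero_mul, Complex.I_im, Complex.intCast_im, mul_zero, sub_self, add_zero, Complex.add_im, Complex.mul_im, one_mul, zero_add]; ring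
    nlinarith only [h2, h4, norm_nonneg ((k.1 : ℂ) + Complex.I * k.2)]
  unfold bs
  rw [norm_mul, norm_div, Complex.norm_I]
  simp only [Complex.norm_ofNat]
  linarith only [h1]

lemma norm_zs_le (k : ℤ × ℤ) : ‖zs k‖ ≤ fsz k := by
  unfold zs
  rw [norm_mul, norm_div, Complex.norm_I]
  simp only [Complex.norm_ofNat]
  have h1 : ‖(k.1 : ℂ) - Complex.I * k.2‖ ≤ |(k.1 : ℝ)| + |(k.2 : ℝ)| := by
    refine (norm_sub_le _ _).trans (add_le_add ?_ ?_)
    · simp
    · rw [norm_mul, Complex.norm_I, one_mul]; simp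
  unfold fsz
  have a1 := abs_nonneg (k.1 : ℝ)
  have a2 := abs_nonneg (k.2 : ℝ)
  linarith only [a2, a1, h1]

/-- `∂_z` -/
def dz (g : ℝ × ℝ → ℂ) (p : ℝ × ℝ) : ℂ :=
  (fderiv ℝ g p (1, 0) - Complex.I * fderiv ℝ g p (0, 1)) / 2
/-- `∂_{\bar z}` -/
def db (g : ℝ × ℝ → ℂ) (p : ℝ × ℝ) : ℂ :=
  (fderiv ℝ g p (1, 0) + Complex.I * fderiv ℝ g p (0, 1)) / 2

variable {c : ℤ × ℤ → ℂ}

lemma fderiv_evS (hc : Rapid c) (p v : ℝ × ℝ) :
    fderiv ℝ (evS c) p v = (v.1 : ℂ) * evS (sD1 c) p + (v.2 : ℂ) * evS (sD2 c) p := by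
  rw [(hasFDerivAt_evS hc p).fderiv]
  simp

lemma rapid_of_norm_le {d : ℤ × ℤ → ℂ} (hc : Rapid c) {C : ℝ} (h : ∀ k, ‖d k‖ ≤ C * ‖c k‖) :
    Rapid d := by
  intro s
  refine Summable.of_nonneg_of_le (fun k => mul_nonneg (pow_nonneg (fsz_pos k).le _)
    (norm_nonneg _)) (fun k => ?_) ((hc s).mul_left C)
  calc fsz k ^ s * ‖d k‖ ≤ fsz k ^ s * (C * ‖c k‖) :=
        mul_le_mul_of_nonneg_left (h k) (pow_nonneg (fsz_pos k).le _)
    _ = _ := by ring

lemma summable_ev_of {c : ℤ × ℤ → ℂ} (hc : Rapid c) (p : ℝ × ℝ) :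
    Summable fun k => c k * ex k p := (summable_evS hc.summable_norm p).of_norm

lemma dz_evS (hc : Rapid c) (p : ℝ × ℝ) : dz (evS c) p = evS (fun k => zs k * c k) p := by
  unfold dz
  rw [fderiv_evS hc, fderiv_evS hc]
  simp only [Complex.ofReal_one, Complex.ofReal_zero, one_mul, zero_mul, add_zero, zero_add]
  unfold evS
  rw [← tsum_mul_left, ← (summable_ev_of hc.sD1 p).tsum_sub
    ((summable_ev_of hc.sD2 p).mul_left _), ← tsum_div_const]
  refine tsum_congr fun k => ?_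
  unfold sD1 sD2 zs
  ring

lemma db_evS (hc : Rapid c) (p : ℝ × ℝ) : db (evS c) p = evS (fun k => bs k * c k) p := by
  unfold db
  rw [fderiv_evS hc, fderiv_evS hc]
  simp only [Complex.ofReal_one, Complex.ofReal_zero, one_mul, zero_mul, add_zero, zero_add]
  unfold evS
  rw [← tsum_mul_left, ← (summable_ev_of hc.sD1 p).tsum_add
    ((summable_ev_of hc.sD2 p).mul_left _), ← tsum_div_const]
  refine tsum_congr fun k => ?_
  unfold sD1 sD2 bs
  ring

lemma evS_const_mul (a : ℂ) (c : ℤ × ℤ → ℂ) (p : ℝ × ℝ) :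
    evS (fun k => a * c k) p = a * evS c p := by
  unfold evS
  rw [← tsum_mul_left]
  exact tsum_congr fun k => by ring

lemma evS_add {c d : ℤ × ℤ → ℂ} (hc : Rapid c) (hd : Rapid d) (p : ℝ × ℝ) :
    evS (fun k => c k + d k) p = evS c p + evS d p := by
  unfold evS
  rw [← (summable_ev_of hc p).tsum_add (summable_ev_of hd p)]
  exact tsum_congr fun k => by ring

lemma evS_delta (a : ℂ) (p : ℝ × ℝ) : evS (fun k => if k = 0 then a else 0) p = a := by
  unfold evS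
  rw [tsum_eq_single 0 (fun k hk => by simp [hk])]
  simp [ex_zero]

lemma rapid_delta (a : ℂ) : Rapid (fun k : ℤ × ℤ => if k = 0 then a else 0) :=
  rapid_of_finite {0} fun k hk => by
    rw [if_neg]; simpa using hk

lemma rapid_zs (hc : Rapid c) : Rapid (fun k => zs k * c k) :=
  hc.of_le fun k => by rw [norm_mul]; exact mul_le_mul_of_nonneg_right (norm_zs_le k) (norm_nonneg _)

lemma rapid_add {c d : ℤ × ℤ → ℂ} (hc : Rapid c) (hd : Rapid d) : Rapid (fun k => c k + d k) := by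
  intro s
  refine Summable.of_nonneg_of_le (fun k => mul_nonneg (pow_nonneg (fsz_pos k).le _)
    (norm_nonneg _)) (fun k => ?_) ((hc s).add (hd s))
  rw [← mul_add]
  exact mul_le_mul_of_nonneg_left (norm_add_le _ _) (pow_nonneg (fsz_pos k).le _)

lemma summable_inv_w {W : Wt} (hW : W.Sup) (s : ℕ) : Summable fun k => fsz k ^ s * (W.w k)⁻¹ := by
  obtain ⟨C, hC⟩ := hW (s + 4)
  refine Summable.of_nonneg_of_le (fun k => mul_nonneg (pow_nonneg (fsz_pos k).le _)
    (inv_nonneg.mpr (W.pos k).le)) (fun k => ?_) (FS.summable_inv_fsz.mul_left C)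
  have h1 := hC k
  have h2 := W.pos k
  have h3 := fsz_pos k
  rw [← div_eq_mul_inv, ← div_eq_mul_inv, div_le_div_iff₀ h2 (by positivity)]
  calc fsz k ^ s * fsz k ^ 4 = fsz k ^ (s + 4) := by ring
    _ ≤ C * W.w k := h1

lemma rapid_div_w {W : Wt} (hW : W.Sup) (x : H2) : Rapid fun k => x k / (W.w k : ℂ) := by
  intro s
  refine Summable.of_nonneg_of_le (fun k => mul_nonneg (pow_nonneg (fsz_pos k).le _)
    (norm_nonneg _)) (fun k => ?_) ((summable_inv_w hW s).mul_left ‖x‖)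
  rw [norm_div, Complex.norm_real, Real.norm_of_nonneg (W.pos k).le, div_eq_mul_inv]
  have h1 : ‖x k‖ ≤ ‖x‖ := lp.norm_apply_le_norm (by simp) x k
  have h2 : 0 ≤ fsz k ^ s * (W.w k)⁻¹ := mul_nonneg (pow_nonneg (fsz_pos k).le _)
    (inv_nonneg.mpr (W.pos k).le)
  calc fsz k ^ s * (‖x k‖ * (W.w k)⁻¹) = ‖x k‖ * (fsz k ^ s * (W.w k)⁻¹) := by ring
    _ ≤ ‖x‖ * (fsz k ^ s * (W.w k)⁻¹) := mul_le_mul_of_nonneg_right h1 h2

/-- coefficients of the solution `σ` -/
def sg (W : Wt) (x : H2) (k : ℤ × ℤ) : ℂ := if k = 0 then 0 else x k / (W.w k : ℂ) / bs k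

lemma norm_sg_le (W : Wt) (x : H2) (k : ℤ × ℤ) : ‖sg W x k‖ ≤ 2 * ‖x k / (W.w k : ℂ)‖ := by
  unfold sg
  split_ifs with hk
  · rw [norm_zero]; positivity
  · rw [norm_div, div_le_iff₀ (lt_of_lt_of_le (by norm_num) (norm_bs_ge hk))]
    linarith only [mul_nonneg (sub_nonneg.2 (norm_bs_ge hk)) (sub_nonneg.2 (norm_nonneg (x k / (W.w k : ℂ))))]

lemma rapid_sg {W : Wt} (hW : W.Sup) (x : H2) : Rapid (sg W x) :=
  rapid_of_norm_le (rapid_div_w hW x) (norm_sg_le W x)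

lemma bs_mul_sg (W : Wt) {x : H2} (hx : x 0 = 0) (k : ℤ × ℤ) :
    bs k * sg W x k = x k / (W.w k : ℂ) := by
  unfold sg
  split_ifs with hk
  · subst hk; simp [hx]
  · have := bs_ne hk
    field_simp

lemma zs_mul_sg (W : Wt) {x : H2} (hx : x 0 = 0) (k : ℤ × ℤ) :
    zs k * sg W x k = sy k * (x k / (W.w k : ℂ)) := by
  rw [← bs_mul_sg W hx, ← sy_mul_bs]; ring

/-- The equation satisfied by `σ`. -/
lemma pde_sg {W : Wt} (hW : W.Sup) {m : ℤ × ℤ → ℂ} (hm : Rapid m)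
    (hs : Summable fun i => ‖m i‖ * (W.w i - 1)) {x h : H2}
    (hh : ∀ k, h k = (W.w k : ℂ) * (zs k * m k)) {τ : ℂ} (hx : x = τ • (Aop W m x + h))
    (p : ℝ × ℝ) :
    db (evS (sg W x)) p = τ * (evS m p * dz (evS (sg W x)) p) + τ * dz (evS m) p
      - τ * conv m (fun j => sy j * (x j / (W.w j : ℂ))) 0 := by
  have hxk : ∀ k, x k = τ * (Aop W m x k + h k) := by
    intro k
    have := congrArg (fun y : H2 => y k) hx
    exact this
  have hx0 : x 0 = 0 := by
    rw [hxk, Aop_apply hm hs, if_pos rfl, hh, zs_zero]; simp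
  have hsg := rapid_sg hW x
  have hsy : Rapid fun j => sy j * (x j / (W.w j : ℂ)) :=
    rapid_of_norm_le (C := 1) (rapid_div_w hW x) fun k => by
      rw [norm_mul]; exact mul_le_mul_of_nonneg_right (norm_sy_le k) (norm_nonneg _)
  have hcv := rapid_conv hm hsy
  rw [db_evS hsg, dz_evS hsg, dz_evS hm]
  have e1 : (fun k => zs k * sg W x k) = fun j => sy j * (x j / (W.w j : ℂ)) :=
    funext fun k => zs_mul_sg W hx0 k
  have e2 : (fun k => bs k * sg W x k) = fun k =>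
      (τ * (conv m (fun j => sy j * (x j / (W.w j : ℂ))) k) + τ * (zs k * m k)) +
        (if k = 0 then -(τ * conv m (fun j => sy j * (x j / (W.w j : ℂ))) 0) else 0) := by
    funext k
    rw [bs_mul_sg W hx0]
    by_cases hk : k = 0
    · subst hk
      rw [hx0, if_pos rfl, zs_zero]; simp only [zero_div, zero_mul, mul_zero, add_zero, add_neg_cancel]
    · have hw : (W.w k : ℂ) ≠ 0 := by exact_mod_cast W.ne k
      rw [hxk k, Aop_apply hm hs, if_neg hk, if_neg hk, hh]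
      field_simp
      ring
  rw [e1, e2, evS_add (rapid_add (rapid_of_norm_le (C := ‖τ‖) hcv fun k => by rw [norm_mul])
    (rapid_of_norm_le (C := ‖τ‖) (rapid_zs hm) fun k => by rw [norm_mul])) (rapid_delta _),
    evS_add (rapid_of_norm_le (C := ‖τ‖) hcv fun k => by rw [norm_mul])
    (rapid_of_norm_le (C := ‖τ‖) (rapid_zs hm) fun k => by rw [norm_mul]), evS_const_mul,
    evS_const_mul, evS_delta, evS_conv hm.summable_norm hsy.summable_norm]
  ring

end Belt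

end Vale.Agent.P205
end
end
end

section

section

open scoped ComplexConjugate ContDiff
open MeasureTheory

noncomputable section

namespace Vale.Agent.P205

namespace Belt

open RW

/-! ### the family of solutions -/

/-- the resolvent solution -/
def sol (A : H2 →L[ℂ] H2) (h : H2) (τ : ℝ) : H2 :=
  Ring.inverse (1 - (τ : ℂ) • A) ((τ : ℂ) • h)

lemma isUnit_one_sub {A : H2 →L[ℂ] H2} (hA : ‖A‖ < 1) {τ : ℝ} (hτ : τ ∈ Set.Icc (0 : ℝ) 1) :
    IsUnit (1 - (τ : ℂ) • A) := by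
  have h : ‖(τ : ℂ) • A‖ < 1 := by
    rw [norm_smul, Complex.norm_real, Real.norm_of_nonneg hτ.1]
    calc τ * ‖A‖ ≤ 1 * ‖A‖ := mul_le_mul_of_nonneg_right hτ.2 (norm_nonneg _)
      _ < 1 := by rwa [one_mul]
  exact (Units.oneSub _ h).isUnit

lemma sol_eq {A : H2 →L[ℂ] H2} (hA : ‖A‖ < 1) (h : H2) {τ : ℝ} (hτ : τ ∈ Set.Icc (0 : ℝ) 1) :
    sol A h τ = (τ : ℂ) • (A (sol A h τ) + h) := by
  have h1 := Ring.mul_inverse_cancel _ (isUnit_one_sub hA hτ)
  have h2 := congrArg (fun T : H2 →L[ℂ] H2 => T ((τ : ℂ) • h)) h1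
  have h3 : (1 - (τ : ℂ) • A) (sol A h τ) = (τ : ℂ) • h := h2
  have h4 : sol A h τ - (τ : ℂ) • A (sol A h τ) = (τ : ℂ) • h := h3
  rw [smul_add, ← h4]
  abel

lemma sol_cont {A : H2 →L[ℂ] H2} (hA : ‖A‖ < 1) (h : H2) :
    Continuous fun τ : unitInterval => sol A h τ := by
  rw [continuous_iff_continuousAt]
  intro τ
  have h1 : ContinuousAt (fun τ : unitInterval => (1 : H2 →L[ℂ] H2) - ((τ : ℝ) : ℂ) • A) τ := by
    (clear * -; fun_prop)
  obtain ⟨U, hU⟩ := isUnit_one_sub hA τ.2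
  have h2 : ContinuousAt Ring.inverse ((1 : H2 →L[ℂ] H2) - ((τ : ℝ) : ℂ) • A) := by
    rw [← hU]; exact NormedRing.inverse_continuousAt U
  have h3 : ContinuousAt (fun τ : unitInterval =>
      Ring.inverse ((1 : H2 →L[ℂ] H2) - ((τ : ℝ) : ℂ) • A)) τ :=
    ContinuousAt.comp (f := fun τ : unitInterval => (1 : H2 →L[ℂ] H2) - ((τ : ℝ) : ℂ) • A) h2 h1
  have h4 : ContinuousAt (fun τ : unitInterval => ((τ : ℝ) : ℂ) • h) τ := by fun_prop
  exact h3.clm_apply h4

/-! ### the exponential of the solution -/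

lemma fderiv_cexp_comp {u : ℝ × ℝ → ℂ} (hu : Differentiable ℝ u) (p v : ℝ × ℝ) :
    fderiv ℝ (fun q => Complex.exp (u q)) p v = Complex.exp (u p) * fderiv ℝ u p v := by
  rw [((hu p).hasFDerivAt.cexp).fderiv]
  simp

lemma db_cexp {u : ℝ × ℝ → ℂ} (hu : Differentiable ℝ u) (p : ℝ × ℝ) :
    db (fun q => Complex.exp (u q)) p = Complex.exp (u p) * db u p := by
  unfold db; rw [fderiv_cexp_comp hu, fderiv_cexp_comp hu]; ring

lemma dz_cexp {u : ℝ × ℝ → ℂ} (hu : Differentiable ℝ u) (p : ℝ × ℝ) :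
    dz (fun q => Complex.exp (u q)) p = Complex.exp (u p) * dz u p := by
  unfold dz; rw [fderiv_cexp_comp hu, fderiv_cexp_comp hu]; ring

lemma dz_mul {f g : ℝ × ℝ → ℂ} (hf : Differentiable ℝ f) (hg : Differentiable ℝ g)
    (p : ℝ × ℝ) : dz (fun q => f q * g q) p = dz f p * g p + f p * dz g p := by
  unfold dz
  have h : fderiv ℝ (fun q => f q * g q) p = f p • fderiv ℝ g p + g p • fderiv ℝ f p :=
    fderiv_mul (hf p) (hg p)
  rw [h]
  simp only [add_apply, smul_apply, smul_eq_mul]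
  ring

lemma dz_const_mul {f : ℝ × ℝ → ℂ} (hf : Differentiable ℝ f) (a : ℂ)
    (p : ℝ × ℝ) : dz (fun q => a * f q) p = a * dz f p := by
  unfold dz
  rw [fderiv_const_mul (hf p)]
  simp only [smul_apply, smul_eq_mul]
  ring

lemma SPer_cexp {u : ℝ × ℝ → ℂ} (hu : FS.SPer u) : FS.SPer (fun q => Complex.exp (u q)) :=
  ⟨Complex.contDiff_exp.comp hu.1, fun p => by simp only [hu.2.1 p],
    fun p => by simp only [hu.2.2 p]⟩

lemma SPer_mul {f g : ℝ × ℝ → ℂ} (hf : FS.SPer f) (hg : FS.SPer g) :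
    FS.SPer (fun q => f q * g q) :=
  ⟨hf.1.mul hg.1, fun p => by simp only [hf.2.1 p, hg.2.1 p],
    fun p => by simp only [hf.2.2 p, hg.2.2 p]⟩

lemma SPer_const_mul {f : ℝ × ℝ → ℂ} (hf : FS.SPer f) (a : ℂ) :
    FS.SPer (fun q => a * f q) :=
  ⟨contDiff_const.mul hf.1, fun p => by simp only [hf.2.1 p],
    fun p => by simp only [hf.2.2 p]⟩

lemma sper_diff {f : ℝ × ℝ → ℂ} (hf : FS.SPer f) : Differentiable ℝ f :=
  hf.one.differentiable one_ne_zero

/-- Fourier coefficients of `∂_z` and `∂_{\bar z}` -/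
lemma fc_dz {g : ℝ × ℝ → ℂ} (hg : FS.SPer g) (k : ℤ × ℤ) : FS.fc (dz g) k = zs k * FS.fc g k := by
  have h := rapid_zs (FS.rapid_fc hg)
  have e : dz g = evS (fun k => zs k * FS.fc g k) := by
    funext p
    rw [← dz_evS (FS.rapid_fc hg)]
    have : evS (FS.fc g) = g := funext fun q => FS.evS_fc' hg q
    rw [this]
  rw [e, fc_evS' h]

lemma rapid_bs {c : ℤ × ℤ → ℂ} (hc : Rapid c) : Rapid (fun k => bs k * c k) :=
  hc.of_le fun k => by
    rw [norm_mul, ← norm_zs_eq]; exact mul_le_mul_of_nonneg_right (norm_zs_le k) (norm_nonneg _)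

lemma fc_db {g : ℝ × ℝ → ℂ} (hg : FS.SPer g) (k : ℤ × ℤ) : FS.fc (db g) k = bs k * FS.fc g k := by
  have h := rapid_bs (FS.rapid_fc hg)
  have e : db g = evS (fun k => bs k * FS.fc g k) := by
    funext p
    rw [← db_evS (FS.rapid_fc hg)]
    have : evS (FS.fc g) = g := funext fun q => FS.evS_fc' hg q
    rw [this]
  rw [e, fc_evS' h]

lemma fc_const_mul (a : ℂ) (g : ℝ × ℝ → ℂ) (k : ℤ × ℤ) :
    FS.fc (fun p => a * g p) k = a * FS.fc g k := by
  unfold FS.fc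
  have : (fun p => a * g p * ex (-k) p) = fun p => a * (g p * ex (-k) p) := by funext p; ring
  rw [this, FS.int2_const_mul]; ring

lemma msq_nonneg (g : ℝ × ℝ → ℂ) : 0 ≤ msq g := by
  unfold msq
  exact mul_nonneg (by positivity) (integral_nonneg fun p => by positivity)

lemma summable_sq {c : ℤ × ℤ → ℂ} (hc : Rapid c) : Summable fun k => ‖c k‖ ^ 2 := by
  have h1 := hc.summable_norm
  refine Summable.of_nonneg_of_le (fun k => by positivity) (fun k => ?_)
    (h1.mul_left (∑' k, ‖c k‖))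
  rw [sq]
  exact mul_le_mul_of_nonneg_right (h1.le_tsum k fun j _ => norm_nonneg _) (norm_nonneg _)

/-- Key dichotomy: if `∂_{\bar z} u = ν ∂_z u + ∂_z ν - c'` then `c' = 0` iff the mean of
`e^u` is nonzero. -/
lemma dichotomy {u ν : ℝ × ℝ → ℂ} (hu : FS.SPer u) (hν : FS.SPer ν) {κ : ℝ} (hκ0 : 0 ≤ κ)
    (hκ : κ < 1) (hb : ∀ p, ‖ν p‖ ≤ κ) {c' : ℂ}
    (h : ∀ p, db u p = ν p * dz u p + dz ν p - c') :
    c' = 0 ↔ FS.fc (fun p => Complex.exp (u p)) 0 ≠ 0 := by
  set w : ℝ × ℝ → ℂ := fun p => Complex.exp (u p) with hw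
  have hwS : FS.SPer w := SPer_cexp hu
  set V : ℝ × ℝ → ℂ := fun p => ν p * w p with hV
  have hVS : FS.SPer V := SPer_mul hν hwS
  have key : ∀ p, db w p - dz V p = -c' * w p := by
    intro p
    rw [hw, db_cexp (sper_diff hu), hV, dz_mul (sper_diff hν) (sper_diff hwS), hw,
      dz_cexp (sper_diff hu), h p]
    ring
  have hdbS : Continuous (db w) := by
    have h1 : Continuous fun p => fderiv ℝ w p (1, 0) := hwS.fst.1.continuous
    have h2 : Continuous fun p => fderiv ℝ w p (0, 1) := hwS.snd.1.continuous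
    unfold db; (clear * - h1 h2; continuity)
  have hdzS : Continuous (dz V) := by
    have h1 : Continuous fun p => fderiv ℝ V p (1, 0) := hVS.fst.1.continuous
    have h2 : Continuous fun p => fderiv ℝ V p (0, 1) := hVS.snd.1.continuous
    unfold dz; fun_prop
  have hfc : ∀ k, bs k * FS.fc w k - zs k * FS.fc V k = -c' * FS.fc w k := by
    intro k
    rw [← fc_db hwS, ← fc_dz hVS, ← FS.fc_sub hdbS hdzS, ← fc_const_mul]
    congr 1
    funext p; exact key p
  constructor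
  · intro hc
    subst hc
    have h1 : ∀ k, k ≠ 0 → ‖FS.fc w k‖ = ‖FS.fc V k‖ := by
      intro k hk
      have h2 := hfc k
      have h3 : bs k * FS.fc w k = zs k * FS.fc V k := by linear_combination h2
      have h4 := congrArg norm h3
      rw [norm_mul, norm_mul, norm_zs_eq] at h4
      exact mul_left_cancel₀ (norm_ne_zero_iff.mpr (bs_ne hk)) h4
    have p1 : msq w = ∑' k, ‖FS.fc w k‖ ^ 2 := by
      rw [← parseval (FS.rapid_fc hwS)]
      congr 1; funext q; exact (FS.evS_fc' hwS q).symm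
    have p2 : msq V = ∑' k, ‖FS.fc V k‖ ^ 2 := by
      rw [← parseval (FS.rapid_fc hVS)]
      congr 1; funext q; exact (FS.evS_fc' hVS q).symm
    have hle : msq V ≤ κ ^ 2 * msq w := msq_mono hVS.1.continuous hwS.1.continuous hκ0 fun p => by
      rw [hV, norm_mul]
      exact mul_le_mul_of_nonneg_right (hb p) (norm_nonneg _)
    have hwpos : 0 < msq w := by
      rcases (msq_nonneg w).lt_or_eq with hlt | heq
      · exact hlt
      · exfalso
        have h5 : ∀ k, FS.fc w k = 0 := by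
          intro k
          have h6 : ‖FS.fc w k‖ ^ 2 ≤ 0 := by
            rw [heq, p1]
            exact (summable_sq (FS.rapid_fc hwS)).le_tsum k fun j _ => by (clear * -; positivity)
          have h7 : ‖FS.fc w k‖ = 0 := by nlinarith only [h6]
          exact norm_eq_zero.mp h7
        have h8 : w 0 = 0 := by
          rw [← FS.evS_fc' hwS 0]
          unfold evS
          simp [h5]
        exact Complex.exp_ne_zero _ h8
    intro h0
    have h9 : ∑' k, (‖FS.fc w k‖ ^ 2 - ‖FS.fc V k‖ ^ 2) = - ‖FS.fc V 0‖ ^ 2 := by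
      rw [tsum_eq_single 0 (fun k hk => by rw [h1 k hk, sub_self])]
      have h10 : FS.fc w 0 = 0 := h0
      rw [h10, norm_zero]; ring
    rw [(summable_sq (FS.rapid_fc hwS)).tsum_sub (summable_sq (FS.rapid_fc hVS)), ← p1, ← p2] at h9
    have h11 : κ ^ 2 < 1 := by nlinarith only [hκ, hκ0]
    linarith only [mul_pos (sub_pos.2 hwpos) (sub_pos.2 h11), mul_eq_zero_of_left (sub_eq_zero.2 h9) (1 - (κ ^ 2)), mul_nonneg (sub_nonneg.2 hle) (le_of_lt (sub_pos.2 h11)), mul_nonneg (sq_nonneg (‖FS.fc V 0‖ : ℝ)) (le_of_lt (sub_pos.2 h11)), mul_eq_zero_of_left (sub_eq_zero.2 h9) (0 - (0 - κ ^ 2)), mul_nonneg (sq_nonneg (κ : ℝ)) (sub_nonneg.2 hle), mul_nonneg (sq_nonneg (κ : ℝ)) (sq_nonneg (‖FS.fc V 0‖ : ℝ))]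
  · intro hne
    have h2 := hfc 0
    rw [bs_zero, zs_zero, zero_mul, zero_mul, sub_zero] at h2
    have h3 : c' * FS.fc w 0 = 0 := by linear_combination h2
    rcases mul_eq_zero.mp h3 with h4 | h4
    · exact h4
    · exact absurd h4 hne

end Belt

end Vale.Agent.P205
end
end
end

section

section

open scoped ComplexConjugate ContDiff
open MeasureTheory

noncomputable section

namespace Vale.Agent.P205

namespace Belt

open RW

lemma sg_sub (W : Wt) (x y : H2) (k : ℤ × ℤ) : sg W (x - y) k = sg W x k - sg W y k := by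
  unfold sg
  split_ifs
  · simp
  · rw [lp.coeFn_sub, Pi.sub_apply, sub_div, sub_div]

lemma evS_sg_sub {W : Wt} (hW : W.Sup) (x y : H2) (p : ℝ × ℝ) :
    evS (sg W (x - y)) p = evS (sg W x) p - evS (sg W y) p := by
  unfold evS
  rw [← (summable_ev_of (rapid_sg hW x) p).tsum_sub (summable_ev_of (rapid_sg hW y) p)]
  exact tsum_congr fun k => by rw [sg_sub]; ring

lemma evS_sg_bound {W : Wt} (hW : W.Sup) (x : H2) (p : ℝ × ℝ) :
    ‖evS (sg W x) p‖ ≤ (2 * ∑' k, (W.w k)⁻¹) * ‖x‖ := by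
  have hs : Summable fun k => (W.w k)⁻¹ := by simpa using summable_inv_w hW 0
  have h1 : ∀ k, ‖sg W x k * ex k p‖ ≤ (2 * (W.w k)⁻¹) * ‖x‖ := by
    intro k
    rw [norm_mul, norm_ex, mul_one]
    refine (norm_sg_le W x k).trans ?_
    rw [norm_div, Complex.norm_real, Real.norm_of_nonneg (W.pos k).le, div_eq_mul_inv, mul_assoc]
    have h2 : ‖x k‖ ≤ ‖x‖ := lp.norm_apply_le_norm (by simp) x k
    have h3 : 0 ≤ (W.w k)⁻¹ := inv_nonneg.mpr (W.pos k).le
    calc 2 * (‖x k‖ * (W.w k)⁻¹) ≤ 2 * (‖x‖ * (W.w k)⁻¹) :=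
          mul_le_mul_of_nonneg_left (mul_le_mul_of_nonneg_right h2 h3) zero_le_two
      _ = _ := by ring
  have h4 : Summable fun k => (2 * (W.w k)⁻¹) * ‖x‖ := (hs.mul_left 2).mul_right _
  unfold evS
  refine (tsum_of_norm_bounded h4.hasSum h1).trans ?_
  rw [tsum_mul_right, tsum_mul_left]

lemma evS_sg_cont {W : Wt} (hW : W.Sup) {X : Type*} [TopologicalSpace X] {x : X → H2}
    (hx : Continuous x) (p : ℝ × ℝ) : Continuous fun t => evS (sg W (x t)) p := by
  have h1 : LipschitzWith ⟨(2 * ∑' k, (W.w k)⁻¹), by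
      have : ∀ k, 0 ≤ (W.w k)⁻¹ := fun k => inv_nonneg.mpr (W.pos k).le
      exact mul_nonneg zero_le_two (tsum_nonneg this)⟩ (fun y : H2 => evS (sg W y) p) := by
    refine LipschitzWith.of_dist_le_mul fun y z => ?_
    rw [dist_eq_norm, dist_eq_norm, ← evS_sg_sub hW]
    exact evS_sg_bound hW _ p
  exact h1.continuous.comp hx

/-- continuity of the mean of the exponential -/
lemma mean_cont {W : Wt} (hW : W.Sup) {x : unitInterval → H2} (hx : Continuous x) :
    Continuous fun t => FS.fc (fun p => Complex.exp (evS (sg W (x t)) p)) 0 := by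
  obtain ⟨R, hR⟩ : ∃ R, ∀ t, ‖x t‖ ≤ R := by
    obtain ⟨t0, -, h0⟩ := isCompact_univ.exists_isMaxOn (Set.univ_nonempty (α := unitInterval))
      hx.norm.continuousOn
    exact ⟨‖x t0‖, fun t => h0 (Set.mem_univ t)⟩
  unfold FS.fc FS.int2
  refine continuous_const.mul ?_
  have hC : 0 ≤ 2 * ∑' k, (W.w k)⁻¹ := by
      have : ∀ k, 0 ≤ (W.w k)⁻¹ := fun k => inv_nonneg.mpr (W.pos k).le
      exact mul_nonneg zero_le_two (tsum_nonneg this)
  refine MeasureTheory.continuous_of_dominated (bound := fun _ =>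
    Real.exp ((2 * ∑' k, (W.w k)⁻¹) * R)) (fun t => ?_) (fun t => ?_) ?_ ?_
  · have h1 : Continuous fun p => Complex.exp (evS (sg W (x t)) p) * ex (-0) p :=
      (Complex.continuous_exp.comp (contDiff_evS (rapid_sg hW _)).continuous).mul
        (FS.continuous_ex _)
    exact h1.aestronglyMeasurable
  · refine Filter.Eventually.of_forall fun p => ?_
    rw [norm_mul, norm_ex, mul_one]
    refine (Complex.norm_exp_le_exp_norm _).trans (Real.exp_le_exp.mpr ?_)
    exact (evS_sg_bound hW _ p).trans (mul_le_mul_of_nonneg_left (hR t) hC)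
  · exact FS.integrableOn_SS continuous_const
  · refine Filter.Eventually.of_forall fun p => ?_
    exact (Complex.continuous_exp.comp (evS_sg_cont hW hx p)).mul continuous_const

variable (W : Wt) in
/-- division by the weight -/
def Dop : H2 →L[ℂ] H2 := shOp 0 (fun k => ((W.w k)⁻¹ : ℝ)) 1 (fun k => by
  rw [Complex.norm_real, Real.norm_of_nonneg (inv_nonneg.mpr (W.pos k).le)]
  exact inv_le_one_of_one_le₀ (W.one_le k))

lemma conv_zero_cont {W : Wt} {m : ℤ × ℤ → ℂ} (hm : Rapid m) {X : Type*} [TopologicalSpace X]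
    {x : X → H2} (hx : Continuous x) :
    Continuous fun t => conv m (fun j => sy j * (x t j / (W.w j : ℂ))) 0 := by
  have e : ∀ t, conv m (fun j => sy j * (x t j / (W.w j : ℂ))) 0 =
      (Mop m (Sop (Dop W (x t)))) 0 := by
    intro t
    rw [Mop_apply hm]
    congr 1
    funext j
    show _ = sy j * (((W.w (j - 0))⁻¹ : ℝ) * x t (j - 0 - 0))
    rw [sub_zero, sub_zero, div_eq_mul_inv, Complex.ofReal_inv]
    ring
  simp only [e]
  have h1 : Continuous fun t => Mop m (Sop (Dop W (x t))) :=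
    (Mop m).continuous.comp (Sop.continuous.comp ((Dop W).continuous.comp hx))
  have h2 : Continuous fun y : H2 => (y : ℤ × ℤ → ℂ) := lp.uniformContinuous_coe.continuous
  exact (continuous_apply 0).comp (h2.comp h1)

/-- Main existence theorem. -/
theorem exists_u {μ : ℝ × ℝ → ℂ} (hμ : FS.SPer μ) {κ : ℝ} (hκ0 : 0 ≤ κ) (hκ1 : κ < 1)
    (hb : ∀ p, ‖μ p‖ ≤ κ) :
    ∃ u : ℝ × ℝ → ℂ, FS.SPer u ∧ ∀ p, db u p = μ p * dz u p + dz μ p := by
  set m : ℤ × ℤ → ℂ := FS.fc μ with hmdef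
  have hm : Rapid m := FS.rapid_fc hμ
  have hev : evS m = μ := funext fun q => FS.evS_fc' hμ q
  obtain ⟨W, hW, -, h1, h2, h3⟩ := WX.exists_weight (fun k => fsz k * ‖m k‖)
    (fun k => mul_nonneg (fsz_pos k).le (norm_nonneg _))
    (fun s => (hm (s + 1)).congr fun k => by ring) (δ := (1 - κ) / 2) (by linarith only [hκ1])
  have hle : ∀ k, ‖m k‖ * (W.w k - 1) ≤ fsz k * ‖m k‖ * (W.w k - 1) := fun k =>
    mul_le_mul_of_nonneg_right (le_mul_of_one_le_left (norm_nonneg _) (one_le_fsz k))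
      (by linarith only [W.one_le k])
  have hs : Summable fun i => ‖m i‖ * (W.w i - 1) :=
    Summable.of_nonneg_of_le (fun k => mul_nonneg (norm_nonneg _) (by linarith only [W.one_le k]))
      hle h2
  have hδ : ∑' i, ‖m i‖ * (W.w i - 1) ≤ (1 - κ) / 2 :=
    (Summable.tsum_le_tsum hle hs h2).trans h3
  have hA : ‖Aop W m‖ < 1 := by
    have := norm_Aop_le hm hκ0 (fun p => by rw [hev]; exact hb p) hs hδ
    linarith only [hκ1, this]
  have hhs : Summable fun k => ‖(W.w k : ℂ) * (zs k * m k)‖ ^ 2 := by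
    have h4 : Summable fun k => ‖(W.w k : ℂ) * (zs k * m k)‖ := by
      refine Summable.of_nonneg_of_le (fun k => norm_nonneg _) (fun k => ?_) h1
      rw [norm_mul, norm_mul, Complex.norm_real, Real.norm_of_nonneg (W.pos k).le, mul_comm]
      exact mul_le_mul_of_nonneg_right
        (mul_le_mul_of_nonneg_right (norm_zs_le k) (norm_nonneg _)) (W.pos k).le
    refine Summable.of_nonneg_of_le (fun k => by (clear * -; positivity)) (fun k => ?_)
      (h4.mul_left (∑' k, ‖(W.w k : ℂ) * (zs k * m k)‖))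
    rw [sq]
    exact mul_le_mul_of_nonneg_right (h4.le_tsum k fun j _ => norm_nonneg _) (norm_nonneg _)
  set h : H2 := mkH _ hhs with hh
  set x : unitInterval → H2 := fun τ => sol (Aop W m) h τ with hx
  have hxc : Continuous x := sol_cont hA h
  set c' : unitInterval → ℂ := fun τ =>
    ((τ : ℝ) : ℂ) * conv m (fun j => sy j * (x τ j / (W.w j : ℂ))) 0 with hc'
  have hc'c : Continuous c' := by
    refine Continuous.mul ?_ (conv_zero_cont hm hxc)
    exact Complex.continuous_ofReal.comp continuous_subtype_val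
  have hpde : ∀ τ : unitInterval, ∀ p, db (evS (sg W (x τ))) p =
      (((τ : ℝ) : ℂ) * μ p) * dz (evS (sg W (x τ))) p + dz (fun q => ((τ : ℝ) : ℂ) * μ q) p
        - c' τ := by
    intro τ p
    have h5 := pde_sg hW hm hs (x := x τ) (h := h) (τ := ((τ : ℝ) : ℂ)) (fun k => rfl)
      (sol_eq hA h τ.2) p
    rw [h5, dz_const_mul (sper_diff hμ), hev, hc']
    ring
  have hdich : ∀ τ : unitInterval, c' τ = 0 ↔
      FS.fc (fun p => Complex.exp (evS (sg W (x τ)) p)) 0 ≠ 0 := by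
    intro τ
    refine dichotomy (sper_evS (rapid_sg hW _)) (SPer_const_mul hμ ((τ : ℝ) : ℂ)) hκ0 hκ1
      (fun p => ?_) (hpde τ)
    rw [norm_mul, Complex.norm_real, Real.norm_of_nonneg τ.2.1]
    calc (τ : ℝ) * ‖μ p‖ ≤ 1 * ‖μ p‖ := mul_le_mul_of_nonneg_right τ.2.2 (norm_nonneg _)
      _ ≤ κ := by rw [one_mul]; exact hb p
  have hclosed : IsClosed {τ : unitInterval | c' τ = 0} := isClosed_eq hc'c continuous_const
  have hopen : IsOpen {τ : unitInterval | c' τ = 0} := by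
    have : {τ : unitInterval | c' τ = 0} =
        {τ | FS.fc (fun p => Complex.exp (evS (sg W (x τ)) p)) 0 ≠ 0} :=
      Set.ext fun τ => hdich τ
    rw [this]
    exact isOpen_ne_fun (mean_cont hW hxc) continuous_const
  have huniv : {τ : unitInterval | c' τ = 0} = Set.univ :=
    IsClopen.eq_univ ⟨hclosed, hopen⟩ ⟨0, by simp only [hc', mul_eq_zero, Complex.ofReal_eq_zero, Set.Icc.coe_eq_zero, Set.mem_ofPred_eq, true_or]⟩
  have h1' : c' 1 = 0 := by
    have : (1 : unitInterval) ∈ {τ : unitInterval | c' τ = 0} := by rw [huniv]; trivial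
    exact this
  refine ⟨evS (sg W (x 1)), sper_evS (rapid_sg hW _), fun p => ?_⟩
  have h6 := hpde 1 p
  rw [h1', dz_const_mul (sper_diff hμ)] at h6
  rw [h6]
  simp only [Set.Icc.coe_one, Complex.ofReal_one, one_mul, sub_zero]

end Belt

end Vale.Agent.P205
end
end
end

section

section

open scoped ComplexConjugate ContDiff
open MeasureTheory

noncomputable section

namespace Vale.Agent.P205

namespace Belt

open RW

/-- coefficients of the periodic part of the primitive -/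
def pr (w : ℤ × ℤ → ℂ) (k : ℤ × ℤ) : ℂ := if k = 0 then 0 else w k / zs k

lemma zs_ne {k : ℤ × ℤ} (hk : k ≠ 0) : zs k ≠ 0 := by
  rw [← norm_ne_zero_iff, norm_zs_eq, norm_ne_zero_iff]
  exact bs_ne hk

lemma rapid_pr {w : ℤ × ℤ → ℂ} (hw : Rapid w) : Rapid (pr w) :=
  rapid_of_norm_le (C := 2) hw fun k => by
    unfold pr
    split_ifs with hk
    · rw [norm_zero]; positivity
    · have h1 := norm_bs_ge hk
      rw [norm_div, norm_zs_eq, div_le_iff₀ (lt_of_lt_of_le (by norm_num) h1)]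
      linarith only [mul_nonneg (sub_nonneg.2 h1) (sub_nonneg.2 (norm_nonneg (w k)))]

/-- linear part -/
def lin (A B : ℂ) : ℝ × ℝ →L[ℝ] ℂ :=
  (ContinuousLinearMap.fst ℝ ℝ ℝ).smulRight (A + B) +
    (ContinuousLinearMap.snd ℝ ℝ ℝ).smulRight (Complex.I * (A - B))

lemma lin_apply (A B : ℂ) (p : ℝ × ℝ) :
    lin A B p = (p.1 : ℂ) * (A + B) + (p.2 : ℂ) * (Complex.I * (A - B)) := by
  simp only [lin, add_apply, ContinuousLinearMap.smulRight_apply, ContinuousLinearMap.coe_fst', smul_add, Complex.real_smul, ContinuousLinearMap.coe_snd', mul_add]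

/-- primitive with prescribed `∂_z = w` and `∂_{\bar z} = V`. -/
theorem primitive {w V : ℝ × ℝ → ℂ} (hw : FS.SPer w) (hV : FS.SPer V)
    (h : ∀ p, db w p = dz V p) :
    ∃ (f : ℝ × ℝ → ℂ) (a b : ℂ), ContDiff ℝ ∞ f ∧
      (∀ p, f (p + (2 * Real.pi, 0)) = f p + a) ∧ (∀ p, f (p + (0, 2 * Real.pi)) = f p + b) ∧
      (∀ p, dz f p = w p) ∧ (∀ p, db f p = V p) := by
  set cw := FS.fc w with hcw
  set cV := FS.fc V with hcV
  have rw1 : Rapid cw := FS.rapid_fc hw
  have rV : Rapid cV := FS.rapid_fc hV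
  have hpr := rapid_pr rw1
  set A := cw 0 with hA
  set B := cV 0 with hB
  have hd : ∀ p, HasFDerivAt (fun q => lin A B q + evS (pr cw) q)
      (lin A B + fderiv ℝ (evS (pr cw)) p) p := fun p =>
    (lin A B).hasFDerivAt.add (hasFDerivAt_evS hpr p).differentiableAt.hasFDerivAt
  have hrel : ∀ k, bs k * cw k = zs k * cV k := by
    intro k
    rw [hcw, hcV, ← fc_db hw, ← fc_dz hV]
    congr 1
    funext p; exact h p
  refine ⟨fun q => lin A B q + evS (pr cw) q, lin A B (2 * Real.pi, 0), lin A B (0, 2 * Real.pi),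
    (lin A B).contDiff.add (contDiff_evS hpr), fun p => ?_, fun p => ?_, fun p => ?_, fun p => ?_⟩
  · simp only [map_add, (sper_evS hpr).2.1 p]; ring
  · simp only [(sper_evS hpr).2.2 p, map_add]; ring
  · have h1 : dz (fun q => lin A B q + evS (pr cw) q) p = A + dz (evS (pr cw)) p := by
      unfold dz
      rw [(hd p).fderiv]
      simp only [add_apply, lin_apply]
      push_cast
      linear_combination (-(A - B) / 2) * Complex.I_mul_I
    rw [h1, dz_evS hpr]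
    have h2 : w p = evS cw p := (FS.evS_fc' hw p).symm
    rw [h2, ← evS_delta A p, ← evS_add (rapid_delta A) (rapid_zs hpr)]
    congr 1
    funext k
    unfold pr
    by_cases hk : k = 0
    · subst hk; simp [hA]
    · have := zs_ne hk
      rw [if_neg hk, if_neg hk]; field_simp; ring
  · have h1 : db (fun q => lin A B q + evS (pr cw) q) p = B + db (evS (pr cw)) p := by
      unfold db
      rw [(hd p).fderiv]
      simp only [add_apply, lin_apply]
      push_cast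
      linear_combination ((A - B) / 2) * Complex.I_mul_I
    rw [h1, db_evS hpr]
    have h2 : V p = evS cV p := (FS.evS_fc' hV p).symm
    rw [h2, ← evS_delta B p, ← evS_add (rapid_delta B) (rapid_bs hpr)]
    congr 1
    funext k
    unfold pr
    by_cases hk : k = 0
    · subst hk; simp [hB]
    · have := zs_ne hk
      rw [if_neg hk, if_neg hk]
      field_simp
      rw [zero_mul, zero_add]
      exact hrel k

/-- scaling by `c` -/
def scl (c : ℝ) : ℝ × ℝ →L[ℝ] ℝ × ℝ := c • ContinuousLinearMap.id ℝ (ℝ × ℝ)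

lemma scl_apply (c : ℝ) (p : ℝ × ℝ) : scl c p = (c * p.1, c * p.2) := by
  simp [scl, Prod.ext_iff]

lemma fderiv_scl {f : ℝ × ℝ → ℂ} (hf : Differentiable ℝ f) (c : ℝ) (p v : ℝ × ℝ) :
    fderiv ℝ (fun q => f (scl c q)) p v = c * fderiv ℝ f (scl c p) v := by
  have h1 : HasFDerivAt (fun q => f (scl c q)) ((fderiv ℝ f (scl c p)).comp (scl c)) p :=
    (hf (scl c p)).hasFDerivAt.comp p (scl c).hasFDerivAt
  rw [h1.fderiv]
  show fderiv ℝ f (scl c p) (c • v) = _
  rw [map_smul]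
  simp

theorem tbel : TBel := by
  intro μ κ hμ hper hκ1 hb
  have hκ0 : 0 ≤ κ := (norm_nonneg _).trans (hb 0)
  have hpi : (2 * Real.pi) ≠ 0 := by positivity
  set μ' : ℝ × ℝ → ℂ := fun p => μ (scl (2 * Real.pi)⁻¹ p) with hμ'
  have hμ'S : FS.SPer μ' := by
    refine ⟨hμ.comp (scl _).contDiff, fun p => ?_, fun p => ?_⟩
    · have e : scl (2 * Real.pi)⁻¹ (p + (2 * Real.pi, 0)) = scl (2 * Real.pi)⁻¹ p + (1, 0) := by
        rw [map_add]; congr 1; rw [scl_apply]; simp only [mul_zero]; rw [inv_mul_cancel₀ hpi]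
      simp only [hμ']; rw [e, hper.1]
    · have e : scl (2 * Real.pi)⁻¹ (p + (0, 2 * Real.pi)) = scl (2 * Real.pi)⁻¹ p + (0, 1) := by
        rw [map_add]; congr 1; rw [scl_apply]; simp only [mul_zero]; rw [inv_mul_cancel₀ hpi]
      simp only [hμ']; rw [e, hper.2]
  obtain ⟨u, hu, hpde⟩ := exists_u hμ'S hκ0 hκ1 fun p => hb _
  set w : ℝ × ℝ → ℂ := fun p => Complex.exp (u p) with hw
  have hwS : FS.SPer w := SPer_cexp hu
  set V : ℝ × ℝ → ℂ := fun p => μ' p * w p with hV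
  have hVS : FS.SPer V := SPer_mul hμ'S hwS
  have key : ∀ p, db w p = dz V p := by
    intro p
    rw [hw, db_cexp (sper_diff hu), hV, dz_mul (sper_diff hμ'S) (sper_diff hwS), hw,
      dz_cexp (sper_diff hu), hpde p]
    ring
  obtain ⟨f, a, b, hf, h1, h2, h3, h4⟩ := primitive hwS hVS key
  have hfd : Differentiable ℝ f := hf.differentiable (by simp)
  refine ⟨fun q => f (scl (2 * Real.pi) q), a, b, hf.comp (scl _).contDiff, fun p => ?_,
    fun p => ?_, fun p => ?_, fun p => ?_⟩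
  · simp only
    rw [← h1]; congr 1; rw [map_add]; congr 1; rw [scl_apply]; simp
  · simp only
    rw [← h2]; congr 1; rw [map_add]; congr 1; rw [scl_apply]; simp
  · rw [fderiv_scl hfd, fderiv_scl hfd]
    have h5 := h3 (scl (2 * Real.pi) p)
    unfold dz at h5
    have h6 : w (scl (2 * Real.pi) p) ≠ 0 := Complex.exp_ne_zero _
    intro h7
    have h8 : (((2 * Real.pi : ℝ) : ℂ)) * (2 * w (scl (2 * Real.pi) p)) = 0 := by
      rw [← h5, ← h7]; ring
    have h9 : (((2 * Real.pi : ℝ) : ℂ)) ≠ 0 := by exact_mod_cast hpi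
    rcases mul_eq_zero.mp h8 with h10 | h10
    · exact h9 h10
    · rcases mul_eq_zero.mp h10 with h11 | h11
      · norm_num at h11
      · exact h6 h11
  · rw [fderiv_scl hfd, fderiv_scl hfd]
    have h5 := h3 (scl (2 * Real.pi) p)
    have h6 := h4 (scl (2 * Real.pi) p)
    unfold dz at h5
    unfold db at h6
    have h7 : μ' (scl (2 * Real.pi) p) = μ p := by
      simp only [hμ']
      congr 1
      rw [scl_apply, scl_apply]
      ext
      · simp only; rw [← mul_assoc, inv_mul_cancel₀ hpi, one_mul]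
      · simp only; rw [← mul_assoc, inv_mul_cancel₀ hpi, one_mul]
    have h8 : V (scl (2 * Real.pi) p) = μ p * w (scl (2 * Real.pi) p) := by
      simp only [hV]; rw [h7]
    rw [h8] at h6
    linear_combination (2 * (((2 * Real.pi : ℝ) : ℂ))) * h6 -
      (2 * (((2 * Real.pi : ℝ) : ℂ))) * μ p * h5

end Belt

end Vale.Agent.P205
end
end
end

section

section

open scoped ContDiff Manifold Topology
open Bundle

namespace Vale.Agent.P205.Mfd

set_option maxSynthPendingDepth 3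
set_option linter.unusedSectionVars false

/-! ### Linear algebra -/

lemma gram_pos {V : Type*} [AddCommGroup V] [Module ℝ V]
    (B : V →ₗ[ℝ] V →ₗ[ℝ] ℝ) (hs : ∀ v w, B v w = B w v) (hp : ∀ v, v ≠ 0 → 0 < B v v)
    (x y : V) (hx : x ≠ 0) (h : ∀ s t : ℝ, s • x + t • y = 0 → t = 0) :
    0 < B x x * B y y - (B x y) ^ 2 := by
  have hE : 0 < B x x := hp x hx
  have hne : (B x y) • x + (-(B x x)) • y ≠ 0 := by
    intro h0
    have := h _ _ h0
    linarith only [hE, this]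
  have h1 := hp _ hne
  have h2 : B ((B x y) • x + (-(B x x)) • y) ((B x y) • x + (-(B x x)) • y)
      = B x x * (B x x * B y y - (B x y) ^ 2) := by
    simp only [map_add, map_smul, LinearMap.add_apply, LinearMap.smul_apply, smul_eq_mul]
    rw [hs y x]
    ring
  rw [h2] at h1
  exact (pos_iff_pos_of_mul_pos h1).1 hE

/-! ### Surfaces covered by the plane -/

section

variable {E₂ : Type*} [NormedAddCommGroup E₂] [NormedSpace ℝ E₂]
  {M : Type*} [TopologicalSpace M] [ChartedSpace E₂ M] [IsManifold 𝓘(ℝ, E₂) ∞ M]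

variable (E₂) in
/-- `pr : ℝ² → M` is a smooth covering with group `ℤ²`. -/
structure Cover (pr : ℝ × ℝ → M) : Prop where
  smooth : ContMDiff 𝓘(ℝ, ℝ × ℝ) 𝓘(ℝ, E₂) ∞ pr
  per1 : ∀ p, pr (p + (1, 0)) = pr p
  per2 : ∀ p, pr (p + (0, 1)) = pr p
  sec : ∀ m, ∃ s : M → ℝ × ℝ, ContMDiffAt 𝓘(ℝ, E₂) 𝓘(ℝ, ℝ × ℝ) ∞ s m ∧ ∀ᶠ m' in 𝓝 m, pr (s m') = m'
  fib : ∀ p q, pr p = pr q → ∃ i j : ℤ, q = p + ((i : ℝ), (j : ℝ))

/-- the pullback of the metric -/
noncomputable def pb (g : ContMDiffRiemannianMetric 𝓘(ℝ, E₂) ∞ (E₂)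
    (fun x : M => TangentSpace 𝓘(ℝ, E₂) x)) (pr : ℝ × ℝ → M) (p v w : ℝ × ℝ) : ℝ :=
  g.inner (pr p) (mfderiv 𝓘(ℝ, ℝ × ℝ) 𝓘(ℝ, E₂) pr p v) (mfderiv 𝓘(ℝ, ℝ × ℝ) 𝓘(ℝ, E₂) pr p w)

variable {g : ContMDiffRiemannianMetric 𝓘(ℝ, E₂) ∞ (E₂)
    (fun x : M => TangentSpace 𝓘(ℝ, E₂) x)} {pr : ℝ × ℝ → M}

lemma pb_add_left (p v v' w : ℝ × ℝ) : pb g pr p (v + v') w = pb g pr p v w + pb g pr p v' w := by
  have h := ContinuousLinearMap.map_add (mfderiv 𝓘(ℝ, ℝ × ℝ) 𝓘(ℝ, E₂) pr p) v v'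
  have h2 := congrArg (fun z : TangentSpace 𝓘(ℝ, E₂) (pr p) =>
    g.inner (pr p) z (mfderiv 𝓘(ℝ, ℝ × ℝ) 𝓘(ℝ, E₂) pr p w)) h
  refine h2.trans ?_
  show g.inner (pr p) (_ + _) _ = _
  rw [ContinuousLinearMap.map_add, add_apply]
  rfl

lemma pb_smul_left (p v w : ℝ × ℝ) (c : ℝ) : pb g pr p (c • v) w = c * pb g pr p v w := by
  have h := ContinuousLinearMap.map_smul (mfderiv 𝓘(ℝ, ℝ × ℝ) 𝓘(ℝ, E₂) pr p) c v
  have h2 := congrArg (fun z : TangentSpace 𝓘(ℝ, E₂) (pr p) =>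
    g.inner (pr p) z (mfderiv 𝓘(ℝ, ℝ × ℝ) 𝓘(ℝ, E₂) pr p w)) h
  refine h2.trans ?_
  show g.inner (pr p) (_ • _) _ = _
  rw [ContinuousLinearMap.map_smul, smul_apply, smul_eq_mul]
  rfl

lemma pb_symm (p v w : ℝ × ℝ) : pb g pr p v w = pb g pr p w v := g.symm _ _ _

lemma pb_form (p v w : ℝ × ℝ) : pb g pr p v w =
    form (pb g pr p (1, 0) (1, 0)) (pb g pr p (1, 0) (0, 1)) (pb g pr p (0, 1) (0, 1)) v w := by
  have hv : v = v.1 • ((1 : ℝ), (0 : ℝ)) + v.2 • ((0 : ℝ), (1 : ℝ)) := by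
    ext <;> simp
  have hw : w = w.1 • ((1 : ℝ), (0 : ℝ)) + w.2 • ((0 : ℝ), (1 : ℝ)) := by
    ext <;> simp
  have h1 : ∀ z, pb g pr p z w = w.1 * pb g pr p z (1, 0) + w.2 * pb g pr p z (0, 1) := by
    intro z
    conv_lhs => rw [hw]
    rw [pb_symm, pb_add_left, pb_smul_left, pb_smul_left, pb_symm p _ z, pb_symm p _ z]
  conv_lhs => rw [hv]
  rw [pb_add_left, pb_smul_left, pb_smul_left, h1, h1]
  rw [pb_symm p (0, 1) (1, 0)]
  unfold form
  ring

lemma pb_smooth (hpr : ContMDiff 𝓘(ℝ, ℝ × ℝ) 𝓘(ℝ, E₂) ∞ pr) (v w : ℝ × ℝ) :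
    ContDiff ℝ ∞ (fun p => pb g pr p v w) := by
  have hsec : ∀ v : ℝ × ℝ, ContMDiff 𝓘(ℝ, ℝ × ℝ) 𝓘(ℝ, ℝ × ℝ).tangent ∞
      (fun p : ℝ × ℝ => (⟨p, v⟩ : TangentBundle 𝓘(ℝ, ℝ × ℝ) (ℝ × ℝ))) := by
    intro v
    exact contMDiff_vectorSpace_iff_contDiff.2 contDiff_const
  have hT : ∀ v : ℝ × ℝ, ContMDiff 𝓘(ℝ, ℝ × ℝ) 𝓘(ℝ, E₂).tangent ∞
      (fun p : ℝ × ℝ => (⟨pr p, mfderiv 𝓘(ℝ, ℝ × ℝ) 𝓘(ℝ, E₂) pr p v⟩ : TangentBundle 𝓘(ℝ, E₂) M)) := by
    intro v
    exact (hpr.contMDiff_tangentMap (m := ∞) (by simp)).comp (hsec v)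
  have h1 := ContMDiff.clm_bundle_apply₂ (F₁ := E₂)
    (F₂ := E₂) (F₃ := ℝ) (E₃ := Bundle.Trivial M ℝ)
    (g.contMDiff.comp hpr) (hT v) (hT w)
  rw [← contMDiff_iff_contDiff]
  intro p
  have h2 := h1 p
  rw [contMDiffAt_totalSpace] at h2
  exact h2.2

variable (E₂) in
/-- the differential of `pr` -/
noncomputable def dpr (pr : ℝ × ℝ → M) (p : ℝ × ℝ) : (ℝ × ℝ) →L[ℝ] E₂ :=
  mfderiv 𝓘(ℝ, ℝ × ℝ) 𝓘(ℝ, E₂) pr p

omit [IsManifold 𝓘(ℝ, E₂) ∞ M] in
lemma dpr_trans (hpr : ContMDiff 𝓘(ℝ, ℝ × ℝ) 𝓘(ℝ, E₂) ∞ pr) (e : ℝ × ℝ) (he : ∀ p, pr (p + e) = pr p)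
    (p : ℝ × ℝ) : dpr E₂ pr (p + e) = dpr E₂ pr p := by
  have h1 : MDifferentiableAt 𝓘(ℝ, ℝ × ℝ) 𝓘(ℝ, E₂) pr (p + e) :=
    (hpr (p + e)).mdifferentiableAt (by simp)
  have h2 : HasMFDerivAt 𝓘(ℝ, ℝ × ℝ) 𝓘(ℝ, ℝ × ℝ) (fun q : ℝ × ℝ => q + e) p
      (ContinuousLinearMap.id ℝ (ℝ × ℝ)) :=
    ((hasFDerivAt_id p).add_const e).hasMFDerivAt
  have h3 := h1.hasMFDerivAt.comp p h2
  have h4 : pr ∘ (fun q : ℝ × ℝ => q + e) = pr := by
    funext q; exact he q
  rw [h4] at h3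
  have h5 := h3.mfderiv
  unfold dpr
  rw [h5]
  rfl

lemma pb_trans (hpr : ContMDiff 𝓘(ℝ, ℝ × ℝ) 𝓘(ℝ, E₂) ∞ pr) (e : ℝ × ℝ) (he : ∀ p, pr (p + e) = pr p)
    (p v w : ℝ × ℝ) : pb g pr (p + e) v w = pb g pr p v w := by
  have h1 : ∀ (m m' : M) (a b : E₂), m = m' →
      g.inner m (show TangentSpace 𝓘(ℝ, E₂) m from a) (show TangentSpace 𝓘(ℝ, E₂) m from b)
       = g.inner m' (show TangentSpace 𝓘(ℝ, E₂) m' from a) (show TangentSpace 𝓘(ℝ, E₂) m' from b) := by
    rintro m m' a b rfl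
    rfl
  have h2 := h1 _ _ (dpr E₂ pr p v) (dpr E₂ pr p w) (he p)
  have h3 := dpr_trans hpr e he p
  refine Eq.trans ?_ h2
  rw [← h3]
  rfl

lemma dpr_surj (h : Cover E₂ pr) (p : ℝ × ℝ) : Function.Surjective (dpr E₂ pr p) := by
  obtain ⟨s, hs, hs2⟩ := h.sec (pr p)
  have h0 : pr (s (pr p)) = pr p := hs2.self_of_nhds
  obtain ⟨i, j, hij⟩ := h.fib p (s (pr p)) h0.symm
  have hper : ∀ q, pr (q + ((i : ℝ), (j : ℝ))) = pr q := by
    have hz1 : ∀ (n : ℕ) q, pr (q + ((n : ℝ), 0)) = pr q := by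
      intro n
      induction n with
      | zero => intro q; congr 1; ext <;> simp
      | succ n ih =>
        intro q
        have := h.per1 (q + ((n : ℝ), 0))
        rw [ih] at this
        rw [← this]
        congr 1
        ext <;> simp only [Nat.cast_add, Nat.cast_one, Prod.fst_add, add_assoc, Prod.mk_add_mk, add_zero]
    have hz2 : ∀ (n : ℕ) q, pr (q + (0, (n : ℝ))) = pr q := by
      intro n
      induction n with
      | zero => intro q; congr 1; ext <;> simp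
      | succ n ih =>
        intro q
        have := h.per2 (q + (0, (n : ℝ)))
        rw [ih] at this
        rw [← this]
        congr 1
        ext <;> simp only [Nat.cast_add, Nat.cast_one, Prod.fst_add, add_zero, add_assoc, Prod.mk_add_mk]
    have hz1' : ∀ (n : ℤ) q, pr (q + ((n : ℝ), 0)) = pr q := by
      intro n q
      obtain ⟨m, rfl | rfl⟩ := n.eq_nat_or_neg
      · simpa using hz1 m q
      · have := hz1 m (q + (((-(m : ℤ) : ℤ) : ℝ), 0))
        rw [← this]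
        congr 1
        ext <;> simp
    have hz2' : ∀ (n : ℤ) q, pr (q + (0, (n : ℝ))) = pr q := by
      intro n q
      obtain ⟨m, rfl | rfl⟩ := n.eq_nat_or_neg
      · simpa using hz2 m q
      · have := hz2 m (q + (0, ((-(m : ℤ) : ℤ) : ℝ)))
        rw [← this]
        congr 1
        ext <;> simp
    intro q
    have := hz2' j (q + ((i : ℝ), 0))
    rw [hz1' i q] at this
    rw [← this]
    congr 1
    ext <;> simp
  rw [← dpr_trans h.smooth _ hper p, ← hij]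
  have h1 : MDifferentiableAt 𝓘(ℝ, ℝ × ℝ) 𝓘(ℝ, E₂) pr (s (pr p)) :=
    (h.smooth _).mdifferentiableAt (by simp)
  have h2 : MDifferentiableAt 𝓘(ℝ, E₂) 𝓘(ℝ, ℝ × ℝ) s (pr p) := hs.mdifferentiableAt (by simp)
  have h3 := h1.hasMFDerivAt.comp _ h2.hasMFDerivAt
  have h4 : HasMFDerivAt 𝓘(ℝ, E₂) 𝓘(ℝ, E₂) (pr ∘ s) (pr p)
      (ContinuousLinearMap.id ℝ (TangentSpace 𝓘(ℝ, E₂) (pr p))) := by
    refine (hasMFDerivAt_id (pr p)).congr_of_eventuallyEq ?_
    filter_upwards [hs2] with m hm using hm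
  have h5 := hasMFDerivAt_unique h3 h4
  intro w
  refine ⟨mfderiv 𝓘(ℝ, E₂) 𝓘(ℝ, ℝ × ℝ) s (pr p) w, ?_⟩
  exact congrArg (fun L : TangentSpace 𝓘(ℝ, E₂) (pr p) →L[ℝ] TangentSpace 𝓘(ℝ, E₂) (pr p) => L w) h5

lemma dpr_inj (hE : Module.finrank ℝ E₂ = 2) (h : Cover E₂ pr) (p : ℝ × ℝ) :
    Function.Injective (dpr E₂ pr p) := by
  have h1 : Module.finrank ℝ (ℝ × ℝ) = Module.finrank ℝ E₂ := by rw [hE]; simp
  have : FiniteDimensional ℝ E₂ := Module.finite_of_finrank_eq_succ (n := 1) hE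
  exact (LinearMap.injective_iff_surjective_of_finrank_eq_finrank h1
    (f := (dpr E₂ pr p : (ℝ × ℝ) →ₗ[ℝ] E₂))).2 (dpr_surj h p)

/-- Periodicity under all integer translations. -/
lemma per_all {α : Type*} {f : ℝ × ℝ → α} (h : Periodic2 (1, 0) (0, 1) f) (i j : ℤ) (q : ℝ × ℝ) :
    f (q + ((i : ℝ), (j : ℝ))) = f q := by
  have hz1 : ∀ (n : ℕ) q, f (q + ((n : ℝ), 0)) = f q := by
    intro n
    induction n with
    | zero => intro q; congr 1; ext <;> simp
    | succ n ih =>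
      intro q
      have := h.1 (q + ((n : ℝ), 0))
      rw [ih] at this
      rw [← this]
      congr 1
      ext <;> simp only [Nat.cast_add, Nat.cast_one, Prod.fst_add, add_assoc, Prod.mk_add_mk, add_zero]
  have hz2 : ∀ (n : ℕ) q, f (q + (0, (n : ℝ))) = f q := by
    intro n
    induction n with
    | zero => intro q; congr 1; ext <;> simp
    | succ n ih =>
      intro q
      have := h.2 (q + (0, (n : ℝ)))
      rw [ih] at this
      rw [← this]
      congr 1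
      ext <;> simp [add_assoc]
  have hz1' : ∀ (n : ℤ) q, f (q + ((n : ℝ), 0)) = f q := by
    intro n q
    obtain ⟨m, rfl | rfl⟩ := n.eq_nat_or_neg
    · simpa using hz1 m q
    · have := hz1 m (q + (((-(m : ℤ) : ℤ) : ℝ), 0))
      rw [← this]
      congr 1
      ext <;> simp
  have hz2' : ∀ (n : ℤ) q, f (q + (0, (n : ℝ))) = f q := by
    intro n q
    obtain ⟨m, rfl | rfl⟩ := n.eq_nat_or_neg
    · simpa using hz2 m q
    · have := hz2 m (q + (0, ((-(m : ℤ) : ℤ) : ℝ)))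
      rw [← this]
      congr 1
      ext <;> simp
  have := hz2' j (q + ((i : ℝ), 0))
  rw [hz1' i q] at this
  rw [← this]
  congr 1
  ext <;> simp

theorem descend (hE : Module.finrank ℝ E₂ = 2) (hT : TGen) (h : Cover E₂ pr) (g : ContMDiffRiemannianMetric 𝓘(ℝ, E₂) ∞
    (E₂) (fun x : M => TangentSpace 𝓘(ℝ, E₂) x)) :
    ∃ X : M → EuclideanSpace ℝ (Fin 4),
      ContMDiff 𝓘(ℝ, E₂) 𝓘(ℝ, EuclideanSpace ℝ (Fin 4)) ∞ X ∧
      ∀ (m : M) (v w : TangentSpace 𝓘(ℝ, E₂) m),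
        inner ℝ (mvfderiv 𝓘(ℝ, E₂) X m v) (mvfderiv 𝓘(ℝ, E₂) X m w) = g.inner m v w := by
  classical
  have hinj : ∀ p v, dpr E₂ pr p v = 0 → v = 0 := by
    intro p v hv
    apply dpr_inj hE h p
    rw [hv, map_zero]
  have hpos : ∀ p v, v ≠ 0 → 0 < pb g pr p v v := by
    intro p v hv
    apply g.pos
    intro h0
    exact hv (hinj p v h0)
  let B : ℝ × ℝ → (ℝ × ℝ) →ₗ[ℝ] (ℝ × ℝ) →ₗ[ℝ] ℝ := fun p =>
    LinearMap.mk₂ ℝ (fun v w => pb g pr p v w) (pb_add_left p) (fun c v w => pb_smul_left p v w c)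
      (fun v w w' => by rw [pb_symm, pb_add_left, pb_symm p w, pb_symm p w'])
      (fun c v w => by rw [pb_symm, pb_smul_left, pb_symm, smul_eq_mul])
  obtain ⟨Y, hY, hYp, hYi⟩ := hT (fun p => pb g pr p (1, 0) (1, 0))
    (fun p => pb g pr p (1, 0) (0, 1)) (fun p => pb g pr p (0, 1) (0, 1))
    (pb_smooth h.smooth _ _) (pb_smooth h.smooth _ _) (pb_smooth h.smooth _ _)
    ⟨fun p => pb_trans h.smooth _ h.per1 _ _ _, fun p => pb_trans h.smooth _ h.per2 _ _ _⟩
    ⟨fun p => pb_trans h.smooth _ h.per1 _ _ _, fun p => pb_trans h.smooth _ h.per2 _ _ _⟩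
    ⟨fun p => pb_trans h.smooth _ h.per1 _ _ _, fun p => pb_trans h.smooth _ h.per2 _ _ _⟩
    (fun p => hpos p _ (by intro h0; simpa using congrArg Prod.fst h0))
    (fun p => gram_pos (B p) (fun v w => pb_symm p v w) (fun v hv => hpos p v hv) (1, 0) (0, 1)
      (by intro h0; simpa using congrArg Prod.fst h0)
      (by intro s t h0; simpa using congrArg Prod.snd h0))
  -- a global (non continuous) section
  have hex : ∀ m, ∃ q, pr q = m := fun m => by
    obtain ⟨s, -, hs⟩ := h.sec m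
    exact ⟨s m, hs.self_of_nhds⟩
  choose σ hσ using hex
  have hfac : ∀ p q, pr p = pr q → Y p = Y q := by
    intro p q hpq
    obtain ⟨i, j, rfl⟩ := h.fib p q hpq
    exact (per_all hYp i j p).symm
  let X : M → EuclideanSpace ℝ (Fin 4) := fun m => Y (σ m)
  have hX : ∀ p, X (pr p) = Y p := fun p => hfac _ _ (hσ _)
  have hXs : ContMDiff 𝓘(ℝ, E₂) 𝓘(ℝ, EuclideanSpace ℝ (Fin 4)) ∞ X := by
    intro m
    obtain ⟨s, hs, hs2⟩ := h.sec m
    have h1 : ContMDiffAt 𝓘(ℝ, E₂) 𝓘(ℝ, EuclideanSpace ℝ (Fin 4)) ∞ (Y ∘ s) m :=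
      (hY.contMDiff (s m)).comp m hs
    refine h1.congr_of_eventuallyEq ?_
    filter_upwards [hs2] with m' hm'
    rw [Function.comp_apply, ← hX, hm']
  refine ⟨X, hXs, ?_⟩
  intro m v w
  obtain ⟨p, rfl⟩ : ∃ p, pr p = m := ⟨σ m, hσ m⟩
  obtain ⟨v', rfl⟩ := dpr_surj h p v
  obtain ⟨w', rfl⟩ := dpr_surj h p w
  have h1 : MDifferentiableAt 𝓘(ℝ, ℝ × ℝ) 𝓘(ℝ, E₂) pr p := (h.smooth p).mdifferentiableAt (by simp)
  have h2 : MDifferentiableAt 𝓘(ℝ, E₂) 𝓘(ℝ, EuclideanSpace ℝ (Fin 4)) X (pr p) :=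
    (hXs (pr p)).mdifferentiableAt (by simp)
  have h3 := h2.hasMFDerivAt.comp p h1.hasMFDerivAt
  have h4 : X ∘ pr = Y := funext hX
  rw [h4] at h3
  have h5 : HasMFDerivAt 𝓘(ℝ, ℝ × ℝ) 𝓘(ℝ, EuclideanSpace ℝ (Fin 4)) Y p (fderiv ℝ Y p) :=
    ((hY.differentiable (by simp)) p).hasFDerivAt.hasMFDerivAt
  have h6 := hasMFDerivAt_unique h3 h5
  have h7 : ∀ z : ℝ × ℝ, mvfderiv 𝓘(ℝ, E₂) X (pr p) (dpr E₂ pr p z) = fderiv ℝ Y p z := by
    intro z
    exact congrArg (fun L : (ℝ × ℝ) →L[ℝ] EuclideanSpace ℝ (Fin 4) => L z) h6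
  rw [h7, h7, hYi p v' w', ← pb_form]
  rfl

end

end Vale.Agent.P205.Mfd
end
end

section

section

open scoped ContDiff Manifold Topology
open Bundle

namespace Vale.Agent.P205.Mfd

set_option maxSynthPendingDepth 3

attribute [local instance] finrank_real_complex_fact'

/-- local inverse of `t ↦ exp (2π i t)` near `z₀` -/
noncomputable def larg (z₀ z : Circle) : ℝ :=
  (Complex.arg ((z * z₀⁻¹ : Circle) : ℂ) + Complex.arg (z₀ : ℂ)) / (2 * Real.pi)

lemma exp_larg (z₀ z : Circle) : Circle.exp (2 * Real.pi * larg z₀ z) = z := by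
  have h : 2 * Real.pi * larg z₀ z
      = Complex.arg ((z * z₀⁻¹ : Circle) : ℂ) + Complex.arg (z₀ : ℂ) := by
    unfold larg
    (clear * -; field_simp)
  rw [h, Circle.exp_add, Circle.exp_arg, Circle.exp_arg]
  simp

lemma larg_smooth (z₀ : Circle) : ContMDiffAt (𝓡 1) 𝓘(ℝ, ℝ) ∞ (larg z₀) z₀ := by
  have h1 : ContMDiff (𝓡 1) 𝓘(ℝ, ℂ) ∞ (fun z : Circle => (z : ℂ)) :=
    contMDiff_coe_sphere
  have h2 : ContDiffAt ℝ ∞ (fun w : ℂ => ((Complex.log (w * (z₀ : ℂ)⁻¹)).im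
      + Complex.arg (z₀ : ℂ)) / (2 * Real.pi)) (z₀ : ℂ) := by
    have hl : ContDiffAt ℝ ∞ Complex.log ((z₀ : ℂ) * (z₀ : ℂ)⁻¹) := by
      apply (Complex.contDiffAt_log (n := ∞) _).restrict_scalars ℝ
      rw [mul_inv_cancel₀ (by simp)]
      exact Complex.one_mem_slitPlane
    have hm : ContDiffAt ℝ ∞ (fun w : ℂ => w * (z₀ : ℂ)⁻¹) (z₀ : ℂ) :=
      contDiffAt_id.mul contDiffAt_const
    have hc := hl.comp (z₀ : ℂ) hm
    have him : ContDiffAt ℝ ∞ (fun w : ℂ => (Complex.log (w * (z₀ : ℂ)⁻¹)).im) (z₀ : ℂ) :=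
      Complex.imCLM.contDiff.contDiffAt.comp (z₀ : ℂ) hc
    exact (him.add contDiffAt_const).div_const _
  have h3 := (h2.contMDiffAt).comp z₀ (h1 z₀)
  have h4 : larg z₀ = (fun w : ℂ => ((Complex.log (w * (z₀ : ℂ)⁻¹)).im
      + Complex.arg (z₀ : ℂ)) / (2 * Real.pi)) ∘ (fun z : Circle => (z : ℂ)) := by
    funext z
    simp only [larg, Function.comp_apply, Complex.log_im, Circle.coe_mul, Circle.coe_inv]
  rw [h4]
  exact h3

variable {E₂ : Type*} [NormedAddCommGroup E₂] [NormedSpace ℝ E₂]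
  {M : Type*} [TopologicalSpace M] [ChartedSpace E₂ M]

/-- the covering `ℝ² → M` -/
noncomputable def cov (Φ : (Circle × Circle) ≃ₘ⟮(𝓡 1).prod (𝓡 1), 𝓘(ℝ, E₂)⟯ M) (p : ℝ × ℝ) : M :=
  Φ (Circle.exp (2 * Real.pi * p.1), Circle.exp (2 * Real.pi * p.2))

lemma cov_cover (Φ : (Circle × Circle) ≃ₘ⟮(𝓡 1).prod (𝓡 1), 𝓘(ℝ, E₂)⟯ M) : Cover E₂ (cov Φ) where
  smooth := by
    refine Φ.contMDiff.comp (ContMDiff.prodMk ?_ ?_)
    · exact contMDiff_circleExp.comp
        (contMDiff_iff_contDiff.2 (contDiff_const.mul contDiff_fst))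
    · exact contMDiff_circleExp.comp
        (contMDiff_iff_contDiff.2 (contDiff_const.mul contDiff_snd))
  per1 := by
    intro p
    unfold cov
    have : Circle.exp (2 * Real.pi * (p + ((1 : ℝ), (0 : ℝ))).1) = Circle.exp (2 * Real.pi * p.1) := by
      rw [Circle.exp_eq_exp]
      exact ⟨1, by simp; ring⟩
    rw [this]
    simp only [Prod.snd_add, add_zero]
  per2 := by
    intro p
    unfold cov
    have : Circle.exp (2 * Real.pi * (p + ((0 : ℝ), (1 : ℝ))).2) = Circle.exp (2 * Real.pi * p.2) := by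
      rw [Circle.exp_eq_exp]
      exact ⟨1, by simp; ring⟩
    rw [this]
    simp only [Prod.fst_add, add_zero]
  sec := by
    intro m
    refine ⟨fun m' => (larg (Φ.symm m).1 (Φ.symm m').1, larg (Φ.symm m).2 (Φ.symm m').2), ?_, ?_⟩
    · have hs : ContMDiffAt 𝓘(ℝ, E₂) ((𝓡 1).prod (𝓡 1)) ∞ (fun m' => Φ.symm m') m :=
        Φ.symm.contMDiff m
      have h1 : ContMDiffAt 𝓘(ℝ, E₂) (𝓡 1) ∞ (fun m' => (Φ.symm m').1) m := hs.fst
      have h2 : ContMDiffAt 𝓘(ℝ, E₂) (𝓡 1) ∞ (fun m' => (Φ.symm m').2) m := hs.snd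
      have h3 := (larg_smooth (Φ.symm m).1).comp m h1
      have h4 := (larg_smooth (Φ.symm m).2).comp m h2
      exact h3.prodMk_space h4
    · refine Filter.Eventually.of_forall (fun m' => ?_)
      unfold cov
      rw [exp_larg, exp_larg]
      exact Φ.apply_symm_apply m'
  fib := by
    intro p q h
    unfold cov at h
    have h1 := Φ.injective h
    have h2 := congrArg Prod.fst h1
    have h3 := congrArg Prod.snd h1
    simp only at h2 h3
    rw [Circle.exp_eq_exp] at h2 h3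
    obtain ⟨i, hi⟩ := h2
    obtain ⟨j, hj⟩ := h3
    refine ⟨-i, -j, ?_⟩
    have hp : (2 * Real.pi) ≠ 0 := by positivity
    have e1 : q.1 = p.1 - i := by
      have : 2 * Real.pi * q.1 = 2 * Real.pi * (p.1 - i) := by linarith only [hi]
      exact mul_left_cancel₀ hp this
    have e2 : q.2 = p.2 - j := by
      have : 2 * Real.pi * q.2 = 2 * Real.pi * (p.2 - j) := by linarith only [hj]
      exact mul_left_cancel₀ hp this
    ext
    · rw [e1]; simp only [Int.cast_neg, Prod.fst_add]; ring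
    · rw [e2]; simp only [Int.cast_neg, Prod.snd_add]; ring

/-- **Every smooth Riemannian metric on a surface diffeomorphic to the torus immerses
isometrically in `ℝ⁴`** (from the plane form). -/
theorem manifold_of_tgen [IsManifold 𝓘(ℝ, E₂) ∞ M] (hE : Module.finrank ℝ E₂ = 2) (hT : TGen)
    (Φ : (Circle × Circle) ≃ₘ⟮(𝓡 1).prod (𝓡 1), 𝓘(ℝ, E₂)⟯ M)
    (g : ContMDiffRiemannianMetric 𝓘(ℝ, E₂) ∞
      E₂ (fun x : M => TangentSpace 𝓘(ℝ, E₂) x)) :
    ∃ X : M → EuclideanSpace ℝ (Fin 4),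
      ContMDiff 𝓘(ℝ, E₂) 𝓘(ℝ, EuclideanSpace ℝ (Fin 4)) ∞ X ∧
      ∀ (m : M) (v w : TangentSpace 𝓘(ℝ, E₂) m),
        inner ℝ (mvfderiv 𝓘(ℝ, E₂) X m v) (mvfderiv 𝓘(ℝ, E₂) X m w) = g.inner m v w :=
  descend hE hT (cov_cover Φ) g

/-- Same with four real functions. -/
theorem manifold_of_tgen' [IsManifold 𝓘(ℝ, E₂) ∞ M] (hE : Module.finrank ℝ E₂ = 2) (hT : TGen)
    (Φ : (Circle × Circle) ≃ₘ⟮(𝓡 1).prod (𝓡 1), 𝓘(ℝ, E₂)⟯ M)
    (g : ContMDiffRiemannianMetric 𝓘(ℝ, E₂) ∞ E₂ (fun x : M => TangentSpace 𝓘(ℝ, E₂) x)) :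
    ∃ X : Fin 4 → M → ℝ, (∀ i, ContMDiff 𝓘(ℝ, E₂) 𝓘(ℝ) ∞ (X i)) ∧
      ∀ (m : M) (v w : TangentSpace 𝓘(ℝ, E₂) m),
        ∑ i, mvfderiv 𝓘(ℝ, E₂) (X i) m v * mvfderiv 𝓘(ℝ, E₂) (X i) m w = g.inner m v w := by
  obtain ⟨X, hX, hi⟩ := manifold_of_tgen hE hT Φ g
  have hc : ∀ i : Fin 4, ContMDiff 𝓘(ℝ, E₂) 𝓘(ℝ) ∞ (fun m => X m i) := fun i =>
    ((EuclideanSpace.proj i : EuclideanSpace ℝ (Fin 4) →L[ℝ] ℝ).contDiff.contMDiff).comp hX
  refine ⟨fun i m => X m i, hc, fun m v w => ?_⟩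
  rw [← hi m v w]
  have hd : ∀ (i : Fin 4) (z : TangentSpace 𝓘(ℝ, E₂) m),
      mvfderiv 𝓘(ℝ, E₂) (fun m => X m i) m z = (mvfderiv 𝓘(ℝ, E₂) X m z) i := by
    intro i z
    have h1 : MDifferentiableAt 𝓘(ℝ, E₂) 𝓘(ℝ, EuclideanSpace ℝ (Fin 4)) X m :=
      (hX m).mdifferentiableAt (by simp)
    have h2 : HasMFDerivAt 𝓘(ℝ, EuclideanSpace ℝ (Fin 4)) 𝓘(ℝ, ℝ)
        (fun y : EuclideanSpace ℝ (Fin 4) => y i) (X m)
        (EuclideanSpace.proj i : EuclideanSpace ℝ (Fin 4) →L[ℝ] ℝ) :=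
      ((EuclideanSpace.proj i : EuclideanSpace ℝ (Fin 4) →L[ℝ] ℝ).hasFDerivAt).hasMFDerivAt
    have h3 := h2.comp m h1.hasMFDerivAt
    have h4 := h3.mfderiv
    exact congrArg (fun L : TangentSpace 𝓘(ℝ, E₂) m →L[ℝ] ℝ => L z) h4
  rw [PiLp.inner_apply]
  refine Finset.sum_congr rfl (fun i _ => ?_)
  rw [hd, hd]
  simp [mul_comm]

end Vale.Agent.P205.Mfd
end
end

section

section

namespace Vale.Agent.P205

/-- **Every smooth Riemannian metric on `ℝ²/ℤ²` immerses smoothly and isometrically in `ℝ⁴`.** -/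
theorem tgen : TGen :=
  Unif.tgen_of (Net.tconf_of_tdiag tdiag) (Unif.tunif_of_tbel Belt.tbel)

end Vale.Agent.P205
end
end
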